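import Vale.Agent.P283R.Cq.St
import Vale.Agent.P283R.Sf.Spa27
import Vale.Agent.P283R.Sg.Gg27
import Vale.Agent.P283R.Sg.Top20
import Vale.Agent.P283R.C3.Fm
import Vale.Agent.P283R.Bh.Hel

/-!
# P283R, block CQ: the Cox data of the base
-/

open Set CategoryTheory AlgebraicGeometry

noncomputable section

namespace Vale.Agent.P283R.Cq

namespace B20

open Vale.Agent.P287D Vale.Agent.P283R.Cx Vale.Agent.P283R.Sg Vale.Agent.P297Z

theorem cox {K : Type} [Field K] [Algebra ℂ K] {k N : ℕ} {T : Set (Pl K)} {D : Pl K → Fin k → ℤ}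
    (fin : ∀ (φ : K) m, {P | P ∈ T ∧ P.ord φ + m ⬝ᵥ D P ≠ 0}.Finite)
    (ft : ∀ G : Pl K → ℤ, {P | P ∈ T ∧ G P ≠ 0}.Finite →
      ∃ m ψ, ψ ≠ 0 ∧ ∀ P ∈ T, G P = P.ord ψ + m ⬝ᵥ D P) (gen : Sl.GradedGen N (Sec T D)) :
    ∃ (s : Fin N → K) (a : Fin N → Fin k → ℤ), Cox T D s a := by
  classical
  obtain ⟨R, -, h2, h3, -⟩ := gg27 K k T D
  obtain ⟨s, a, hR⟩ := h3 N gen
  let s' : Fin N → K := fun j => if s j = 0 then 1 else s j
  let a' : Fin N → Fin k → ℤ := fun j => if s j = 0 then 0 else a j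
  have eR : Algebra.adjoin ℂ (range fun j => sg (a' j) (s' j)) = R := by
    rw [← hR]
    refine le_antisymm (Algebra.adjoin_le ?_) (Algebra.adjoin_le ?_)
    · rintro _ ⟨j, rfl⟩
      by_cases z : s j = 0
      · simp only [s', a', if_pos z]
        exact one_mem _
      · simp only [s', a', if_neg z]
        exact Algebra.subset_adjoin ⟨j, rfl⟩
    · rintro _ ⟨j, rfl⟩
      by_cases z : s j = 0
      · have : sg (a j) (s j) = 0 := by rw [z]; exact AddMonoidAlgebra.single_zero _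
        simp only [this]
        exact zero_mem _
      · exact Algebra.subset_adjoin ⟨j, by simp only [s', a', if_neg z]⟩
  have sec : ∀ m φ, φ ≠ 0 → (φ ∈ Sp s' a' m ↔ ∀ P ∈ T, 0 ≤ P.ord φ + m ⬝ᵥ D P) := fun m φ φ0 => by
    rw [← Sf.spa27, eR, h2]
    exact ⟨fun h => h φ0, fun h _ => h⟩
  refine ⟨s', a', fun j => ?_, sec, fin, fun φ => ?_, fun m => ?_⟩
  · by_cases z : s j = 0 <;> simp [s', z]
  · by_cases φ0 : φ = 0
    · exact ⟨0, 0, zero_mem _, 1, (sec 0 1 one_ne_zero).2 (by simp), one_ne_zero, by simp [φ0]⟩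
    obtain ⟨m, ψ, ψ0, h⟩ := ft (fun P => max 0 (-P.ord φ)) ((fin φ 0).subset fun P p =>
      ⟨p.1, fun z => p.2 (by rw [zero_dotProduct, add_zero] at z; simp [z])⟩)
    refine ⟨m, φ * ψ, (sec _ _ (mul_ne_zero φ0 ψ0)).2 fun P p => ?_, ψ,
      (sec _ _ ψ0).2 fun P p => ?_, ψ0, (mul_div_cancel_right₀ φ ψ0).symm⟩
    · have := h P p
      rw [Pl.ord_mul _ φ0 ψ0]
      omega
    · have := h P p
      omega
  · obtain ⟨m', ψ, ψ0, h⟩ := ft (fun P => max 0 (-(m ⬝ᵥ D P))) ((fin 1 m).subset fun P p =>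
      ⟨p.1, fun z => p.2 (by rw [Pl.ord_one, zero_add] at z; simp [z])⟩)
    refine ⟨m', ψ, (sec _ _ ψ0).2 fun P p => ?_, ψ, (sec _ _ ψ0).2 fun P p => ?_, ψ0, ψ0⟩
    · have := h P p
      rw [add_dotProduct]
      omega
    · have := h P p
      omega

open Vale.Agent.P283M.Stm Vale.Agent.P283M.Stm.Var Vale.Agent.P283M Vale.Agent.P283M.Br
open Vale.Agent.P283R.Gl Vale.Agent.P283R.Sg.T20

theorem kfin {X : Var} {c : ℕ} (hK : FF X.K c) {y : Fin c → X.K} (hy : AlgebraicIndependent ℂ y) :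
    {E : X.PrimeDiv | kap y (pq E) ≠ 0}.Finite := by
  rcases c with _ | n
  · exact finite_empty.subset fun E _ => Cb.no_pl hK (pq E)
  obtain ⟨f, -, ef⟩ := Cb.kap_cn hK hy
  refine ((C3.F65.fin_cn hK).union (fin X f)).subset fun E a => by_contra fun b => a ?_
  rw [mem_union, not_or] at b
  rw [ef, Pi.add_apply, dv_apply, not_not.1 b.1, ← pq_ord, not_not.1 b.2, Int.cast_zero, add_zero]

theorem base {X : Var} {l k : ℕ} (D : Fin k → X.PrimeDiv)
    (g : Sl.GradedGen l (Sec (pls (X := X) ⊤) (dvs fun i => .single (D i) 1)))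
    (h : ∀ G : X.PrimeDiv →₀ ℤ, ∃ (m : Fin k → ℤ) (φ : X.K), φ ≠ 0 ∧
      ∀ E, G E = ord φ E + ∑ i, m i * Finsupp.single (D i) (1 : ℤ) E) :
    ∃ (c : ℕ) (b : Ba X.K c), b.Ok l ∧ b.T = range pq := by
  classical
  obtain ⟨c, hK⟩ := Md.exists_ff X
  obtain ⟨y, hy, -⟩ := id hK
  have ft : ∀ G : Pl X.K → ℤ, {P | P ∈ pls (X := X) ⊤ ∧ G P ≠ 0}.Finite → ∃ m ψ, ψ ≠ 0 ∧
      ∀ P ∈ pls (X := X) ⊤, G P = P.ord ψ + m ⬝ᵥ dvs (fun i => .single (D i) 1) P := fun G f => by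
    obtain ⟨m, φ, φ0, e⟩ := h (Finsupp.ofSupportFinite (fun E => G (pq E))
      ((f.preimage pq_inj.injOn).subset fun E a => ⟨⟨E, trivial, rfl⟩, a⟩))
    refine ⟨m, φ, φ0, ?_⟩
    rintro _ ⟨E, -, rfl⟩
    rw [dot, ← pq_ord]
    exact e E
  obtain ⟨σ, a, cx⟩ := cox (fun φ m => fn ((fin X φ).union (finite_range D)) fun E a =>
    by_contra fun b => a (by
      rw [mem_union, not_or] at b
      rw [dot, Mt.sum_zero m b.2, ← pq_ord, not_not.1 b.1, add_zero])) ft g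
  choose z hz using Cb.kap_int y
  obtain ⟨e, j, j0, ej⟩ := ft z (fn (kfin hK hy) fun E a b => a (by
    rw [hz] at b
    exact_mod_cast b))
  choose dg lam l0 hl using fun p => ft (fun p' => if p' = p then 1 else 0)
    ((finite_singleton p).subset fun p' a => by_contra fun b => a.2 (if_neg b))
  refine ⟨c, ⟨k, l, pls ⊤, dvs fun i => .single (D i) 1, σ, a, y, j, e, lam, dg,
    Finset.univ.image fun i => pq (D i)⟩, ⟨hK, Cb.fr_of hK hy, cx, ⟨j0, fun P p => ?_⟩, l0,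
      fun p _ p' b => (hl p p' b).symm, ?_, le_rfl,
      Finset.card_image_le.trans (by simpa using Bh.le_of_cox cx)⟩,
    Set.ext fun P => ⟨fun ⟨E, _, e⟩ => ⟨E, e⟩, fun ⟨E, e⟩ => ⟨E, trivial, e⟩⟩⟩
  · rw [hz, ej P p, Int.cast_add]
  · rintro _ ⟨E, -, rfl⟩ b
    funext i
    refine (Cox.up_eq _ (pq_is E).dom).trans (Finsupp.single_eq_of_ne ?_)
    rintro rfl
    exact b (Finset.mem_image_of_mem _ (Finset.mem_univ i))

end B20

open Vale.Agent.P287D Sl Sl.Var Sg Sg.T20 in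
/-- **BASE** -/
theorem base20 : BASE := fun Y l k D g h => by
  have es : (fun m => sections (all Y.X) (comb (fun i => Finsupp.single (D i) 1) m)) =
      Sec (pls (X := Y.o) ⊤) (dvs (X := Y.o) fun i => .single (D i) 1) :=
    funext fun m => Set.ext fun φ => (sec (X := Y.o) _ m φ).symm
  refine B20.base (X := Y.o) D (es ▸ g) fun G => ?_
  obtain ⟨m, φ, φ0, e⟩ := h G
  exact ⟨m, φ, φ0, fun E => Int.cast_injective (α := ℚ) (e E trivial)⟩

end Vale.Agent.P283R.Cq
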