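import Vale.Agent.P283R.Cq.St
import Vale.Agent.P283R.Wd.Hz66

/-!
# P283R, block CQ: Caratheodory
-/

open Set

noncomputable section

namespace Vale.Agent.P283R.Cq

open Vale.Agent.P287D Vale.Agent.P283M Vale.Agent.P297Z Cx

/-- **CAR** -/
theorem car13 : CAR := by
  intro L K _ _ _ _ _ _ c ρ b y T J fm
  classical
  have y0 := fm.ext.ind.ne_zero
  have fin : (Kt y T J).Finite := by
    refine ((finite_iUnion fun j => fm.fin (y j)).union
      (J.finite_toSet.biUnion fun p _ => fm.fin (algebraMap L K p.t))).subset fun P ⟨a, h, e⟩ => ?_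
    obtain k | ⟨p, -, k⟩ := fm.pg P a
    · obtain ⟨j, hj⟩ : ∃ j, P.ord (y j) ≠ 0 := by
        by_contra! z
        exact h fun φ u φ0 => by simp [ord_hm y0 P φ0, z, k.ord φ]
      exact .inl (mem_iUnion.2 ⟨j, a, hj⟩)
    · exact .inr (mem_biUnion (by_contra fun z => e p z k : p ∈ J) ⟨a, k.e_pos.ne'⟩)
  refine ⟨fin, ⟨_, fm.mis.toFinset.filter (· ∉ J), fun p => by
    simp only [Finset.mem_filter, Finite.mem_toFinset, mem_ofPred_eq]
    tauto, rfl⟩, fun Q ξ h => ?_⟩
  let S := fin.toFinset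
  have hS : ∀ P, P ∈ S ↔ P ∈ Kt y T J := fun P => fin.mem_toFinset
  let ν : Pl K → Pl L → ℤ := fun P p => if At P p then mu P p else 0
  have hν : ∀ P ∈ S, ∀ φ : L, P.ord (algebraMap L K φ) = ∑ p : J, ν P p * p.1.ord φ :=
    fun P hP φ => by
      obtain ⟨a, -, e⟩ := (hS P).1 hP
      obtain k | ⟨p, -, k⟩ := fm.pg P a
      · rw [k.ord φ, Finset.sum_eq_zero fun p _ => ?_]
        simp only [ν, mu, k.ord _, ite_self, zero_mul]
      · rw [Finset.sum_eq_single ⟨p, by_contra fun z => e p z k⟩ (fun p' _ n => ?_) (by simp)]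
        · simp only [ν, if_pos k, mu, k.ord φ]
        · simp only [ν]
          rw [if_neg fun z : At P p'.1 => n (Subtype.ext (z.uniq k)), zero_mul]
  let w : S → (Fin ρ ⊕ J → ℝ) := fun P => Sum.elim (fun j => P.1.ord (y j)) fun p => ν P p
  obtain ⟨ζ, z0, z1, z2⟩ := Wd.Z66.car w _ (fun P => ξ P) le_rfl fun P => h.nn P
  have z3 : ∀ i, ∑ P, (ζ P - ξ P) * w P i = 0 := fun i => by
    have := congrFun z1 i
    simp only [Finset.sum_apply, Pi.smul_apply, smul_eq_mul] at this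
    simp only [sub_mul, Finset.sum_sub_distrib, this, sub_self]
  let ξ' : Pl K → ℝ := fun P => if k : P ∈ S then ζ ⟨P, k⟩ else ξ P
  have e1 : ∀ P : S, ξ' P = ζ P := fun P => dif_pos P.2
  have e2 : ∀ P ∉ S, ξ' P = ξ P := fun P k => dif_neg k
  refine ⟨ξ', (Finset.univ.filter fun P : S => ζ P ≠ 0).image (↑), ⟨fun P => ?_, fun P k => ?_,
    fun φ u φ0 => ?_⟩, Finset.card_image_le.trans ?_, fun P k => ?_, fun P k n => ?_,
    fun P k => e2 P (mt (hS P).1 k)⟩
  · by_cases k : P ∈ S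
    · exact (e1 ⟨P, k⟩).symm ▸ z0 _
    · exact (e2 P k).symm ▸ h.nn P
  · by_cases m : P ∈ S
    · exact ⟨((hS P).1 m).1, ((hS P).1 m).2.1⟩
    · exact h.sup P (e2 P m ▸ k)
  · have f : (Function.support fun P => ξ P * (P.ord (hm y φ u) : ℝ)).Finite :=
      (fm.fin _).subset fun P k =>
        ⟨(h.sup P (left_ne_zero_of_mul k)).1, Int.cast_ne_zero.1 (right_ne_zero_of_mul k)⟩
    have g : (Function.support fun P => (ξ' P - ξ P) * (P.ord (hm y φ u) : ℝ)) ⊆ S := fun P k =>
      by_contra fun m => k (by simp only [e2 P m, sub_self, zero_mul])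
    have : ∑ᶠ P, (ξ' P - ξ P) * (P.ord (hm y φ u) : ℝ) = 0 := by
      rw [finsum_eq_sum_of_support_subset _ g, ← Finset.sum_coe_sort]
      have o : ∀ P : S, (P.1.ord (hm y φ u) : ℝ) = ∑ p : J, p.1.ord φ * w P (.inr p) +
          ∑ j, u j * w P (.inl j) := fun P => by
        rw [ord_hm y0 _ φ0, hν P P.2]
        simp [w, mul_comm]
      simp only [e1, o, mul_add, Finset.mul_sum, Finset.sum_add_distrib]
      rw [Finset.sum_comm, Finset.sum_comm (s := (Finset.univ : Finset S)),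
        Finset.sum_eq_zero fun j _ => ?_, Finset.sum_eq_zero fun p _ => ?_, add_zero]
      · rw [← mul_zero (u p : ℝ), ← z3 (.inl p), Finset.mul_sum]
        exact Finset.sum_congr rfl fun _ _ => by ring
      · rw [← mul_zero (j.1.ord φ : ℝ), ← z3 (.inr j), Finset.mul_sum]
        exact Finset.sum_congr rfl fun _ _ => by ring
    rw [← h.eq φ u φ0, ← add_zero (∑ᶠ P, ξ P * _), ← this,
      ← finsum_add_distrib f (S.finite_toSet.subset g)]
    exact finsum_congr fun P => by ring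
  · exact z2.trans (by simp)
  · obtain ⟨P, -, rfl⟩ := Finset.mem_image.1 k
    exact (hS _).1 P.2
  · exact Finset.mem_image.2 ⟨⟨P, (hS P).2 k⟩, by simpa [← e1] using n, rfl⟩

end Vale.Agent.P283R.Cq
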