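import Vale.Agent.P283R.Cq.St
import Vale.Agent.P283R.Wd.Gq95
import Vale.Agent.P283R.Pq.Hg68

/-!
# P283R, block CQ: the counting form of the inequality
-/

open Set

noncomputable section

namespace Vale.Agent.P283R.Cq

open Vale.Agent.P287D Vale.Agent.P283M Vale.Agent.P297Z Cx

namespace N68

variable {L K : Type} [Field L] [Algebra ℂ L] [Field K] [Algebra ℂ K] [Algebra L K] {c ρ : ℕ}
  {b : Ba L c} {y : Fin ρ → K} {T : Set (Pl K)} {ξ : Pl K → ℝ}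

omit [Algebra ℂ L] in
theorem ff (hξ : ∀ P, ξ P ≠ 0 → P ∈ T) {F : Pl K → ℤ} (hF : {P | P ∈ T ∧ F P ≠ 0}.Finite) :
    (Function.support fun P => ξ P * (F P : ℝ)).Finite :=
  hF.subset fun P z => ⟨hξ P (left_ne_zero_of_mul z), Int.cast_ne_zero.1 (right_ne_zero_of_mul z)⟩

/-- the weighted order of a homogeneous function -/
theorem fs_hm (X : Fm b y T) (hξ : ∀ P, ξ P ≠ 0 → P ∈ T) {φ : L} (h : φ ≠ 0) (u : Fin ρ → ℤ) :
    ∑ᶠ P, ξ P * P.ord (hm y φ u) = ∑ᶠ P, ξ P * P.ord (algebraMap L K φ) +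
      ∑ j, u j * ∑ᶠ P, ξ P * P.ord (y j) := by
  have fi : ∀ (a : ℝ) (x : K), (Function.support fun P => a * ξ P * (P.ord x : ℝ)).Finite :=
    fun a x => ff (fun P z => hξ P (right_ne_zero_of_mul z)) (X.fin x)
  simp only [← Pq.fs_mul _ _ fun P : Pl K => P.ord _]
  rw [← finsum_sum_comm _ _ fun j _ => fi _ _, ← finsum_add_distrib (ff hξ (X.fin _))]
  · refine finsum_congr fun P => ?_
    rw [ord_hm X.ext.ind.ne_zero P h]
    push_cast
    simp only [mul_add, Finset.mul_sum]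
    exact congrArg _ (Finset.sum_congr rfl fun _ _ => by ring)
  · exact ((Finset.univ.finite_toSet.biUnion fun j _ => fi (u j) (y j))).subset
      (Finset.support_sum _ _)

variable {q : ℕ} {ε : ℝ} {κ : Pl K → ℤ} {ψ : (Fin ρ → ℤ) →₀ L}

/-- the inequality at a place `R` with `e * ord_R = ∑ ξ_P ord_P` on homogeneous functions -/
theorem hwg (ε0 : 0 ≤ ε) (g0 : lv y ψ ≠ 0) (hw : Hw q ε b y T (lv y ψ) κ) (R : Pl K) {e : ℝ}
    (e0 : 0 < e) {A : ℝ} (hA : e * (cz b y R + 1) ≤ A) (ξ0 : 0 ≤ ξ)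
    (hξ : ∀ P, ξ P ≠ 0 → P ∈ T ∧ ¬ Hz L y P)
    (oa : ∀ (φ : L) u, φ ≠ 0 → ∑ᶠ P, ξ P * P.ord (hm y φ u) = e * R.ord (hm y φ u)) :
    ∃ u, ψ u ≠ 0 ∧ ∑ᶠ P, ξ P * P.ord (hm y (ψ u) u) + ∑ᶠ P, ξ P * κ P ≤ q * A := by
  obtain ⟨u, hu, -, hu'⟩ := Wd.ord_sum_ge ψ.support (fun m => hm y (ψ m) m) g0 R
  have u0 := Finsupp.mem_support_iff.1 hu
  refine ⟨u, u0, ?_⟩
  have h1 := hw R (fun P => e⁻¹ * ξ P) ⟨fun P => mul_nonneg (by positivity) (ξ0 P),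
    fun P z => hξ P (right_ne_zero_of_mul z), fun φ u h => by
      rw [Pq.fs_mul _ _ (fun P : Pl K => P.ord _), oa φ u h, inv_mul_cancel_left₀ e0.ne']⟩
  rw [Pq.fs_mul _ _ κ] at h1
  have h3 : (R.ord (hm y (ψ u) u) : ℝ) ≤ R.ord (lv y ψ) := Int.cast_le.2 hu'
  have h5 := mul_nonneg e0.le (mul_nonneg ε0 (Nat.cast_nonneg (α := ℝ) q))
  have h6 := mul_le_mul_of_nonneg_left hA (Nat.cast_nonneg (α := ℝ) q)
  have h8 := mul_le_mul_of_nonneg_left h1 e0.le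
  rw [mul_sub, mul_inv_cancel_left₀ e0.ne'] at h8
  rw [oa _ u u0]
  nlinarith [mul_le_mul_of_nonneg_left h3 e0.le]

/-- the inequality at the trivial valuation -/
theorem hw0 (X : Fm b y T) {g : K} (hw : Hw q ε b y T g κ) (κf : {P | P ∈ T ∧ κ P ≠ 0}.Finite)
    {Q : Pl K} {ζ : Pl K → ℝ} (r : Rep L y T Q ζ) (ξ0 : 0 ≤ ξ)
    (hξ : ∀ P, ξ P ≠ 0 → P ∈ T ∧ ¬ Hz L y P)
    (oa : ∀ (φ : L) u, φ ≠ 0 → ∑ᶠ P, ξ P * P.ord (hm y φ u) = 0) : ∑ᶠ P, ξ P * κ P ≤ 0 := by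
  have ad : ∀ (a : ℝ) (F : Pl K → ℤ), {P | P ∈ T ∧ F P ≠ 0}.Finite →
      ∑ᶠ P, (a * ξ P + ζ P) * F P = a * ∑ᶠ P, ξ P * F P + ∑ᶠ P, ζ P * F P := fun a F hF => by
    simp only [add_mul]
    rw [finsum_add_distrib (ff (fun P z => (hξ P (right_ne_zero_of_mul z)).1) hF)
      (ff (fun P z => (r.sup P z).1) hF), Pq.fs_mul]
  have key : ∀ a : ℝ, 0 ≤ a → ε * q ≤ q * (cz b y Q + 1) - Q.ord g -
      (a * ∑ᶠ P, ξ P * κ P + ∑ᶠ P, ζ P * κ P) := fun a a0 => by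
    have := hw Q (fun P => a * ξ P + ζ P) ⟨fun P => add_nonneg (mul_nonneg a0 (ξ0 P)) (r.nn P),
      fun P h => by
        by_cases z : ζ P = 0
        · exact hξ P fun z' => h (by simp [z, z'])
        · exact r.sup P z,
      fun φ u h => by
        rw [ad a (fun P => P.ord _) (X.fin _), oa φ u h, r.eq φ u h, mul_zero, zero_add]⟩
    rwa [ad a κ κf] at this
  by_contra hc
  rw [not_le] at hc
  obtain ⟨m, hm⟩ := exists_nat_gt ((q * (cz b y Q + 1) - Q.ord g - ∑ᶠ P, ζ P * κ P - ε * q) /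
    ∑ᶠ P, ξ P * κ P)
  rw [div_lt_iff₀ hc] at hm
  have := key m (Nat.cast_nonneg m)
  linarith

end N68

open N68

/-- **CNR** -/
theorem cnr68 : CNR := by
  intro z L K _ _ _ _ _ _ c ρ b y T l d q ε ψ κ Q ζ ξ v A ε0 pk r ξ0 hξ hv H
  have X := pk.fm
  obtain ⟨z1, -, -, -, -, z6⟩ := z L K c ρ b.s y X.ext pk.ok.fr
  have fs := fun (φ : L) (h : φ ≠ 0) u => fs_hm X (fun P k => (hξ P k).1) h u
  simp only [hv] at fs
  obtain ⟨h0, A0⟩ | ⟨R, a, a0, h1, h2⟩ := H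
  · by_cases v0 : v = 0
    · have oa : ∀ (φ : L) u, φ ≠ 0 → ∑ᶠ P, ξ P * P.ord (hm y φ u) = 0 := fun φ u h => by
        rw [fs φ h, h0 φ h, v0]
        simp
      obtain ⟨u, hu, -⟩ := Wd.ord_sum_ge ψ.support (fun m => hm y (ψ m) m) pk.g0 Q
      have u0 := Finsupp.mem_support_iff.1 hu
      refine ⟨u, u0, ?_⟩
      rw [oa _ u u0, zero_add]
      exact (hw0 X pk.hw pk.fin r ξ0 hξ oa).trans (by positivity)
    · obtain ⟨R, e, e0, t, r1, r2⟩ := z6 v v0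
      refine hwg ε0.le pk.g0 pk.hw R (e := e) (Nat.cast_pos.2 e0) ?_ ξ0 hξ fun φ u h => ?_
      · simpa [cz, r2, t.ord] using A0
      · rw [fs φ h, h0 φ h, ord_hm X.ext.ind.ne_zero R h, t.ord]
        simp only [r1, zero_add]
        push_cast
        rw [Finset.mul_sum]
        exact Finset.sum_congr rfl fun _ _ => by ring
  · obtain ⟨U, g⟩ := Wd.gq X.ext pk.ok.fr R a0 v
    have n0 : (0 : ℝ) < U.ord (algebraMap L K R.t) := Int.cast_pos.2 g.e_pos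
    refine hwg ε0.le pk.g0 pk.hw U (e := a / U.ord (algebraMap L K R.t)) (by positivity) ?_ ξ0 hξ
      fun φ u h => ?_
    · refine le_of_eq_of_le ?_ h2
      rw [cz, g.lies.ord b.h]
      push_cast
      rw [z1, g.lt]
      field_simp
      ring
    · have := congrArg (Int.cast (R := ℝ)) (g.ord φ u h)
      rw [fs φ h, h1 φ h, div_mul_eq_mul_div, eq_div_iff n0.ne']
      simp only [dotProduct] at this
      push_cast at this
      rw [this]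
      ring

end Vale.Agent.P283R.Cq
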