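import Vale.Agent.P283R.Pq.Gt68
import Vale.Agent.P283R.Pq.Gm67

/-!
# P283R, block CQ: the weights of Goldman and Tucker, abstract form
-/

open Set

noncomputable section

namespace Vale.Agent.P283R.Cq.G68

open Vale.Agent.P287D Vale.Agent.P297Z Vale.Agent.P283M

/-- Goldman and Tucker with ordinary pages -/
theorem gta {ι π Λ : Type} [AddCommGroup Λ] (O : ι → Λ →+ ℤ) (φ : Λ →+ ℤ) (I : Finset ι)
    {b : π → ι} (bI : ∀ p, b p ∉ I) (fin : ∀ a, {p | O (b p) a ≠ 0}.Finite) (l : π → Λ)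
    (l1 : ∀ p, O (b p) (l p) = 1) (l0 : ∀ p p', p ≠ p' → O (b p') (l p) = 0)
    (hψ : ∀ p, ∃ ψ, (∀ p', O (b p') ψ = 0) ∧ (∀ E ∈ I, O E (l p) ≤ O E ψ) ∧ φ ψ ≤ φ (l p))
    (ov : ∀ a, (∀ p, O (b p) a = 0) → (∀ E ∈ I, 0 ≤ O E a) → 0 ≤ φ a) :
    ∃ (ζ : ι → ℝ) (χ : Λ), 0 ≤ ζ ∧ (∀ E, ζ E ≠ 0 → E ∈ I ∨ E ∈ range b) ∧
      (∀ a, ∑ᶠ E, ζ E * O E a = φ a) ∧ (∀ p, O (b p) χ = 0) ∧ φ χ = 0 ∧
      ∀ E ∈ I, 0 ≤ O E χ ∧ (ζ E = 0 ↔ 0 < O E χ) := by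
  classical
  have bi : Function.Injective b := fun p p' e => by_contra fun z => by
    have := l0 p p' z
    rw [← e, l1] at this
    exact one_ne_zero this
  let Λ₀ : AddSubgroup Λ := ⨅ p, (O (b p)).ker
  have m0 : ∀ a, a ∈ Λ₀ ↔ ∀ p, O (b p) a = 0 := fun a => by simp [Λ₀, AddSubgroup.mem_iInf]
  obtain ⟨ξ, l₀, ξ0, h1, h2⟩ := Pq.G68.gt' (AddMonoidHom.pi fun E : I => (O E).comp Λ₀.subtype)
    (φ.comp Λ₀.subtype) fun a h => ov a ((m0 a).1 a.2) fun E e => h ⟨E, e⟩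
  replace h1 : ∀ a, (∀ p, O (b p) a = 0) → ∑ E : I, ξ E * O E a = φ a :=
    fun a h => h1 ⟨a, (m0 a).2 h⟩
  replace h2 : ∀ E : I, 0 ≤ O E l₀ ∧ (ξ E = 0 ↔ 0 < O E l₀) := h2
  let M : π → ℝ := fun p => φ (l p) - ∑ E : I, ξ E * O E (l p)
  have M0 : ∀ p, 0 ≤ M p := fun p => by
    obtain ⟨ψ, a, d, e⟩ := hψ p
    refine sub_nonneg.2 (le_trans ?_ (Int.cast_le.2 e))
    rw [← h1 ψ a]
    exact Finset.sum_le_sum fun E _ =>
      mul_le_mul_of_nonneg_left (Int.cast_le.2 (d E E.2)) (ξ0 E)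
  let ζ₁ : ι → ℝ := Function.extend Subtype.val ξ 0
  let ζ₂ : ι → ℝ := Function.extend b M 0
  have z1 : ∀ E, ζ₁ E ≠ 0 → E ∈ I := fun E z => by_contra fun e =>
    z (Function.extend_apply' _ _ _ fun ⟨E', e'⟩ => e (e' ▸ E'.2))
  have z2 : ∀ E, ζ₂ E ≠ 0 → E ∈ range b := fun E z => by_contra fun e =>
    z (Function.extend_apply' _ _ _ e)
  refine ⟨fun E => ζ₁ E + ζ₂ E, l₀, fun E => add_nonneg ?_ ?_, fun E z => ?_, fun a => ?_,
    (m0 _).1 l₀.2, ?_, fun E e => ⟨(h2 ⟨E, e⟩).1, ?_⟩⟩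
  · by_cases e : ζ₁ E = 0
    · exact e.ge
    · exact (ξ0 ⟨E, z1 E e⟩).trans_eq (Subtype.val_injective.extend_apply ξ 0 ⟨E, z1 E e⟩).symm
  · by_cases e : ζ₂ E = 0
    · exact e.ge
    · obtain ⟨r, rfl⟩ := z2 E e
      exact (M0 r).trans_eq (bi.extend_apply M 0 r).symm
  · by_cases e : ζ₁ E = 0
    · exact .inr (z2 E fun e' => z (by simp only [e, e', add_zero]))
    · exact .inl (z1 E e)
  · let S := (fin a).toFinset
    have hS : ∀ p ∉ S, O (b p) a = 0 := fun p e => by_contra fun z => e ((fin a).mem_toFinset.2 z)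
    have k := h1 (a - ∑ p ∈ S, O (b p) a • l p) fun p => by
      rw [map_sub, map_sum, Finset.sum_eq_single p (fun p' _ e => by rw [map_zsmul, l0 _ _ e,
        smul_zero]) fun e => by rw [hS p e, zero_smul, map_zero], map_zsmul, l1, smul_eq_mul,
        mul_one, sub_self]
    simp only [add_mul]
    rw [finsum_add_distrib (I.finite_toSet.subset fun E z => z1 E (left_ne_zero_of_mul z))
      (((fin a).image b).subset fun E z => by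
        obtain ⟨p, rfl⟩ := z2 E (left_ne_zero_of_mul z)
        exact ⟨p, Int.cast_ne_zero.1 (right_ne_zero_of_mul z), rfl⟩),
      Pq.H45.fs_ext Subtype.val_injective, Pq.H45.fs_ext bi, finsum_eq_sum_of_fintype,
      finsum_eq_sum_of_support_subset (s := S) _ fun p z => by_contra fun e =>
        z (by simp only [hS p e, Int.cast_zero, mul_zero])]
    simp only [map_sub, map_sum, map_zsmul, smul_eq_mul] at k
    push_cast at k
    simp only [mul_sub, Finset.sum_sub_distrib, Finset.mul_sum] at k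
    simp only [M, sub_mul, Finset.sum_sub_distrib, Finset.sum_mul]
    rw [Finset.sum_comm] at k
    have e1 : ∑ p ∈ S, (φ (l p) : ℝ) * O (b p) a = ∑ p ∈ S, (O (b p) a : ℝ) * φ (l p) :=
      Finset.sum_congr rfl fun _ _ => mul_comm _ _
    have e2 : ∑ p ∈ S, ∑ E : I, ξ E * O E (l p) * O (b p) a =
        ∑ p ∈ S, ∑ E : I, ξ E * ((O (b p) a : ℝ) * O E (l p)) :=
      Finset.sum_congr rfl fun _ _ => Finset.sum_congr rfl fun _ _ => by ring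
    linarith
  · rw [← Int.cast_inj (α := ℝ), ← h1 l₀ ((m0 _).1 l₀.2), Int.cast_zero]
    refine Finset.sum_eq_zero fun E _ => ?_
    obtain d | d := (h2 E).1.eq_or_lt
    · exact mul_eq_zero_of_right _ (Int.cast_eq_zero.2 d.symm)
    · exact mul_eq_zero_of_left ((h2 E).2.2 d) _
  · have d : ζ₂ E = 0 := by_contra fun d => by
      obtain ⟨r, rfl⟩ := z2 E d
      exact bI r e
    have d' : ζ₁ E = ξ ⟨E, e⟩ := Subtype.val_injective.extend_apply ξ 0 ⟨E, e⟩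
    simp only [d, d', add_zero]
    exact (h2 ⟨E, e⟩).2

variable {K : Type} [Field K] [Algebra ℂ K]

/-- a term of least order in a span -/
theorem ex_span (Q : Pl K) {A : Set K} {x : K} (hx : x ∈ Submodule.span ℂ A) (x0 : x ≠ 0) :
    ∃ a ∈ A, a ≠ 0 ∧ Q.ord a ≤ Q.ord x := by
  obtain ⟨n, f, g, rfl⟩ := Submodule.mem_span_set'.1 hx
  obtain ⟨i, -, i0, k⟩ := Pq.G67.ex_sum Q _ _ x0
  rw [Pl.ord_smul _ (left_ne_zero_of_smul i0)] at k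
  exact ⟨g i, (g i).2, right_ne_zero_of_smul i0, k⟩

/-- **Goldman and Tucker** for a group `Ho` of functions -/
theorem gtk {π : Type} (Ho : K → Prop) (h0 : ∀ a, Ho a → a ≠ 0) (h1 : Ho 1)
    (hm : ∀ a b, Ho a → Ho b → Ho (a * b)) (hi : ∀ a, Ho a → Ho a⁻¹) (T : Set (Pl K))
    (I : Finset (Pl K)) (b : π → Pl K) (bI : ∀ p, b p ∉ I)
    (tri : ∀ P ∈ T, (∀ a, Ho a → P.ord a = 0) ∨ P ∈ I ∨ ∃ p, ∀ a, Ho a → P.ord a = (b p).ord a)
    (fin : ∀ a, Ho a → {p | (b p).ord a ≠ 0}.Finite) (l : π → K)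
    (lh : ∀ p, Ho (l p)) (l1 : ∀ p, (b p).ord (l p) = 1)
    (l0 : ∀ p p', p ≠ p' → (b p').ord (l p) = 0)
    (sp : ∀ p, l p ∈ Submodule.span ℂ
      {ψ | Ho ψ ∧ (∀ p', (b p').ord ψ = 0) ∧ ∀ E ∈ I, E.ord (l p) ≤ E.ord ψ})
    (Q : Pl K) (ov : ∀ a : K, a ≠ 0 → (∀ P ∈ T, 0 ≤ P.ord a) → 0 ≤ Q.ord a) :
    ∃ (ξ : Pl K → ℝ) (χ : K), 0 ≤ ξ ∧ (∀ E, ξ E ≠ 0 → E ∈ I ∨ E ∈ range b) ∧
      (∀ a, Ho a → ∑ᶠ E, ξ E * E.ord a = Q.ord a) ∧ Ho χ ∧ (∀ P ∈ T, 0 ≤ P.ord χ) ∧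
      Q.ord χ = 0 ∧ ∀ E ∈ I, ξ E = 0 ↔ 0 < E.ord χ := by
  let H : Subgroup Kˣ :=
    { carrier := {a | Ho a}
      one_mem' := h1
      mul_mem' := fun a b => hm _ _ a b
      inv_mem' := fun {a} h => by simpa using hi _ h }
  let O : Pl K → Additive H →+ ℤ := fun R => AddMonoidHom.mk' (fun a => R.ord (a.toMul : Kˣ))
    fun a b => Pl.ord_mul _ (Units.ne_zero _) (Units.ne_zero _)
  let mk : ∀ a, Ho a → Additive H := fun a h => Additive.ofMul ⟨Units.mk0 a (h0 a h), h⟩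
  have reg : ∀ a : Additive H, (∀ p, O (b p) a = 0) → (∀ E ∈ I, 0 ≤ O E a) →
      ∀ P ∈ T, 0 ≤ P.ord (a.toMul : Kˣ) := fun a e k P hP => by
    obtain z | z | ⟨p, z⟩ := tri P hP
    · exact (z _ a.toMul.2).ge
    · exact k P z
    · exact ((z _ a.toMul.2).trans (e p)).ge
  obtain ⟨ξ, χ, a1, a2, a3, a4, a5, a6⟩ := gta O (O Q) I bI (fun a => fin _ a.toMul.2)
    (fun p => mk _ (lh p)) l1 l0 (fun p => by
      obtain ⟨ψ, ⟨c1, c2, c3⟩, -, c4⟩ := ex_span Q (sp p) (h0 _ (lh p))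
      exact ⟨mk ψ c1, c2, c3, c4⟩) fun a e k => ov _ (Units.ne_zero _) (reg a e k)
  exact ⟨ξ, _, a1, a2, fun a h => a3 (mk a h), χ.toMul.2, reg χ a4 fun E e => (a6 E e).1, a5,
    fun E e => (a6 E e).2⟩

end Vale.Agent.P283R.Cq.G68
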