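import Vale.Agent.P283R.Wc.Hlr62

/-!
# P283R, block CQ: integer Helly with natural coordinates
-/

namespace Vale.Agent.P283R.Wc.H62

/-- integer Helly, the coordinates in `B` are natural numbers -/
theorem helN {A B ι : Type} [Fintype A] [Fintype B] (s : Finset ι) (ρ : ι → A → ℤ)
    (τ : ι → B → ℤ) (c : ι → ℤ) (p : A → ℤ) (p' : B → ℤ) (a : ℤ)
    (h : ∀ t ⊆ s, t.card ≤ 2 ^ (Fintype.card A + Fintype.card B) → ∃ (m : A → ℤ) (n : B → ℕ),
      (∀ i ∈ t, c i ≤ ∑ k, m k * ρ i k + ∑ k, n k * τ i k) ∧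
        ∑ k, m k * p k + ∑ k, n k * p' k < a) :
    ∃ (m : A → ℤ) (n : B → ℕ), (∀ i ∈ s, c i ≤ ∑ k, m k * ρ i k + ∑ k, n k * τ i k) ∧
      ∑ k, m k * p k + ∑ k, n k * p' k < a := by
  classical
  obtain ⟨m, h1, h2⟩ := hel (A := A ⊕ B) (s.disjSum (Finset.univ : Finset B))
    (Sum.elim (fun i => Sum.elim (ρ i) (τ i)) fun b => Pi.single (Sum.inr b) 1)
    (Sum.elim c 0) (Sum.elim p p') a fun t ht hc => by
      obtain ⟨m, n, h1, h2⟩ := h t.toLeft
        (fun i hi => by simpa using ht (Finset.mem_toLeft.1 hi))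
        (Finset.card_toLeft_le.trans (by rwa [Fintype.card_sum] at hc))
      refine ⟨Sum.elim m fun k => n k, ?_, by simpa [Fintype.sum_sum_type] using h2⟩
      rintro (i | b) hi
      · simpa [Fintype.sum_sum_type] using h1 i (Finset.mem_toLeft.2 hi)
      · simp [Pi.single_apply]
  have nn : ∀ b, 0 ≤ m (Sum.inr b) := fun b => by
    simpa [Pi.single_apply] using h1 (Sum.inr b) (by simp)
  refine ⟨fun k => m (Sum.inl k), fun k => (m (Sum.inr k)).toNat, fun i hi => ?_, ?_⟩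
  · simpa [Fintype.sum_sum_type, Int.toNat_of_nonneg (nn _)] using h1 (Sum.inl i) (by simpa)
  · simpa [Fintype.sum_sum_type, Int.toNat_of_nonneg (nn _)] using h2

end Vale.Agent.P283R.Wc.H62
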