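import Vale.Agent.P283R.Cq.St
import Vale.Agent.P283R.Cq.Hel62

/-!
# P283R, block CQ: integer Helly
-/

open Set

noncomputable section

namespace Vale.Agent.P283R.Cq

open Vale.Agent.P287D Vale.Agent.P283M Cx Cy
open Vale.Agent.P283R.To (mon)

namespace H62

variable {L K : Type} [Field L] [Algebra ℂ L] [Field K] [Algebra ℂ K] [Algebra L K] {c r : ℕ}

/-- the visible functions -/
def zz (b : Ba L c) (y : Fin r → K) (J : Finset (Pl L)) (f : L) : J ⊕ Fin r ⊕ Unit → K :=
  Sum.elim (fun p => algebraMap L K (b.lam p.1)) (Sum.elim y fun _ => algebraMap L K f)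

omit [Algebra ℂ K] in
theorem mo {b : Ba L c} {y : Fin r → K} {J J' : Finset (Pl L)} {f : L} {φ : K}
    (hJ : ∀ p, p ∈ J ∧ p ∈ b.T → p ∈ J') (h : Mo b y J f φ) :
    ∃ (l : J' ⊕ Fin r ⊕ Unit → ℤ) (w : Fin b.N → ℕ),
      φ = mon (zz b y J' f) l * mon (fun j => algebraMap L K (b.σ j)) fun j => w j := by
  obtain ⟨n, v, a, w, hn, rfl⟩ := h
  refine ⟨Sum.elim (fun p => n p.1) (Sum.elim v fun _ => -a), w, ?_⟩
  simp only [mon, zz, Fintype.prod_sum_type, Sum.elim_inl, Sum.elim_inr, hm,
    Finset.univ_unique, Finset.prod_singleton, zpow_neg, zpow_natCast]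
  rw [Finsupp.prod_of_support_subset n (fun p hp => hJ p (hn p hp)) _ fun _ _ => zpow_zero _,
    Finset.prod_coe_sort J' fun p => algebraMap L K (b.lam p) ^ n p]
  simp only [map_div₀, map_mul, map_prod, map_pow, map_zpow₀]
  ring

theorem sp_gen {N k : ℕ} (s : Fin N → L) (a : Fin N → Fin k → ℤ) (j : Fin N) :
    s j ∈ Sp s a (a j) := by
  refine Submodule.subset_span ⟨Pi.single j 1, ?_, ?_⟩
  · funext i
    simp [dg, Pi.single_apply]
  · simp [Pi.single_apply, pow_ite]

end H62

open H62

/-- **HLR** -/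
theorem hlr62 : HLR := fun drp car mon' B q ε q0 ε0 => by
  classical
  obtain ⟨W, m, m2, hm'⟩ := mon' (2 ^ (3 * B + 1) + 2 * B) q ε q0 ε0
  refine ⟨W, m, m2, fun L K _ _ _ _ _ _ c r ρ b y u T l ψ κ Q ξ I J hl hd hJ S => ?_⟩
  have fm := S.pk.fm
  have ok := S.pk.ok
  obtain ⟨fin, ⟨f, hf⟩, rp⟩ := car L K c (r + ρ) b _ T J fm
  obtain ⟨ξ', t, r', tc, tK, ts, eo⟩ := rp Q ξ S.rep
  let J' := J.filter (· ∈ b.T)
  have y0 : ∀ j, y j ≠ 0 := fun j =>
    Fin.append_left y u j ▸ fm.ext.ind.ne_zero (Fin.castAdd ρ j)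
  have f0 : f ≠ 0 := by
    obtain ⟨E, -, rfl⟩ := hf
    exact Finset.prod_ne_zero_iff.2 fun p _ => ok.l0 p
  have z0 : ∀ a, zz b y J' f a ≠ 0 := by
    rintro (p | j | _)
    exacts [(map_ne_zero _).2 (ok.l0 _), y0 _, (map_ne_zero _).2 f0]
  have s0 : ∀ j, algebraMap L K (b.σ j) ≠ 0 := fun j => (map_ne_zero _).2 (ok.cox.ne j)
  have g0 := S.pk.g0
  have om : ∀ (P : Pl K) l (w : Fin b.N → ℕ), P.ord (mon (zz b y J' f) l *
      mon (fun j => algebraMap L K (b.σ j)) fun j => w j) = ∑ a, l a * P.ord (zz b y J' f a) +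
        ∑ j, w j * P.ord (algebraMap L K (b.σ j)) := fun P l w => by
    rw [P.ord_mul (To.mon_ne z0 l) (To.mon_ne s0 _), To.ord_mon P z0, To.ord_mon P s0]
  have cd : Fintype.card (J' ⊕ Fin r ⊕ Unit) + Fintype.card (Fin b.N) ≤ 3 * B + 1 := by
    simp only [Fintype.card_sum, Fintype.card_coe, Fintype.card_fin, Fintype.card_unique]
    have := J.card_filter_le (· ∈ b.T)
    have := ok.bN
    have : J'.card = (J.filter (· ∈ b.T)).card := rfl
    omega
  obtain ⟨l', w, h1, h2⟩ := Wc.H62.helN fin.toFinset (fun P a => P.ord (zz b y J' f a))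
    (fun P j => P.ord (algebraMap L K (b.σ j))) (fun P => m * κ P)
    (fun a => Q.ord (zz b y J' f a)) (fun j => Q.ord (algebraMap L K (b.σ j)))
    (q * m * (cz b (Fin.append y u) Q + 1) - Q.ord (lv (Fin.append y u) ψ ^ m)) fun t' ht' c' => by
      let X := Kt (Fin.append y u) T J \ ↑(t' ∪ t)
      have nx : ∀ P p, p ∉ J → At P p → P ∉ Kt (Fin.append y u) T J :=
        fun P p hp a k => k.2.2 p hp a
      have ex : ∀ p ∉ J, ∀ P, At P p → (P ∈ T \ X ↔ P ∈ T) := fun p hp P a =>
        ⟨fun k => k.1, fun k => ⟨k, fun x => nx P p hp a x.1⟩⟩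
      have kt : Kt (Fin.append y u) (T \ X) J ⊆ ↑(t' ∪ t) := fun P k => by
        by_contra x
        exact k.1.2 ⟨⟨k.1.1, k.2⟩, x⟩
      have S' : Sc W l q ε b y u (T \ X) ψ κ Q ξ' I J :=
        { pk := drp L K c (r + ρ) b _ T l _ q ε _ κ X S.pk (fin.subset sdiff_subset)
            fun P k => k.1.2.1
          g0 := S.g0
          rep := ⟨r'.nn, fun P k => ⟨⟨(r'.sup P k).1, fun x => x.2 (by
            rw [Finset.coe_union]
            exact Or.inr (ts P x.1 k))⟩, (r'.sup P k).2⟩, r'.eq⟩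
          pos := fun P k p hp hp' a => by
            rw [eo P (nx P p hp' a)]
            exact S.pos P k.1 p hp hp' a
          od := ⟨S.od.co, fun P k => S.od.od P k.1⟩
          y1 := fun P k => S.y1 P k.1
          u0 := fun P k => S.u0 P k.1
          wi := fun ν h => (S.wi ν h).trans_eq (by
            congr 1
            ext p
            refine and_congr_right fun _ => and_congr_right fun hp => ⟨?_, ?_⟩
            · rintro ⟨P, k, P', k', a, a', e⟩
              exact ⟨P, (ex p hp P a).2 k, P', (ex p hp P' a').2 k', a, a', e⟩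
            · rintro ⟨P, k, P', k', a, a', e⟩
              exact ⟨P, k.1, P', k'.1, a, a', e⟩) }
      have hf' : Ef b (T \ X) J f := by
        obtain ⟨E, e1, e2⟩ := hf
        refine ⟨E, fun p => (e1 p).trans (and_congr_right fun _ =>
          and_congr_right fun hp => not_congr ⟨?_, ?_⟩), e2⟩
        · rintro ⟨P, k, a⟩
          exact ⟨P, (ex p hp P a).2 k, a⟩
        · rintro ⟨P, k, a⟩
          exact ⟨P, k.1, a⟩
      have pw : 2 ^ (Fintype.card (J' ⊕ Fin r ⊕ Unit) + Fintype.card (Fin b.N)) ≤ 2 ^ (3 * B + 1) :=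
        Nat.pow_le_pow_right (by norm_num) cd
      obtain ⟨φ, mφ, k1, k2⟩ := hm' L K c r ρ b y u (T \ X) l ψ κ Q ξ' I J f
        (hl.trans (le_add_left (by omega))) (hd.trans (le_add_left (by omega)))
        (hJ.trans (le_add_left (by omega))) S' hf' (by
          refine (ncard_le_ncard kt (Finset.finite_toSet _)).trans ?_
          rw [ncard_coe_finset]
          exact (Finset.card_union_le t' t).trans (add_le_add (c'.trans pw) (by omega)))
      obtain ⟨l', w, rfl⟩ := mo (J' := J') (fun p hp => Finset.mem_filter.2 hp) mφ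
      refine ⟨l', w, fun P hP => ?_, ?_⟩
      · have k := fin.mem_toFinset.1 (ht' hP)
        have := k1 P ⟨⟨k.1, fun x => x.2 (by
          rw [Finset.coe_union]
          exact Or.inl hP)⟩, k.2⟩
        rwa [om] at this
      · rw [Q.ord_mul (pow_ne_zero _ g0) (mul_ne_zero (To.mon_ne z0 _) (To.mon_ne s0 _)), om] at k2
        linarith
  refine ⟨_, mul_ne_zero (To.mon_ne z0 l') (To.mon_ne s0 fun j => w j), fun P hP => ?_, ?_⟩
  · rw [om]
    by_cases k : P ∈ Kt (Fin.append y u) T J
    · exact h1 P (fin.mem_toFinset.2 k)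
    · have key : κ P = 0 ∧ (∀ a, P.ord (zz b y J' f a) = 0) ∧
          ∀ j, 0 ≤ P.ord (algebraMap L K (b.σ j)) := by
        by_cases tv : Hz L (Fin.append y u) P
        · have hz : ∀ φ : L, φ ≠ 0 → P.ord (algebraMap L K φ) = 0 := fun φ h => by
            simpa [hm, mon] using tv φ 0 h
          refine ⟨(S.pk.reg P hP tv).2, ?_, fun j => (hz _ (ok.cox.ne j)).ge⟩
          rintro (p | j | _)
          · exact hz _ (ok.l0 _)
          · have := tv 1 (Pi.single (Fin.castAdd ρ j) 1) one_ne_zero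
            rwa [hm, map_one, one_mul, mon, Finset.prod_eq_single (Fin.castAdd ρ j)
              (fun i _ e => by rw [Pi.single_eq_of_ne e, zpow_zero]) (by simp), Pi.single_eq_same,
              zpow_one, Fin.append_left] at this
          · exact hz _ f0
        · have : ∃ p ∉ J, At P p := by
            by_contra x
            exact k ⟨hP, tv, fun p hp a => x ⟨p, hp, a⟩⟩
          obtain ⟨p, hp, a⟩ := this
          have pT : p ∈ b.T := by
            rcases fm.pg P hP with x | ⟨p', x, a'⟩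
            · exact absurd x a.not_trv
            · exact a'.uniq a ▸ x
          have D0 := ok.sup p pT fun x => hp (S.od.co x)
          have ol : ∀ p' ∈ b.T, p' ≠ p → p.ord (b.lam p') = 0 := fun p' h e => by
            have := ok.lam p' h p pT
            rwa [D0, dotProduct_zero, add_zero, if_neg e.symm] at this
          refine ⟨(S.od.od P hP p hp a).2.2, ?_, fun j => ?_⟩
          · rintro (p' | j | _)
            · have h := Finset.mem_filter.1 p'.2
              exact (a.ord _).trans (by rw [ol _ h.2 fun e => hp (e ▸ h.1), mul_zero])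
            · exact S.y1 P hP p hp a j (y0 j)
            · obtain ⟨E, e1, rfl⟩ := hf
              refine (a.ord _).trans ?_
              rw [Pl.ord_prod _ _ fun p _ => ok.l0 p, Finset.sum_eq_zero fun p' hp' =>
                ol _ ((e1 p').1 hp').1 fun e => ((e1 p').1 hp').2.2 ⟨P, hP, e ▸ a⟩, mul_zero]
          · have := (ok.cox.sec _ _ (ok.cox.ne j)).1 (sp_gen b.σ b.a j) p pT
            rw [D0, dotProduct_zero, add_zero] at this
            rw [a.ord]
            exact mul_nonneg a.e_pos.le this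
      simp only [key.1, key.2.1, mul_zero, Finset.sum_const_zero, zero_add]
      exact Finset.sum_nonneg fun j _ => mul_nonneg (Int.natCast_nonneg _) (key.2.2 j)
  · rw [Q.ord_mul (pow_ne_zero _ g0) (mul_ne_zero (To.mon_ne z0 _) (To.mon_ne s0 _)), om]
    linarith

end Vale.Agent.P283R.Cq
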