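import Vale.Agent.P283R.Cq.St
import Vale.Agent.P283R.Cx.Lar

/-!
# P283R, block CQ: another basis of the lattice, twisted by invariant functions
-/

open Set Matrix
open Vale.Agent.P285N.Brep (jac Fr)

noncomputable section

namespace Vale.Agent.P283R.Cq

open Vale.Agent.P287D Vale.Agent.P297Z Vale.Agent.P283R.To Cx

namespace B90

variable {L K : Type} [Field L] [Algebra ℂ L] [Field K] [Algebra ℂ K] [Algebra L K]
  {c ρ : ℕ} {s : Fin c → L} {y z : Fin ρ → K} {φ : Fin ρ → L} {A B : Matrix (Fin ρ) (Fin ρ) ℤ}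

theorem ext (x : Ext L c y) (h : ∀ j, y j ∈ IntermediateField.adjoin L (range z)) : Ext L c z := by
  have al : ∀ t : Fin ρ → K, IntermediateField.adjoin L (range t) = ⊤ →
      Algebra.IsAlgebraic (Algebra.adjoin L (range t)) K := fun t e =>
    IntermediateField.isAlgebraic_adjoin_iff_top.1 ⟨fun a =>
      isAlgebraic_algebraMap (⟨a, e ▸ trivial⟩ : IntermediateField.adjoin L (range t))⟩
  have g : IntermediateField.adjoin L (range z) = ⊤ := eq_top_iff.2 (x.gen ▸
    IntermediateField.adjoin_le_iff.2 (by rintro _ ⟨j, rfl⟩; exact h j))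
  have := al z g
  exact ⟨x.ff, x.ff', (Algebra.IsAlgebraic.isTranscendenceBasis_of_le_trdeg_of_finite L z
    (x.ind.isTranscendenceBasis_iff_isAlgebraic.2 (al y x.gen)).cardinalMk_eq_trdeg.le).1, g⟩

variable [IsScalarTower ℂ L K]

theorem lt_mon (x : Ext L c y) (hs : Frm s) (hB : B * A = 1) (P : Pl K) :
    lt s (fun i => mon y (A i)) P = lt s y P := by
  let bl : Matrix (Fin ρ) (Fin ρ) ℤ → Matrix (Fin (c + ρ)) (Fin (c + ρ)) ℤ := fun A =>
    (Matrix.fromBlocks (1 : Matrix (Fin c) (Fin c) ℤ) 0 0 A).submatrix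
      finSumFinEquiv.symm finSumFinEquiv.symm
  have hB' : bl B * bl A = 1 := by
    simp only [bl]
    rw [Matrix.submatrix_mul_equiv, Matrix.fromBlocks_multiply]
    simp [hB]
  have e : (zt s fun i => mon y (A i)) = fun i => mon (zt s y) (bl A i) := funext fun i => by
    rw [mon, Fin.prod_univ_add]
    refine Fin.addCases (fun i => ?_) (fun i => ?_) i
    · rw [Finset.prod_eq_single i (fun j _ h => by simp [bl, Matrix.one_apply_ne' h]) (by simp)]
      simp [bl, zt]
    · simp [bl, zt, mon]
  have := la_mon x.ff' (zt_frm x hs).ind (det_ne hB') P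
  rw [← e, la, la, Fin.sum_univ_add, Fin.sum_univ_add] at this
  simp only [zt, Fin.append_left, Fin.append_right] at this
  simp only [lt, zt]
  linarith

theorem lt_tw (x : Ext L c y) (hs : Frm s) (h0 : ∀ i, φ i ≠ 0) (P : Pl K) :
    lt s (fun i => algebraMap L K (φ i) * y i) P = lt s y P := by
  classical
  obtain ⟨E, hE⟩ := zt_frm x hs
  obtain ⟨D, hD⟩ := hs
  have a1 : ∀ a j, E (Fin.castAdd ρ a) (algebraMap L K (s j)) = if a = j then 1 else 0 :=
    fun a j => by simpa [zt] using hE.dual (Fin.castAdd ρ a) (Fin.castAdd ρ j)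
  have a2 : ∀ a j, E (Fin.natAdd c a) (algebraMap L K (s j)) = 0 := fun a j => by
    have := hE.dual (Fin.natAdd c a) (Fin.castAdd ρ j)
    rwa [zt, Fin.append_left, if_neg fun h => by
      have := congrArg Fin.val h
      simp at this
      omega] at this
  have a3 : ∀ a j, E (Fin.natAdd c a) (y j) = if a = j then 1 else 0 := fun a j => by
    simpa [zt] using hE.dual (Fin.natAdd c a) (Fin.natAdd c j)
  have a4 : ∀ a u, E (Fin.natAdd c a) (algebraMap L K u) = 0 := fun a u => by
    have := Cb.expand (φ := algebraMap L K) (d := fun u => E (Fin.natAdd c a) (algebraMap L K u))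
      ⟨fun u v => by rw [map_add, map_add], fun u v => by rw [map_mul]; exact Derivation.leibniz ..⟩
      (fun c => by rw [← IsScalarTower.algebraMap_apply, Derivation.map_algebraMap]) hD u
    simpa [a2] using this
  have e : (Matrix.of fun i j => E i (zt s (fun i => algebraMap L K (φ i) * y i) j)).submatrix
      finSumFinEquiv finSumFinEquiv = Matrix.fromBlocks 1
        (Matrix.of fun a j => E (Fin.castAdd ρ a) (algebraMap L K (φ j) * y j)) 0
        (Matrix.diagonal fun i => algebraMap L K (φ i)) := by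
    ext (a | a) (j | j)
    · simp [zt, a1, Matrix.one_apply]
    · simp [zt]
    · simp [zt, a2]
    · simp only [Matrix.submatrix_apply, finSumFinEquiv_apply_right, Matrix.of_apply, zt,
        Fin.append_right, Matrix.fromBlocks_apply₂₂, Derivation.leibniz, a3, a4,
        Matrix.diagonal_apply, smul_eq_mul]
      split_ifs with h
      · simp [h]
      · simp
  have j : jac E (zt s fun i => algebraMap L K (φ i) * y i) = ∏ i, algebraMap L K (φ i) := by
    rw [jac, ← Matrix.det_submatrix_equiv_self finSumFinEquiv, e, Matrix.det_fromBlocks_zero₂₁,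
      Matrix.det_one, one_mul, Matrix.det_diagonal]
  have p0 : ∀ i, algebraMap L K (φ i) ≠ 0 := fun i => (map_ne_zero _).2 (h0 i)
  rw [lt, lt, Cb.kap_chg hE (j ▸ Finset.prod_ne_zero_iff.2 fun i _ => p0 i), Pi.add_apply, j,
    dv_apply, P.ord_prod _ fun i _ => p0 i]
  simp only [fun i => P.ord_mul (p0 i) (x.ind.ne_zero i)]
  push_cast
  rw [Finset.sum_add_distrib]
  ring

end B90

open B90 in
/-- **BAS** -/
theorem bas90 : BAS := fun L K _ _ _ _ _ _ c ρ b y _ r ρ' h A B φ y' u x hs hB h0 e => by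
  subst h
  have e' : Fin.append y' u = fun i => algebraMap L K (φ i) * mon y (A i) := funext e
  rw [e']
  have y0 := x.ind.ne_zero
  have x1 : Ext L c fun i => mon y (A i) := ext x fun j => by
    rw [← mon_row y0 hB j]
    exact prod_mem fun i _ => zpow_mem (IntermediateField.subset_adjoin _ _ (mem_range_self i)) _
  have p0 : ∀ i, algebraMap L K (φ i) ≠ 0 := fun i => (map_ne_zero _).2 (h0 i)
  refine ⟨rfl, ext x1 fun j => ?_, fun P => by rw [cz, cz, lt_tw x1 hs h0, lt_mon x hs hB],
    { Pq.B25.ev hB with map_add' := fun m m' => Matrix.add_vecMul B m m' },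
    fun m => (mon φ (m ᵥ* B))⁻¹, fun m => ⟨inv_ne_zero (Finset.prod_ne_zero_iff.2 fun i _ =>
      zpow_ne_zero _ (h0 i)), ?_⟩⟩
  · rw [← inv_mul_cancel_left₀ (p0 j) (mon y (A j))]
    exact mul_mem (inv_mem (IntermediateField.algebraMap_mem _ _))
      (IntermediateField.subset_adjoin _ _ (mem_range_self j))
  · change _ = algebraMap L K (mon φ (m ᵥ* B))⁻¹ *
      mon (fun i => algebraMap L K (φ i) * mon y (A i)) (m ᵥ* B)
    have k : mon (fun i => algebraMap L K (φ i) * mon y (A i)) (m ᵥ* B) =
        mon (fun i => algebraMap L K (φ i)) (m ᵥ* B) * mon (fun i => mon y (A i)) (m ᵥ* B) := by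
      simp only [mon, mul_zpow, Finset.prod_mul_distrib]
    have k' : algebraMap L K (mon φ (m ᵥ* B)) = mon (fun i => algebraMap L K (φ i)) (m ᵥ* B) := by
      simp only [mon, map_prod, map_zpow₀]
    rw [k, mon_vec y0, Matrix.vecMul_vecMul, hB, Matrix.vecMul_one, map_inv₀, k']
    exact (inv_mul_cancel_left₀ (mon_ne p0 _) _).symm

end Vale.Agent.P283R.Cq
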