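import Vale.Agent.P283R.Wc.Avr95
import Vale.Agent.P283R.Wc.Cox36
import Vale.Agent.P283R.Wc.Loc24
import Vale.Agent.P283R.Wc.Bkr64
import Vale.Agent.P283R.Wc.Ovq22
import Vale.Agent.P283R.Pq.All

/-!
# P283R, block CQ: the package of a pair for an abstract family of primes
-/

open Set CategoryTheory AlgebraicGeometry

noncomputable section

namespace Vale.Agent.P283R.Cq.H42

open Vale.Agent.P287D Vale.Agent.P283M Vale.Agent.P283M.Br Vale.Agent.P283R.Gl Cx Cy Wc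

section

variable {K : Type} [Field K] [Algebra ℂ K]

/-- the primes `T`, the moving primes `Tv`, the homogeneous functions `Ho`, the form `z` -/
structure Ab (d : ℕ) (T : Set (Pl K)) (Tv : Pl K → Prop) (Ho : K → Prop) (z : Pl K → ℤ) :
    Prop where
  cn : ∃ j : K, j ≠ 0 ∧ ∀ P, cn K d P = z P + P.ord j
  fin : ∀ a : K, {P | P ∈ T ∧ P.ord a ≠ 0}.Finite
  finc : {P | P ∈ T ∧ z P ≠ 0}.Finite
  eqn : ∀ a : Pl K → ℤ, {P | a P ≠ 0}.Finite → ∃ φ : K, φ ≠ 0 ∧ ∀ P ∈ T, Tv P → P.ord φ = a P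
  kt : ∀ P ∈ T, Tv P → z P = 0
  cmp : ∀ b : K, b ≠ 0 → (∀ P ∈ T, Tv P → 0 ≤ P.ord b) → ∀ Q : Pl K, ∃ a, Ho a ∧
    Q.ord a ≤ Q.ord b ∧ ∀ P ∈ T, ¬ Tv P → P.ord b ≤ P.ord a

/-- the inequality -/
def Hw (ε : ℝ) (q : ℕ) (T : Set (Pl K)) (Tv : Pl K → Prop) (Ho : K → Prop) (z : Pl K → ℤ) (g : K)
    (κ : Pl K → ℤ) : Prop :=
  ∀ (Q : Pl K) (ξ : Pl K → ℝ), 0 ≤ ξ → (∀ P, ξ P ≠ 0 → P ∈ T ∧ ¬ Tv P) →
    (∀ a, Ho a → ∑ᶠ P, ξ P * P.ord a ≤ Q.ord a) →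
    ε * q ≤ q * (z Q + 1) - Q.ord g - ∑ᶠ P, ξ P * κ P

variable {n q : ℕ} {ε : ℝ} {u : Finset K} {Λ Γ Γ' : BD K} {T : Set (Pl K)} {Tv : Pl K → Prop}
  {Ho : K → Prop} {z : Pl K → ℤ}

/-- **the inequality on the tier** -/
theorem hw (hq : 0 < q) (a : Dat n u Λ Γ Γ') (fm : Ab (n + 1) T Tv Ho z) (oo : T ⊆ Tt n u Λ)
    (lc : ∀ R, Ov u R → ε ≤ 1 + dsc (n + 1) Γ R) (nf : NefO n K u (-Γ)) {g : K} {κ : Pl K → ℤ}
    (hκ : ∀ P ∈ T, (κ P : ℝ) = q * z P - q * dsc (n + 1) Γ P - P.ord g)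
    (κ0 : ∀ P ∈ T, Tv P → κ P = 0) : Hw ε q T Tv Ho z g κ := by
  classical
  intro Q ξ ξ0 hξ hQ
  obtain ⟨h, -, ec⟩ := fm.cn
  have q0 : (0 : ℝ) < q := Nat.cast_pos.2 hq
  have fi : ∀ b : K, (Function.support fun E => ξ E * (E.ord b : ℝ)).Finite := fun b =>
    (fm.fin b).subset fun E c => ⟨(hξ E (left_ne_zero_of_mul c)).1,
      Int.cast_ne_zero.1 (right_ne_zero_of_mul c)⟩
  have eψ : ∀ E ∈ T, (dv h + (q : ℝ)⁻¹ • dv g - Γ) E = -(q : ℝ)⁻¹ * κ E := fun E c => by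
    have x' := hκ E c
    have x'' := ec E
    simp only [dsc, Pi.sub_apply, Pi.add_apply, Pi.smul_apply, smul_eq_mul, dv_apply] at x' ⊢
    rw [x', x'']
    field_simp
    ring
  obtain ⟨o, k⟩ := C3.conv n K u Λ Γ Γ' (fun R => R ∈ T ∧ Tv R) ξ Q a (fun R c => oo c.1) ξ0
    (fun R r => oo (hξ R r).1)
    (fun c hc => by
      obtain ⟨φ, φ0, e⟩ := fm.eqn (fun E => if E ∈ T ∧ Tv E then c E else 0)
        (hc.subset fun E r => by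
          have m : E ∈ T ∧ Tv E := by_contra fun m => r (if_neg m)
          exact ⟨m, (if_pos m).symm.trans_ne r⟩)
      exact ⟨φ, φ0, fun E m => (e E m.1 m.2).trans (if_pos m)⟩)
    fun b b0 hb => by
      obtain ⟨v, v0, e, e'⟩ := fm.cmp b b0 (fun E c t => hb _ ⟨c, t⟩) Q
      refine le_trans (finsum_le_finsum' (fi _) (fi v) fun E => ?_)
        ((hQ v v0).trans (Int.cast_le.2 e))
      by_cases c : ξ E = 0
      · simp [c]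
      · exact mul_le_mul_of_nonneg_left (Int.cast_le.2 (e' E (hξ E c).1 (hξ E c).2)) (ξ0 E)
  replace k := k (dv h + (q : ℝ)⁻¹ • dv g - Γ)
    (sub_mem (add_mem (dv_mem_Car _) (Submodule.smul_mem _ _ (dv_mem_Car _))) a.dn.car) (-Γ')
    (neg_mem a.dn'.car) (fun δ e => by
      obtain ⟨γ, s, f⟩ := Br.klr a a.dn.neg nf e
      refine ⟨dv h + (q : ℝ)⁻¹ • dv g + γ,
        ((smp_dv h).add ((smp_dv _).smul (inv_pos.2 q0).le)).add s, fun P o => ?_⟩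
      have := f P o
      simp only [Pi.add_apply, Pi.sub_apply, Pi.smul_apply, Pi.neg_apply, smul_eq_mul] at this ⊢
      linarith)
    (fun E c => by rw [eψ E c.1, κ0 E c.1 c.2, Int.cast_zero, mul_zero])
  have e : ∑ᶠ E, ξ E * (dv h + (q : ℝ)⁻¹ • dv g - Γ) E = -(q : ℝ)⁻¹ * ∑ᶠ E, ξ E * κ E := by
    rw [mul_finsum]
    refine finsum_congr fun E => ?_
    by_cases c : ξ E = 0
    · simp [c]
    · rw [eψ E (hξ E c).1, mul_left_comm]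
  rw [e] at k
  have l := lc Q o
  have x := ec Q
  simp only [dsc, Pi.sub_apply, Pi.add_apply, Pi.smul_apply, smul_eq_mul, dv_apply] at k l
  have k' := mul_le_mul_of_nonneg_left k q0.le
  rw [neg_mul, mul_neg, mul_inv_cancel_left₀ q0.ne', mul_sub, mul_add,
    mul_inv_cancel_left₀ q0.ne'] at k'
  nlinarith [mul_le_mul_of_nonneg_left l q0.le]

/-- **the package of a pair** -/
theorem cd0 (hq : 0 < q) (hε : 0 < ε) (a : Dat n u Λ Γ Γ') (fm : Ab (n + 1) (Tt n u Λ) Tv Ho z)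
    (co : ∀ R ∈ Tt n u Λ, dsc (n + 1) Γ R ≤ 0 ∧ ∃ m : ℤ, q * dsc (n + 1) Γ R = m)
    (lc : ∀ R, Ov u R → ε ≤ 1 + dsc (n + 1) Γ R) (nf : NefO n K u (-Γ)) :
    ∃ g κ, Lk n q Γ z (Tt n u Λ) g κ ∧ (∀ P ∈ Tt n u Λ, Tv P → 0 ≤ P.ord g ∧ κ P = 0) ∧
      (∀ P ∈ Tt n u Λ, q * z P - P.ord g ≤ κ P) ∧ Hw ε q (Tt n u Λ) Tv Ho z g κ ∧
      Av (n + 1) q ε z (Tt n u Λ) g κ := by
  classical
  obtain ⟨j, j0, ec⟩ := fm.cn
  let m : Pl K → ℤ := fun R => ⌊q * dsc (n + 1) Γ R⌋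
  have em : ∀ R ∈ Tt n u Λ, (m R : ℝ) = q * dsc (n + 1) Γ R := fun R r => by
    obtain ⟨k, e⟩ := (co R r).2
    simp only [m, e, Int.floor_intCast]
  have m0 : ∀ R ∈ Tt n u Λ, m R ≤ 0 := fun R r => Int.cast_nonpos (R := ℝ).1
    ((em R r).trans_le (mul_nonpos_of_nonneg_of_nonpos q.cast_nonneg (co R r).1))
  have fi : {R | R ∈ Tt n u Λ ∧ m R ≠ 0}.Finite :=
    ((fm.finc.union (fm.fin j)).union (To.Cv.fin_car a a.dn.car)).subset fun R ⟨t, z⟩ => by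
      by_contra k
      simp only [mem_union, mem_ofPred_eq, not_or, not_and, not_not] at k
      refine z ?_
      simp only [m, dsc, Pi.sub_apply, ec, k.1.1 t, k.1.2 t, k.2 t.2]
      simp
  obtain ⟨g, g0, eg⟩ := fm.eqn (fun R => if R ∈ Tt n u Λ then -m R else 0)
    (fi.subset fun R r => by
      have t : R ∈ Tt n u Λ := by_contra fun t => r (if_neg t)
      exact ⟨t, neg_ne_zero.1 ((if_pos t).symm.trans_ne r)⟩)
  replace eg : ∀ R ∈ Tt n u Λ, Tv R → R.ord g = -m R := fun R r t => (eg R r t).trans (if_pos r)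
  have fk : {R | R ∈ Tt n u Λ ∧ q * z R - m R - R.ord g ≠ 0}.Finite :=
    ((fm.finc.union fi).union (fm.fin g)).subset fun R ⟨t, z⟩ => by
      by_contra k
      simp only [mem_union, mem_ofPred_eq, not_or, not_and, not_not] at k
      exact z (by rw [k.1.1 t, k.1.2 t, k.2 t]; simp)
  have k0 : ∀ R ∈ Tt n u Λ, Tv R → q * z R - m R - R.ord g = 0 := fun R r t => by
    rw [eg R r t, fm.kt R r t]
    simp
  have lk : Lk n q Γ z (Tt n u Λ) g fun R => q * z R - m R - R.ord g :=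
    ⟨⟨j, j0, ec⟩, fm.finc, fk, g0, fun R r => by rw [← em R r]; push_cast; rfl⟩
  exact ⟨g, _, lk, fun R r t => ⟨eg R r t ▸ neg_nonneg.2 (m0 R r), k0 R r t⟩,
    fun R r => by linarith [m0 R r], hw hq a fm subset_rfl lc nf lk.eq k0,
    avr95 cox36 loc24 n K u Λ Γ Γ' a q ε _ g _ hq hε lk (fun R r => (co R r).1) lc nf⟩

/-- **from the sections to the complement** -/
theorem cpl {m : ℕ} (hq : 0 < q) (hε : 0 < ε) (m2 : 2 ≤ m) (a : Dat n u Λ Γ Γ')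
    (fm : Ab (n + 1) (Tt n u Λ) Tv Ho z)
    (co : ∀ R ∈ Tt n u Λ, dsc (n + 1) Γ R ≤ 0 ∧ ∃ m : ℤ, q * dsc (n + 1) Γ R = m)
    (lc : ∀ R, Ov u R → ε ≤ 1 + dsc (n + 1) Γ R) (nf : NefO n K u (-Γ))
    (H : ∀ g κ (Q : Pl K), g ≠ 0 → (∀ P ∈ Tt n u Λ, Tv P → 0 ≤ P.ord g ∧ κ P = 0) →
      {P | P ∈ Tt n u Λ ∧ κ P ≠ 0}.Finite → (∀ P ∈ Tt n u Λ, q * z P - P.ord g ≤ κ P) →
      Hw ε q (Tt n u Λ) Tv Ho z g κ → Av (n + 1) q ε z (Tt n u Λ) g κ →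
      (∀ a : K, a ≠ 0 → (∀ P ∈ Tt n u Λ, 0 ≤ P.ord a) → 0 ≤ Q.ord a) →
      Sec q m z (Tt n u Λ) g κ Q) : Cpl n (q * m) u Λ Γ := by
  obtain ⟨g, κ, lk, h1, h2, h3, h4⟩ := cd0 hq hε a fm co lc nf
  exact bkr64 cox36 n K u Λ Γ Γ' a q m _ g κ hq m2 lk fun Q o =>
    H g κ Q lk.g0 h1 lk.fk h2 h3 h4 fun b b0 hb => ovq22 n K u Λ Γ Γ' a Q b o b0 hb

end

open Vale.Agent.P289 (Pt DForm dimension) in
open Stm Stm.Var in
/-- **the scheme side** -/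
theorem sch {n q M : ℕ} {ε : ℝ} (M1 : 1 ≤ M) {X Z : Var} {f : X.X ⟶ Z.X} {z : Pt Z.X}
    {V : Z.X.Opens} {ω : DForm ℂ X.K (n + 1)} {B : X.QDiv}
    (H : ∀ (u : Finset X.K) (Λ Γ Γ' : BD X.K), FF X.K (n + 1) → Dat n u Λ Γ Γ' →
      (∀ R, R ∈ Tt n u Λ ↔ ∃ E : X.PrimeDiv, E.1 ∈ f ⁻¹ᵁ V ∧ pq E = R) →
      (∀ R ∈ Tt n u Λ, dsc (n + 1) Γ R ≤ 0 ∧ ∃ m : ℤ, q * dsc (n + 1) Γ R = m) →
      (∀ R, Ov u R → ε ≤ 1 + dsc (n + 1) Γ R) → NefO n X.K u (-Γ) → Cpl n M u Λ Γ)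
    (hdim : dimension X.str = (n + 1 : ℕ)) (hω : ω.Nonzero)
    (hB : Pair (ε ≤ ·) ⊤ ω B) (hq : ∀ E, ∃ m : ℤ, q * B E = m) (hf : Contraction f)
    (hF : FanoType f ω) (hn : NefOver f (-logCan ω B)) (hz : IsClosed ({z} : Set (Pt Z.X)))
    (hV : IsAffineOpen V) (zV : z ∈ V) : HasKltComplement f ω B M z := by
  obtain ⟨u, bs⟩ := Sch.basV hf hz hV zV
  have hK := ffd X _ hdim
  obtain ⟨Λ, Γ, Γ', a, on, lc, cf, nf, e⟩ := Cox.dataW hK hω hB hf hF bs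
  have T : ∀ R, R ∈ Cx.Tt n u Λ ↔ ∃ E : X.PrimeDiv, E.1 ∈ f ⁻¹ᵁ V ∧ pq E = R := fun R => by
    refine ⟨fun t => ?_, ?_⟩
    · obtain ⟨x, hx, dm⟩ := bs.ctr R.ring R.con t.1
      obtain ⟨E, rfl⟩ : ∃ E : X.PrimeDiv, E.1 = x := ⟨⟨x, (on R x hx dm).1 t.2⟩, rfl⟩
      exact ⟨E, hx, Pl.ext' (congrArg _ (P297Z.Pl.eq_of_le' (v := (pq E).toPlace)
        (w := R.toPlace) fun g hg => (dm g ((pq_is E g).1 hg)).1))⟩
    · rintro ⟨E, c, rfl⟩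
      exact ⟨fun b hb => ((pq_is E).dom b (bs.reg b hb _ c)).1, (on _ _ c (pq_is E).dom).2 E.2⟩
  refine e M M1 (H u Λ Γ Γ' hK a T (fun R t => ?_) lc (nf hn))
  obtain ⟨E, c, rfl⟩ := (T R).1 t
  obtain ⟨m, hm⟩ := hq E
  rw [cf _ E c (pq_is E).dom]
  refine ⟨neg_nonpos.2 (Rat.cast_nonneg.2 (hB.1 E trivial)), -m, ?_⟩
  have := congrArg (Rat.cast : ℚ → ℝ) hm
  push_cast at this ⊢
  linarith

end Vale.Agent.P283R.Cq.H42
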