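import Vale.Agent.P283R.Cq.St
import Vale.Agent.P283R.Cq.Hw42

/-!
# P283R, block CQ: the package of a pair
-/

open Set

noncomputable section

namespace Vale.Agent.P283R.Cq

open Vale.Agent.P287D Vale.Agent.P283M Cx Cy

theorem H42.low {L K : Type} [Field L] [Field K] [Algebra ℂ K] [Algebra L K] {ρ : ℕ}
    {y : Fin ρ → K} (ψ : (Fin ρ → ℤ) →₀ L) (Q : Pl K) (e : lv y ψ ≠ 0) :
    ∃ u, ψ u ≠ 0 ∧ Q.ord (hm y (ψ u) u) ≤ Q.ord (lv y ψ) := by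
  by_contra k
  push Not at k
  have : lv y ψ ∈ Q.sub (-(Q.ord (lv y ψ) : ℝ) - 1) := sum_mem fun u hu => .inr (by
    have : ((Q.ord (lv y ψ) + 1 : ℤ) : ℝ) ≤ Q.ord (hm y (ψ u) u) :=
      Int.cast_le.2 (k u (Finsupp.mem_support_iff.1 hu))
    push_cast at this
    linarith)
  linarith [this.resolve_left e]

/-- **CDR** -/
theorem cdr42 : CDR := by
  intro cz' _ n K _ _ u Λ Γ Γ' a L _ _ _ _ l q c ρ ε b y hq hε ok hn fm co lc nf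
  obtain ⟨fl, -, -, -, ⟨j, j0, ec⟩, -⟩ := cz' L K c ρ b.s y fm.ext ok.fr
  have h0 : algebraMap L K b.h ≠ 0 := (map_ne_zero _).2 ok.can.1
  obtain ⟨g, κ, lk, h1, h2, h3, h4⟩ := H42.cd0 (Tv := Hz L y) (z := cz b y)
    (Ho := fun a => ∃ (φ : L) (m : Fin ρ → ℤ), φ ≠ 0 ∧ a = hm y φ m) hq hε a
    ⟨⟨j * algebraMap L K b.h, mul_ne_zero j0 h0, fun P => by
      rw [← hn, ec, cz, P297Z.Pl.ord_mul _ j0 h0]
      push_cast
      rw [fl]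
      ring⟩, fm.fin, fm.finc, fm.eqn, fm.kt, fun φ φ0 k Q => by
      obtain ⟨ψ, rfl⟩ := fm.lau φ φ0 k
      obtain ⟨m, m0, e⟩ := H42.low ψ Q φ0
      exact ⟨_, ⟨_, m, m0, rfl⟩, e, fun P t s =>
        fm.inv P t s ψ m (Finsupp.mem_support_iff.2 m0)⟩⟩ co lc nf
  exact ⟨g, κ, lk, ok, hn, fm, lk.g0, h1, lk.fk, h2, fun Q ξ r => h3 Q ξ r.nn r.sup
    (by rintro _ ⟨φ, m, φ0, rfl⟩; exact (r.eq φ m φ0).le), h4⟩

end Vale.Agent.P283R.Cq
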