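import Vale.Agent.P283R.Cq.Tow30

/-!
# P283R, block CQ: change of the basis of the lattice and twist over the field `L`
-/

open Set Matrix
open Vale.Agent.P285N.Brep (jac Fr)

noncomputable section

namespace Vale.Agent.P283R.Cq.T30

open Vale.Agent.P287D Cx
open Vale.Agent.P283R.To

variable {L K : Type} [Field L] [Field K] [Algebra L K] [Algebra ℂ L] [Algebra ℂ K]
  [IsScalarTower ℂ L K] {c r : ℕ} {y : Fin r → K} {s : Fin c → L}
  {A B : Matrix (Fin r) (Fin r) ℤ}

theorem ext_of (x : Ext L c y) {y' : Fin r → K}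
    (g : ∀ i, y i ∈ IntermediateField.adjoin L (range y')) : Ext L c y' := by
  have t : IntermediateField.adjoin L (range y') = ⊤ := eq_top_iff.2 (x.gen ▸
    IntermediateField.adjoin_le_iff.2 (by
      rintro _ ⟨i, rfl⟩
      exact g i))
  exact ⟨x.ff, x.ff', Gm.Uh.ind_of (IsScalarTower.toAlgHom ℂ L K) x.ff x.ff' le_rfl
    (eq_top_iff.2 fun a _ => show a ∈ IntermediateField.adjoin L (range y') from
      t ▸ IntermediateField.mem_top), t⟩

/-- real orders give integral orders -/
theorem flo {n ρ : ℕ} {z z' : Fin n → K} {y y' : Fin ρ → K} {P : Pl K}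
    (h : kap z' P - ∑ i, (P.ord (y' i) : ℝ) = kap z P - ∑ j, (P.ord (y j) : ℝ)) :
    ⌊kap z' P⌋ - ∑ i, P.ord (y' i) = ⌊kap z P⌋ - ∑ j, P.ord (y j) := by
  obtain ⟨a, ha⟩ := Cb.kap_int z' P
  obtain ⟨b, hb⟩ := Cb.kap_int z P
  rw [ha, hb] at h
  rw [ha, hb, Int.floor_intCast, Int.floor_intCast]
  exact_mod_cast h

/-- **change of the basis of the lattice** -/
theorem bas (x : Ext L c y) (hB : B * A = 1) : Ext L c (fun i => mon y (A i)) ∧
    (∀ m, mon (fun i => mon y (A i)) (m ᵥ* B) = mon y m) ∧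
    (∀ (φ : L) m, hm (fun i => mon y (A i)) φ (m ᵥ* B) = hm y φ m) ∧
    (∀ (φ : L) m, hm (fun i => mon y (A i)) φ m = hm y φ (m ᵥ* A)) ∧
    ∀ s : Fin c → L, Frm s → ∀ P, kap (zt s fun i => mon y (A i)) P -
      ∑ i, (P.ord (mon y (A i)) : ℝ) = kap (zt s y) P - ∑ j, (P.ord (y j) : ℝ) := by
  have y0 := x.ind.ne_zero
  have m1 : ∀ m, mon (fun i => mon y (A i)) (m ᵥ* B) = mon y m := fun m => by
    rw [mon_vec y0, Matrix.vecMul_vecMul, hB, Matrix.vecMul_one]
  refine ⟨ext_of x fun j => ?_, m1, fun φ m => by rw [hm, m1, hm],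
    fun φ m => by rw [hm, mon_vec y0, hm], fun s hs P => ?_⟩
  · rw [← mon_row y0 hB j]
    exact prod_mem fun i _ => zpow_mem (IntermediateField.subset_adjoin _ _ (mem_range_self i)) _
  let bl : Matrix (Fin r) (Fin r) ℤ → Matrix (Fin (c + r)) (Fin (c + r)) ℤ := fun A =>
    (Matrix.fromBlocks (1 : Matrix (Fin c) (Fin c) ℤ) 0 0 A).submatrix
      finSumFinEquiv.symm finSumFinEquiv.symm
  have hB' : bl B * bl A = 1 := by
    simp only [bl]
    rw [Matrix.submatrix_mul_equiv, Matrix.fromBlocks_multiply]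
    simp [hB]
  have e : (zt s fun i => mon y (A i)) = fun i => mon (zt s y) (bl A i) := funext fun i => by
    rw [mon, Fin.prod_univ_add]
    refine Fin.addCases (fun i => ?_) (fun i => ?_) i
    · rw [Finset.prod_eq_single i (fun j _ h => by simp [bl, Matrix.one_apply_ne' h]) (by simp)]
      simp [bl, zt]
    · simp [bl, zt, mon]
  have := la_mon x.ff' (zt_ind hs.ind x.ind) (det_ne hB') P
  rw [← e, la, la, Fin.sum_univ_add, Fin.sum_univ_add] at this
  simp only [zt, Fin.append_left, Fin.append_right] at this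
  simp only [zt]
  linarith

theorem kill (hs : Frm s) (d : Derivation ℂ K K) (h : ∀ i, d (algebraMap L K (s i)) = 0) (φ : L) :
    d (algebraMap L K φ) = 0 := by
  obtain ⟨E₀, h₀⟩ := hs
  have := Cb.expand ((Cb.dr_of d).comp (algebraMap L K)) (fun c => by
    rw [← IsScalarTower.algebraMap_apply]; exact d.map_algebraMap c) h₀ φ
  exact this.trans (Finset.sum_eq_zero fun j _ => by simp [h])

theorem jc (hs : Frm s) {E : Fin (c + r) → Derivation ℂ K K} (hE : Fr (zt s y) E) (φ : Fin r → L) :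
    jac E (zt s fun i => algebraMap L K (φ i) * y i) = ∏ i, algebraMap L K (φ i) := by
  classical
  have a1 : ∀ a j, E (Fin.castAdd r a) (algebraMap L K (s j)) = if a = j then 1 else 0 :=
    fun a j => by simpa [zt] using hE.dual (Fin.castAdd r a) (Fin.castAdd r j)
  have a2 : ∀ a j, E (Fin.natAdd c a) (algebraMap L K (s j)) = 0 := fun a j => by
    have := hE.dual (Fin.natAdd c a) (Fin.castAdd r j)
    rwa [zt, Fin.append_left, if_neg fun h => by
      have := congrArg Fin.val h
      simp at this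
      omega] at this
  have a3 : ∀ a j, E (Fin.natAdd c a) (y j) = if a = j then 1 else 0 := fun a j => by
    simpa [zt] using hE.dual (Fin.natAdd c a) (Fin.natAdd c j)
  have e : (Matrix.of fun i j => E i (zt s (fun i => algebraMap L K (φ i) * y i) j)).submatrix
      finSumFinEquiv finSumFinEquiv = Matrix.fromBlocks 1
        (Matrix.of fun a j => E (Fin.castAdd r a) (algebraMap L K (φ j) * y j)) 0
        (Matrix.diagonal fun i => algebraMap L K (φ i)) := by
    ext (a | a) (j | j)
    · simp [zt, a1, Matrix.one_apply]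
    · simp [zt]
    · simp [zt, a2]
    · simp only [Matrix.submatrix_apply, finSumFinEquiv_apply_right, Matrix.of_apply, zt,
        Fin.append_right, Matrix.fromBlocks_apply₂₂, Derivation.leibniz, a3,
        kill hs _ (a2 a) (φ j), Matrix.diagonal_apply, smul_eq_mul]
      split_ifs with h
      · simp [h]
      · simp
  rw [jac, ← Matrix.det_submatrix_equiv_self finSumFinEquiv, e, Matrix.det_fromBlocks_zero₂₁,
    Matrix.det_one, one_mul, Matrix.det_diagonal]

/-- **the twist** by elements of `L` -/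
theorem tws (x : Ext L c y) {φ : Fin r → L} (h : ∀ i, φ i ≠ 0) :
    Ext L c (fun i => algebraMap L K (φ i) * y i) ∧
    (∀ (ψ : L) m, hm (fun i => algebraMap L K (φ i) * y i) ψ m = hm y (ψ * mon φ m) m) ∧
    (∀ (ψ : L) m, hm y ψ m = hm (fun i => algebraMap L K (φ i) * y i) (ψ / mon φ m) m) ∧
    ∀ s : Fin c → L, Frm s → ∀ P, kap (zt s fun i => algebraMap L K (φ i) * y i) P -
      ∑ i, (P.ord (algebraMap L K (φ i) * y i) : ℝ) = kap (zt s y) P - ∑ j, (P.ord (y j) : ℝ) := by
  have p0 : ∀ i, algebraMap L K (φ i) ≠ 0 := fun i => (map_ne_zero _).2 (h i)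
  have mm : ∀ (ψ : L) m, hm (fun i => algebraMap L K (φ i) * y i) ψ m = hm y (ψ * mon φ m) m :=
    fun ψ m => by
      simp only [hm, mon, mul_zpow, Finset.prod_mul_distrib, map_mul, map_prod, map_zpow₀,
        mul_assoc]
  refine ⟨ext_of x fun j => ?_, mm, fun ψ m => by rw [mm, div_mul_cancel₀ _ (mon_ne h m)],
    fun s hs P => ?_⟩
  · have := mul_mem (inv_mem ((IntermediateField.adjoin L
      (range fun i => algebraMap L K (φ i) * y i)).algebraMap_mem (φ j)))
      (IntermediateField.subset_adjoin L (range fun i => algebraMap L K (φ i) * y i) ⟨j, rfl⟩)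
    rwa [inv_mul_cancel_left₀ (p0 j)] at this
  · obtain ⟨E, hE⟩ := zt_frm x hs
    have j := jc hs hE φ
    have e := congrFun (Cb.kap_chg hE (z := zt s fun i => algebraMap L K (φ i) * y i) (by
      rw [j]
      exact Finset.prod_ne_zero_iff.2 fun i _ => p0 i)) P
    rw [Pi.add_apply, j, dv_apply, P.ord_prod _ fun i _ => p0 i] at e
    rw [e, Finset.sum_congr rfl fun i _ => congrArg Int.cast (P.ord_mul (p0 i) (x.ind.ne_zero i))]
    push_cast
    rw [Finset.sum_add_distrib]
    ring

end Vale.Agent.P283R.Cq.T30
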