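import Vale.Agent.P283R.Cx.Dwn
import Vale.Agent.P283R.Cx.Lar
import Vale.Agent.P283R.Cx.Bas

/-!
# P283R, block CQ: places over the prime divisors of the orbit space, the invariant form
-/

open Set

noncomputable section

namespace Vale.Agent.P283R.Cq.Z60

open Vale.Agent.P287D Vale.Agent.P297Z Vale.Agent.P283R.Cx

variable {L K : Type} [Field L] [Field K] [Algebra ℂ L] [Algebra ℂ K] [Algebra L K] {c r k : ℕ}
  {y : Fin r → K} {z : Fin c → L} {P : Pl K} {p p' : Pl L} {μ μ' : ℤ}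

/-- from the orders to the rings -/
theorem lies (μ0 : 0 < μ) (h : ∀ a : L, a ≠ 0 → P.ord (algebraMap L K a) = μ * p.ord a) :
    Lies (algebraMap L K) P p := fun a => by
  rcases eq_or_ne a 0 with rfl | a0
  · simp
  · rw [← Pl.ord_nonneg_iff _ a0, ← Pl.ord_nonneg_iff _ ((map_ne_zero _).2 a0), h a a0,
      mul_nonneg_iff_of_pos_left μ0]

theorem mu_eq (h : ∀ a : L, a ≠ 0 → P.ord (algebraMap L K a) = μ * p.ord a) :
    P.ord (algebraMap L K p.t) = μ := by rw [h _ (Pb.t_ne p), Pb.ord_t, mul_one]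

theorem uniq (μ0 : 0 < μ) (h : ∀ a : L, a ≠ 0 → P.ord (algebraMap L K a) = μ * p.ord a)
    (μ0' : 0 < μ') (h' : ∀ a : L, a ≠ 0 → P.ord (algebraMap L K a) = μ' * p'.ord a) :
    p = p' ∧ μ = μ' := by
  obtain rfl := (lies μ0 h).uniq (lies μ0' h')
  exact ⟨rfl, (mu_eq h).symm.trans (mu_eq h')⟩

omit [Algebra ℂ L] in
theorem trv (h : ∀ a : L, a ≠ 0 → P.ord (algebraMap L K a) = 0) (a : L) :
    algebraMap L K a ∈ P.ring := by
  rcases eq_or_ne a 0 with rfl | a0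
  · simp
  · exact (Pl.ord_nonneg_iff _ ((map_ne_zero _).2 a0)).1 (h a a0).ge

omit [Algebra ℂ L] in
theorem of_trv (h : ∀ a : L, algebraMap L K a ∈ P.ring) (a : L) :
    P.ord (algebraMap L K a) = 0 := Pl.ord_unit _ (h a) (by rw [← map_inv₀]; exact h _)

variable [IsScalarTower ℂ L K]

/-- over a prime divisor -/
theorem cz_lies (x : Ext L c y) (hz : Frm z) (l : Lies (algebraMap L K) P p) :
    P.ord (algebraMap L K p.t) * (1 + kap z p) ≤ lt z y P :=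
  Gp.lg_ver x.ff x.ff' hz.ind x.ind l

theorem cz_ge (x : Ext L c y) (hz : Frm z) (μ0 : 0 < μ)
    (h : ∀ a : L, a ≠ 0 → P.ord (algebraMap L K a) = μ * p.ord a) :
    μ * (1 + kap z p) ≤ lt z y P := mu_eq h ▸ cz_lies x hz (lies μ0 h)

/-- horizontal places -/
theorem cz_hz (x : Ext L c y) (hz : Frm z) (h : ∀ a : L, a ≠ 0 → P.ord (algebraMap L K a) = 0) :
    0 ≤ lt z y P := Gp.lg_hor x.ff' hz.ind x.ind (trv h)

/-- every place is horizontal or lies over a place -/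
theorem hz_or (x : Ext L c y) (P : Pl K) : (∀ a : L, P.ord (algebraMap L K a) = 0) ∨
    ∃ (p : Pl L) (μ : ℤ), 0 < μ ∧ ∀ a : L, P.ord (algebraMap L K a) = μ * p.ord a :=
  (To.trv_or x.ff' Gp.hc P).imp of_trv fun ⟨p, l⟩ => ⟨p, _, l.e_pos, l.ord⟩

omit [Algebra ℂ L] [IsScalarTower ℂ L K] in
theorem lt_eq (z : Fin c → L) (y : Fin r → K) (P : Pl K) :
    lt z y P = ((⌊kap (zt z y) P⌋ - ∑ j, P.ord (y j) : ℤ) : ℝ) + 1 := by
  obtain ⟨n, hn⟩ := Cb.kap_int (zt z y) P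
  simp only [lt, hn, Int.floor_intCast]
  push_cast
  ring

/-- the canonical divisor -/
theorem cn_eq (x : Ext L c y) (hz : Frm z) :
    ∃ h : K, h ≠ 0 ∧ ∀ P, cn K (c + r) P = lt z y P - 1 + P.ord h := by
  obtain ⟨f, f0, e⟩ := Cb.cn_kap x.ff' (zt_ind hz.ind x.ind)
  have y0 := x.ind.ne_zero
  have p0 : ∏ j, y j ≠ 0 := Finset.prod_ne_zero_iff.2 fun j _ => y0 j
  refine ⟨f * ∏ j, y j, mul_ne_zero f0 p0, fun P => ?_⟩
  rw [e, Pi.add_apply, dv_apply, lt, Pl.ord_mul _ f0 p0, P.ord_prod _ fun j _ => y0 j]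
  push_cast
  ring

omit [Algebra ℂ K] [IsScalarTower ℂ L K]

/-- a function with the orders of a product of the equations: the factorisation -/
theorem fac {T : Set (Pl L)} {D : Pl L → Fin k → ℤ} {l : Pl L → L} {g : Pl L → Fin k → ℤ}
    [DecidableEq (Pl L)] (J : Finset (Pl L)) (l0 : ∀ p ∈ J, l p ≠ 0)
    (hl : ∀ p ∈ J, ∀ p' ∈ T, p'.ord (l p) + g p ⬝ᵥ D p' = if p' = p then 1 else 0)
    (n : Pl L → ℤ) : ∀ p' ∈ T, p'.ord (∏ p ∈ J, l p ^ n p) + (∑ p ∈ J, n p • g p) ⬝ᵥ D p' =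
      if p' ∈ J then n p' else 0 := fun p' hp => by
  rw [p'.ord_prod _ fun p h => zpow_ne_zero _ (l0 p h), sum_dotProduct, ← Finset.sum_add_distrib,
    ← Finset.sum_ite_eq]
  refine Finset.sum_congr rfl fun p h => ?_
  rw [Pl.ord_zpow, smul_dotProduct, smul_eq_mul, ← mul_add, hl p h p' hp, mul_ite, mul_one,
    mul_zero]

/-- all divisors are in the span -/
theorem full {T : Set (Pl L)} {D : Pl L → Fin k → ℤ} {l : Pl L → L} {g : Pl L → Fin k → ℤ}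
    [DecidableEq (Pl L)] (l0 : ∀ p ∈ T, l p ≠ 0)
    (hl : ∀ p ∈ T, ∀ p' ∈ T, p'.ord (l p) + g p ⬝ᵥ D p' = if p' = p then 1 else 0)
    (n : Pl L → ℤ) (f : {p | p ∈ T ∧ n p ≠ 0}.Finite) :
    ∃ (h : L) (e : Fin k → ℤ), h ≠ 0 ∧ ∀ p ∈ T, n p = p.ord h + e ⬝ᵥ D p := by
  have s : ∀ p ∈ f.toFinset, p ∈ T := fun p h => (f.mem_toFinset.1 h).1
  refine ⟨_, ∑ p ∈ f.toFinset, n p • g p, Finset.prod_ne_zero_iff.2 fun p h => zpow_ne_zero (n p) (l0 p (s p h)),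
    fun p hp => ?_⟩
  rw [fac f.toFinset (fun p h => l0 p (s p h)) (fun p h => hl p (s p h)) n p hp]
  split_ifs with c
  · rfl
  · exact by_contra fun z => c (f.mem_toFinset.2 ⟨hp, z⟩)

end Vale.Agent.P283R.Cq.Z60
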