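import Vale.Agent.P283R.Wd.Spl25
import Vale.Agent.P283R.Cx.Lar
import Vale.Agent.P283R.Cx.Bas
import Vale.Agent.P287D.Gm.Uh0

/-!
# P283R, block CQ: the tower `L ⊆ L(y) ⊆ L(y, u)` and the components over the small field
-/

open Set

noncomputable section

namespace Vale.Agent.P283R.Cq.T30

open Vale.Agent.P287D Cx
open Vale.Agent.P283R.To (mon mon_ne)

variable (L : Type) {K : Type} [Field L] [Field K] [Algebra L K] {c r ρ : ℕ}

/-- the small field -/
abbrev Sb (y : Fin r → K) : IntermediateField L K := IntermediateField.adjoin L (range y)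

/-- the coordinates in the small field -/
def sb (y : Fin r → K) (i : Fin r) : Sb L y := ⟨y i, IntermediateField.subset_adjoin _ _ ⟨i, rfl⟩⟩

variable {L}

theorem sb_gen (y : Fin r → K) : IntermediateField.adjoin L (range (sb L y)) = ⊤ := by
  refine eq_top_iff.2 fun x _ => ?_
  have := IntermediateField.adjoin_map L (range (sb L y)) (Sb L y).val
  rw [← range_comp] at this
  have a : (x : K) ∈ (IntermediateField.adjoin L (range (sb L y))).map (Sb L y).val := by
    rw [this]
    exact x.2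
  obtain ⟨z, hz, e⟩ := a
  exact (Subtype.ext e : z = x) ▸ hz

theorem ind2 {y : Fin r → K} {u : Fin ρ → K} (h : AlgebraicIndependent L (Fin.append y u)) :
    AlgebraicIndependent L (sb L y) ∧ AlgebraicIndependent (Sb L y) u := by
  have i1 : AlgebraicIndependent L (Sum.elim u y) := by
    have := h.comp _ ((Equiv.sumComm (Fin ρ) (Fin r)).trans finSumFinEquiv).injective
    refine (congrArg (fun w => AlgebraicIndependent L w) (funext ?_)).mp this
    rintro (i | i) <;> simp
  obtain ⟨i2, i3⟩ := AlgebraicIndependent.sumElim_iff.1 i1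
  exact ⟨AlgebraicIndependent.of_comp (Sb L y).val i2,
    IntermediateField.algebraicIndependent_adjoin_iff.2 i3⟩

theorem gen2 {y : Fin r → K} {u : Fin ρ → K}
    (h : IntermediateField.adjoin L (range (Fin.append y u)) = ⊤) :
    IntermediateField.adjoin (Sb L y) (range u) = ⊤ := by
  refine eq_top_iff.2 fun x _ => ?_
  have : IntermediateField.adjoin L (range (Fin.append y u)) ≤
      (IntermediateField.adjoin (Sb L y) (range u)).restrictScalars L := by
    refine IntermediateField.adjoin_le_iff.2 ?_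
    rintro _ ⟨i, rfl⟩
    refine Fin.addCases (fun i => ?_) (fun i => ?_) i
    · rw [Fin.append_left, SetLike.mem_coe, IntermediateField.mem_restrictScalars]
      exact (IntermediateField.adjoin (Sb L y) (range u)).algebraMap_mem (sb L y i)
    · rw [Fin.append_right, SetLike.mem_coe, IntermediateField.mem_restrictScalars]
      exact IntermediateField.subset_adjoin (Sb L y) (range u) ⟨i, rfl⟩
  exact this (h ▸ IntermediateField.mem_top)

theorem mon_app (y : Fin r → K) (u : Fin ρ → K) (w : Fin (r + ρ) → ℤ) :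
    mon (Fin.append y u) w =
      mon y (fun i => w (Fin.castAdd ρ i)) * mon u fun j => w (Fin.natAdd r j) := by
  simp only [mon, Fin.prod_univ_add, Fin.append_left, Fin.append_right]

theorem coe_hm (y : Fin r → K) (φ : L) (v : Fin r → ℤ) :
    ((hm (sb L y) φ v : Sb L y) : K) = hm y φ v := by
  simp only [hm, mon, sb]
  push_cast
  rfl

/-- homogeneous elements in two steps -/
theorem hm_hm (y : Fin r → K) (u : Fin ρ → K) (φ : L) (w : Fin (r + ρ) → ℤ) :
    hm u (hm (sb L y) φ fun i => w (Fin.castAdd ρ i)) (fun j => w (Fin.natAdd r j)) =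
      hm (Fin.append y u) φ w := by
  rw [hm, hm.eq_1 (Fin.append y u), mon_app, ← mul_assoc]
  exact congrArg (· * _) (coe_hm y φ _)

theorem hm_hm' (y : Fin r → K) (u : Fin ρ → K) (φ : L) (v : Fin r → ℤ) (m : Fin ρ → ℤ) :
    hm u (hm (sb L y) φ v) m = hm (Fin.append y u) φ (Fin.append v m) := by
  rw [← hm_hm]
  simp only [Fin.append_left, Fin.append_right]

variable [Algebra ℂ L] [Algebra ℂ K] [IsScalarTower ℂ L K]

instance (y : Fin r → K) : IsScalarTower ℂ (Sb L y) K := .of_algebraMap_eq fun _ => rfl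

theorem ff_add {y : Fin r → K} (h : FF L c) (i : AlgebraicIndependent L y)
    (g : IntermediateField.adjoin L (range y) = ⊤) : FF K (c + r) :=
  Gm.Uh.ff_of (IsScalarTower.toAlgHom ℂ L K) h
    (eq_top_iff.2 fun x _ => show x ∈ IntermediateField.adjoin L (range y) from
      g ▸ IntermediateField.mem_top) i

/-- **the tower** -/
theorem tower {y : Fin r → K} {u : Fin ρ → K} (x : Ext L c (Fin.append y u)) :
    Ext L c (sb L y) ∧ Ext (Sb L y) (c + r) u := by
  obtain ⟨i1, i2⟩ := ind2 x.ind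
  have f := ff_add x.ff i1 (sb_gen y)
  exact ⟨⟨x.ff, f, i1, sb_gen y⟩, f, Nat.add_assoc c r ρ ▸ x.ff', i2, gen2 x.gen⟩

omit [Algebra ℂ L] [Algebra ℂ K] [IsScalarTower ℂ L K] in
theorem zt_zt (s : Fin c → L) (y : Fin r → K) (u : Fin ρ → K) :
    zt (zt s (sb L y)) u = fun i => zt s (Fin.append y u) (Fin.cast (Nat.add_assoc c r ρ) i) := by
  have e : (fun i => algebraMap (Sb L y) K (zt s (sb L y) i)) = zt s y := funext fun i => by
    refine Fin.addCases (fun i => ?_) (fun i => ?_) i
    · simp only [zt, Fin.append_left]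
      rfl
    · simp only [zt, Fin.append_right]
      rfl
  rw [zt, e, zt, Fin.append_assoc]
  rfl

omit [Algebra ℂ L] [IsScalarTower ℂ L K] in
theorem kap_zt (s : Fin c → L) (y : Fin r → K) (u : Fin ρ → K) :
    kap (zt (zt s (sb L y)) u) = kap (zt s (Fin.append y u)) := by
  rw [zt_zt, Wd.kap_cs]

/-- the frames of the tower -/
theorem frm {s : Fin c → L} {y : Fin r → K} {u : Fin ρ → K} (x : Ext L c (Fin.append y u))
    (h : Frm s) : Frm (zt s (sb L y)) ∧ Frm (zt (zt s (sb L y)) u) :=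
  ⟨zt_frm (tower x).1 h, zt_frm (tower x).2 (zt_frm (tower x).1 h)⟩

omit [Algebra ℂ L] [Algebra ℂ K] [IsScalarTower ℂ L K] in
/-- **the components**, coefficients in `L` -/
theorem cmp0 {y : Fin r → K} {u : Fin ρ → K} (x : AlgebraicIndependent L (Fin.append y u))
    (G : (Fin (r + ρ) → ℤ) →₀ L) : ∃ γ : (Fin ρ → ℤ) →₀ Sb L y, lv u γ = lv (Fin.append y u) G ∧
      (∀ m, hm u (γ m) m = ∑ w ∈ G.support with (fun j => w (Fin.natAdd r j)) = m,
        hm (Fin.append y u) (G w) w) ∧
      ∀ w, G w ≠ 0 → γ (fun j => w (Fin.natAdd r j)) ≠ 0 := by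
  classical
  let tl : (Fin (r + ρ) → ℤ) → Fin ρ → ℤ := fun w j => w (Fin.natAdd r j)
  let γ : (Fin ρ → ℤ) →₀ Sb L y := ∑ w ∈ G.support,
    Finsupp.single (tl w) (hm (sb L y) (G w) fun i => w (Fin.castAdd ρ i))
  have key : ∀ m, hm u (γ m) m = ∑ w ∈ G.support with tl w = m, hm (Fin.append y u) (G w) w :=
    fun m => by
      rw [hm]
      simp only [γ, Finsupp.finsetSum_apply, map_sum, Finset.sum_mul, Finset.sum_filter]
      refine Finset.sum_congr rfl fun w _ => ?_
      by_cases h : tl w = m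
      · subst h
        rw [Finsupp.single_eq_same, if_pos rfl]
        exact hm_hm y u _ w
      · rw [Finsupp.single_apply, if_neg h, if_neg h, map_zero, zero_mul]
  refine ⟨γ, ?_, key, fun w h0 h => ?_⟩
  · have sub : γ.support ⊆ G.support.image tl := fun m hm' => by
      by_contra hn
      refine Finsupp.mem_support_iff.1 hm' ?_
      simp only [γ, Finsupp.finsetSum_apply]
      refine Finset.sum_eq_zero fun w hw => ?_
      rw [Finsupp.single_apply, if_neg]
      exact fun e => hn (Finset.mem_image.2 ⟨w, hw, e⟩)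
    rw [lv, Finsupp.sum_of_support_subset _ sub _ fun m _ => hm_zero _ _]
    simp only [key]
    exact Finset.sum_fiberwise_of_maps_to (fun w hw => Finset.mem_image_of_mem tl hw) _
  · have k := key (tl w)
    rw [show γ (tl w) = 0 from h, hm_zero] at k
    have e : G.filter (fun v => tl v = tl w) = 0 := lv_inj x (by
      rw [lv, Finsupp.sum, Finsupp.support_filter, k]
      exact Finset.sum_congr rfl fun v hv => by
        rw [Finsupp.filter_apply, if_pos (Finset.mem_filter.1 hv).2])
    have := DFunLike.congr_fun e w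
    rw [Finsupp.filter_apply, if_pos rfl] at this
    exact h0 this

omit [IsScalarTower ℂ L K] [Algebra ℂ L] in
/-- **CMP**, coefficients in `L` -/
theorem cmp {y : Fin r → K} {u : Fin ρ → K} (x : AlgebraicIndependent L (Fin.append y u))
    (G : (Fin (r + ρ) → ℤ) →₀ L) : ∃ γ : (Fin ρ → ℤ) →₀ Sb L y, lv u γ = lv (Fin.append y u) G ∧
      (∀ m, hm u (γ m) m ∈ Submodule.span ℂ (range fun w => hm (Fin.append y u) (G w) w)) ∧
      (G 0 ≠ 0 → γ 0 ≠ 0) := by
  obtain ⟨γ, a, b, d⟩ := cmp0 x G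
  refine ⟨γ, a, fun m => ?_, d 0⟩
  rw [b]
  exact Submodule.sum_mem _ fun w _ => Submodule.subset_span ⟨w, rfl⟩

omit [IsScalarTower ℂ L K] [Algebra ℂ L] [Algebra ℂ K] in
/-- homogeneous components in `K` have coefficients in `L` -/
theorem coef {y : Fin r → K} (G : (Fin r → ℤ) →₀ K) (h : ∀ w, ∃ φ : L, G w = hm y φ w)
    (y0 : ∀ i, y i ≠ 0) : ∃ G' : (Fin r → ℤ) →₀ L, (∀ w, G w = hm y (G' w) w) ∧
      (∀ w, G' w = 0 ↔ G w = 0) ∧ lv y G' = G.sum fun _ a => a := by
  choose φ e using h
  have z : ∀ w, φ w = 0 ↔ G w = 0 := fun w => by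
    rw [e, hm, mul_eq_zero, map_eq_zero, or_iff_left (mon_ne y0 w)]
  refine ⟨⟨G.support, φ, fun w => by rw [Finsupp.mem_support_iff, Ne, Ne, z]⟩, e, z, ?_⟩
  exact Finset.sum_congr rfl fun w _ => (e w).symm

omit [IsScalarTower ℂ L K] [Algebra ℂ L] in
/-- **CMP**, components in `K` -/
theorem cmp' {y : Fin r → K} {u : Fin ρ → K} (x : AlgebraicIndependent L (Fin.append y u))
    (G : (Fin (r + ρ) → ℤ) →₀ K) (h : ∀ w, ∃ φ : L, G w = hm (Fin.append y u) φ w) :
    ∃ γ : (Fin ρ → ℤ) →₀ Sb L y, (lv u γ = G.sum fun _ a => a) ∧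
      (∀ m, hm u (γ m) m ∈ Submodule.span ℂ (range G)) ∧ (G 0 ≠ 0 → γ 0 ≠ 0) := by
  obtain ⟨G', a, b, d⟩ := coef G h x.ne_zero
  obtain ⟨γ, e, f, g⟩ := cmp x G'
  refine ⟨γ, e.trans d, fun m => ?_, fun k => g fun z => k ((b 0).1 z)⟩
  rw [show (G : _ → K) = fun w => hm (Fin.append y u) (G' w) w from funext a]
  exact f m

end Vale.Agent.P283R.Cq.T30
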