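import Vale.Agent.P283R.Cq.St
import Vale.Agent.P283R.Cq.Cz60
import Vale.Agent.P283R.Cq.Bas30
import Vale.Agent.P283R.Cq.Tow30
import Vale.Agent.P283R.Cf.All

/-!
# P283R, block CQ: the invariant form
-/

open Set

noncomputable section

namespace Vale.Agent.P283R.Cq

open Vale.Agent.P287D Vale.Agent.P283M Vale.Agent.P297Z Cx
open Vale.Agent.P283R.To (mon mon_ne ord_mon)

namespace Z60

variable {L K : Type} [Field L] [Field K] [Algebra ℂ L] [Algebra ℂ K] [Algebra L K]
  [IsScalarTower ℂ L K] {c r : ℕ} {s : Fin c → L}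

/-- the place `y_last = 0` -/
theorem last {y : Fin (r + 1) → K} (x : Ext L c y) (hs : Frm s) :
    ∃ R : Pl K, Trv (algebraMap L K) R ∧ R.ord (y (Fin.last r)) = 1 ∧
      (∀ i : Fin r, R.ord (y i.castSucc) = 0) ∧ kap (zt s y) R = 0 := by
  have e : y = Fin.append (fun i : Fin r => y i.castSucc) ![y (Fin.last r)] := funext fun i => by
    refine Fin.addCases (fun i => ?_) (fun i => ?_) i
    · rw [Fin.append_left]; rfl
    · rw [Fin.append_right, Subsingleton.elim i 0]; rfl
  have x' := e ▸ x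
  obtain ⟨R, t, k, o, -⟩ := (Cf.rat _ K _ _ _ (T30.tower x').2 (T30.frm x' hs).1).1 Polynomial.X
    Polynomial.irreducible_X
  refine ⟨R, fun a => t (algebraMap L _ a), by simpa using o,
    fun i => of_trv t (T30.sb L (fun i : Fin r => y i.castSucc) i), ?_⟩
  rw [e, ← T30.kap_zt]
  exact k

/-- horizontal monomial places -/
theorem hor {y : Fin r → K} (x : Ext L c y) (hs : Frm s) {v : Fin r → ℤ} (hv : v ≠ 0) :
    ∃ (R : Pl K) (e : ℕ), 0 < e ∧ Trv (algebraMap L K) R ∧ (∀ j, v j = e * R.ord (y j)) ∧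
      lt s y R = 0 := by
  obtain _ | r := r
  · exact absurd (Subsingleton.elim _ _) hv
  obtain ⟨A, B, e, he, hAB, -, hv⟩ := To.exists_row hv
  let σ := Equiv.swap (0 : Fin (r + 1)) (Fin.last r)
  have h : (A.submatrix σ id).transpose * (B.submatrix id σ).transpose = 1 := by
    rw [← Matrix.transpose_mul, Matrix.submatrix_mul_equiv, mul_eq_one_comm.1 hAB]
    simp
  obtain ⟨x', m, -, -, k⟩ := T30.bas x h
  obtain ⟨R, t, o, o', k'⟩ := last x' hs
  refine ⟨R, e, he, t, fun j => ?_, ?_⟩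
  · have := m (Pi.single j 1)
    rw [Matrix.single_one_vecMul] at this
    have e1 : mon y (Pi.single j 1) = y j := by simpa [hm] using hm_single (K := L) y j
    rw [← e1, ← this, ord_mon R x'.ind.ne_zero, Fin.sum_univ_castSucc, o, hv]
    simp only [o']
    simp [σ]
  · have := k s hs R
    rw [k', Fin.sum_univ_castSucc, o] at this
    simp only [o'] at this
    rw [lt, add_sub_assoc, ← this]
    simp

end Z60

/-- **CZ** -/
theorem cz60 : CZ := fun L K _ _ _ _ _ _ c ρ s y x hs =>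
  ⟨fun P => by rw [Z60.lt_eq, ← Int.cast_one, ← Int.cast_add, Int.floor_intCast],
    fun _ _ l => Z60.cz_lies x hs l, fun _ l => Gp.lg_hor x.ff' hs.ind x.ind l,
    To.trv_or x.ff' Gp.hc, Z60.cn_eq x hs, fun _ hv => Z60.hor x hs hv⟩

end Vale.Agent.P283R.Cq
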