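import Vale.Agent.P283R.Cq.St

/-!
# P283R, block CQ: invariant primes are dropped
-/

set_option linter.all false

open Set

noncomputable section

namespace Vale.Agent.P283R.Cq

open Vale.Agent.P287D Vale.Agent.P283M

/-- **DRP** -/
theorem drp47 : DRP := by
  intro L K _ _ _ _ _ _ c ρ b y T l d q ε g κ X h hf hX
  have F := h.fm
  refine ⟨h.ok, h.dim, ?_, h.g0, fun P p => h.reg P p.1, h.fin.subset fun P p => ⟨p.1.1, p.2⟩,
    fun P p => h.eff P p.1, fun Q ξ r =>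
      h.hw Q ξ ⟨r.nn, fun P e => ⟨(r.sup P e).1.1, (r.sup P e).2⟩, r.eq⟩,
    fun a h₀ X' k e t a0 h0 f' ie => ?_⟩
  · refine ⟨F.ext, fun a => (F.fin a).subset fun P p => ⟨p.1.1, p.2⟩,
      F.finc.subset fun P p => ⟨p.1.1, p.2⟩, fun E e => F.inv E e.1, fun φ φ0 k => F.lau φ φ0
        fun E e t => k E ⟨e, fun x => hX E x t⟩ t, fun a f =>
      let ⟨φ, φ0, k⟩ := F.eqn a f; ⟨φ, φ0, fun E e => k E e.1⟩, fun E e => F.kt E e.1,
      (F.mis.union (hf.biUnion (t := fun E => {p : Pl L | At E p}) fun E _ =>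
        Set.Subsingleton.finite fun p a p' a' =>
          Pl.ext' (SetLike.ext fun x => (a x).trans (a' x).symm))).subset fun p a => ?_,
      fun E e => F.pg E e.1⟩
    by_contra w
    rw [mem_union, not_or] at w
    obtain ⟨E, e, z⟩ := not_not.1 fun n => w.1 ⟨a.1, n⟩
    exact a.2 ⟨E, ⟨e, fun x => w.2 (mem_biUnion x z)⟩, z⟩
  · rw [Set.diff_diff]
    exact h.av a h₀ (X ∪ X') k e t a0 h0 (hf.union f') ie

end Vale.Agent.P283R.Cq
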