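import Vale.Agent.P283R.Cq.St

/-!
# P283R, block CQ: change of the frame
-/

open Set

noncomputable section

namespace Vale.Agent.P283R.Cq

open Vale.Agent.P287D Vale.Agent.P283M Cx
open Vale.Agent.P283R.To (mon)
open Wd (Gm)

namespace E78

variable {L K : Type} [Field L] [Algebra ℂ L] [Field K] [Algebra ℂ K] [Algebra L K] {c ρ ρ' : ℕ}
  {b : Ba L c} {y : Fin ρ → K} {y' : Fin ρ' → K}

variable (L y y') in
/-- the monomials of the first frame are homogeneous for the second frame -/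
def Tr : Prop := ∃ (e : (Fin ρ → ℤ) ≃+ (Fin ρ' → ℤ)) (w : (Fin ρ → ℤ) → L),
  ∀ m, w m ≠ 0 ∧ mon y m = hm y' (w m) (e m)

omit [Algebra ℂ L] [Algebra ℂ K] in
theorem Tr.symm (h : Tr L y y') : Tr L y' y := by
  obtain ⟨e, w, h⟩ := h
  refine ⟨e.symm, fun m => (w (e.symm m))⁻¹, fun m => ⟨inv_ne_zero (h _).1, ?_⟩⟩
  rw [hm, (h _).2, hm, e.apply_symm_apply, map_inv₀,
    inv_mul_cancel_left₀ ((map_ne_zero _).2 (h _).1)]

omit [Algebra ℂ L] [Algebra ℂ K] in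
theorem Tr.one (h : Tr L y y') (φ : L) (φ0 : φ ≠ 0) (m : Fin ρ → ℤ) :
    ∃ (φ' : L) (m' : Fin ρ' → ℤ), φ' ≠ 0 ∧ hm y φ m = hm y' φ' m' := by
  obtain ⟨e, w, h⟩ := h
  exact ⟨φ * w m, e m, mul_ne_zero φ0 (h m).1, by rw [hm, (h m).2, hm, hm, map_mul, mul_assoc]⟩

omit [Algebra ℂ L] [Algebra ℂ K] in
theorem Tr.all (h : Tr L y y') (ψ : (Fin ρ → ℤ) →₀ L) : ∃ ψ' : (Fin ρ' → ℤ) →₀ L,
    lv y' ψ' = lv y ψ ∧ (ψ 0 ≠ 0 → ψ' 0 ≠ 0) ∧
      ∀ m ∈ ψ.support, ∃ m' ∈ ψ'.support, hm y (ψ m) m = hm y' (ψ' m') m' := by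
  obtain ⟨e, w, h⟩ := h
  let χ : (Fin ρ → ℤ) →₀ L := Finsupp.onFinset ψ.support (fun m => ψ m * w m) fun m n =>
    Finsupp.mem_support_iff.2 (left_ne_zero_of_mul n)
  have k : ∀ m, hm y (ψ m) m = hm y' (χ m) (e m) := fun m => by
    rw [hm, (h m).2, hm, hm, Finsupp.onFinset_apply, map_mul, mul_assoc]
  have a : ∀ m, Finsupp.equivMapDomain e.toEquiv χ (e m) = χ m := fun m => by simp
  refine ⟨Finsupp.equivMapDomain e.toEquiv χ, ?_, fun n => ?_, fun m n => ⟨e m, ?_, ?_⟩⟩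
  · rw [lv, Finsupp.sum_equivMapDomain, Finsupp.onFinset_sum _ (fun _ => by simp [hm]), lv,
      Finsupp.sum]
    exact Finset.sum_congr rfl fun m _ => (k m).symm
  · rw [← map_zero e, a]
    exact mul_ne_zero n (h 0).1
  · rw [Finsupp.mem_support_iff, a]
    exact mul_ne_zero (Finsupp.mem_support_iff.1 n) (h m).1
  · rw [a, k]

omit [Algebra ℂ L] in
theorem Tr.hz (h : Tr L y y') {P : Pl K} (k : Hz L y' P) : Hz L y P := fun φ m φ0 => by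
  obtain ⟨φ', m', a, e⟩ := h.one φ φ0 m
  exact e ▸ k φ' m' a

omit [Algebra ℂ L] in
theorem Tr.gm (h : Tr L y y') {P : Pl K} (k : Gm (K := L) y' P) : Gm (K := L) y P := fun ψ m n => by
  obtain ⟨ψ', a, -, e⟩ := h.all ψ
  obtain ⟨m', n', e⟩ := e m n
  rw [← a, e]
  exact k ψ' m' n'

theorem Tr.rep (h : Tr L y y') {T : Set (Pl K)} {Q : Pl K} {ξ : Pl K → ℝ} (r : Rep L y T Q ξ) :
    Rep L y' T Q ξ := ⟨r.nn, fun P n => ⟨(r.sup P n).1, fun k => (r.sup P n).2 (h.hz k)⟩,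
  fun φ m φ0 => by
    obtain ⟨φ', m', a, e⟩ := h.symm.one φ φ0 m
    exact e ▸ r.eq φ' m' a⟩

theorem fm {T : Set (Pl K)} (h : Eqf b y y') (f : Fm b y T) : Fm b y' T := by
  obtain ⟨-, x, z, h⟩ := h
  have h : Tr L y y' := h
  have z' : cz b y' = cz b y := funext z
  refine ⟨x, f.fin, z' ▸ f.finc, fun P a n => h.symm.gm (f.inv P a fun k => n (h.symm.hz k)),
    fun φ φ0 k => ?_, fun a n => (f.eqn a n).imp fun φ k => ⟨k.1, fun P p t => k.2 P p (h.hz t)⟩,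
    fun P p t => z' ▸ f.kt P p (h.hz t), f.mis, f.pg⟩
  obtain ⟨ψ, rfl⟩ := f.lau φ φ0 fun P p t => k P p (h.symm.hz t)
  exact (h.all ψ).imp fun _ k => k.1

end E78

open E78 in
theorem eqf78 : EQF := fun L K _ _ _ _ _ _ c ρ b y T ρ' y' h => by
  have t : Tr L y y' := h.2.2.2
  have z : cz b y' = cz b y := funext h.2.2.1
  exact ⟨fun l d q ε g κ p => ⟨p.ok, h.1 ▸ p.dim, fm h p.fm, p.g0,
    fun P a k => p.reg P a (t.hz k), p.fin, z ▸ p.eff, fun Q ξ r => z ▸ p.hw Q ξ (t.symm.rep r),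
    z ▸ p.av⟩, fun Q ξ => t.rep, fun J κ o => ⟨o.co, z ▸ o.od⟩,
    fun ψ n => (t.all ψ).imp fun _ k => ⟨k.2.1 n, k.1⟩⟩

end Vale.Agent.P283R.Cq
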