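import Vale.Agent.P283R.Cx.Kah
import Vale.Agent.P283R.To.Pri

/-!
# P283R, block CQ: the prime divisors of the torus over a function field
-/

open Set MvPolynomial

noncomputable section

namespace Vale.Agent.P283R.Cq.E60

open Vale.Agent.P287D Vale.Agent.P297Z Vale.Agent.P283R.Cx
open Vale.Agent.P283R.To (mon mon_ne)

variable {L K : Type} [Field L] [Field K] [Algebra ℂ K] [Algebra L K] {d : ℕ} {y : Fin d → K}
  {P : Pl K}

variable (L) in
/-- `P` is a prime divisor of the torus over `L` -/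
def Tpl (y : Fin d → K) (P : Pl K) : Prop := (∀ (φ : L) e, φ ≠ 0 → P.ord (hm y φ e) = 0) ∧
  ∀ a ∈ P.ring, ∃ g h : (Fin d → ℤ) →₀ L, lv y h ≠ 0 ∧ P.ord (lv y h) = 0 ∧ a = lv y g / lv y h

theorem Tpl.oy (h : Tpl L y P) (j : Fin d) : P.ord (y j) = 0 :=
  hm_single (K := L) y j ▸ h.1 1 _ one_ne_zero

theorem Tpl.con (h : Tpl L y P) (c : L) : algebraMap L K c ∈ P.ring := by
  by_cases e : c = 0
  · rw [e, map_zero]; exact zero_mem _
  · exact (Pl.ord_nonneg_iff _ ((map_ne_zero _).2 e)).1 (hm_deg0 y c ▸ h.1 c 0 e).ge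

/-- polynomials which are units at `P` -/
def Un (y : Fin d → K) (P : Pl K) (q : MvPolynomial (Fin d) L) : Prop :=
  aeval y q ≠ 0 ∧ P.ord (aeval y q) = 0

theorem Un.mul {q r : MvPolynomial (Fin d) L} (a : Un y P q) (b : Un y P r) : Un y P (q * r) :=
  ⟨by rw [map_mul]; exact mul_ne_zero a.1 b.1, by
    rw [map_mul, Pl.ord_mul _ a.1 b.1, a.2, b.2, add_zero]⟩

theorem un_one : Un (L := L) y P 1 := ⟨by simp, by simp⟩

variable (L) in
/-- the local ring of the affine space at the centre of `P` -/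
def loc (y : Fin d → K) (P : Pl K) : Subalgebra L K where
  carrier := {x | ∃ p q : MvPolynomial (Fin d) L, Un y P q ∧ x * aeval y q = aeval y p}
  mul_mem' := fun ⟨p, q, a, b⟩ ⟨p', q', a', b'⟩ => ⟨p * p', q * q', a.mul a', by
    rw [map_mul, map_mul, ← b, ← b']; ring⟩
  add_mem' := fun ⟨p, q, a, b⟩ ⟨p', q', a', b'⟩ => ⟨p * q' + p' * q, q * q', a.mul a', by
    rw [map_add, map_mul, map_mul, map_mul, ← b, ← b']; ring⟩
  algebraMap_mem' c := ⟨C c, 1, un_one, by simp⟩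

theorem lv_mem (h0 : ∀ j, y j ≠ 0) (ho : ∀ j, P.ord (y j) = 0) (g : (Fin d → ℤ) →₀ L) :
    lv y g ∈ loc L y P := by
  refine Subalgebra.sum_mem _ fun m _ => Subalgebra.mul_mem _ (Subalgebra.algebraMap_mem _ _)
    (Subalgebra.prod_mem _ fun j _ => ?_)
  cases m j with
  | ofNat n =>
    rw [Int.ofNat_eq_natCast, zpow_natCast]
    exact (loc L y P).pow_mem ⟨X j, 1, un_one, by simp⟩ _
  | negSucc n =>
    rw [zpow_negSucc, ← inv_pow]
    exact (loc L y P).pow_mem ⟨1, X j, ⟨by simpa using h0 j, by simpa using ho j⟩, by simp [h0 j]⟩ _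

theorem mem_loc (h0 : ∀ j, y j ≠ 0) (h : Tpl L y P) {a : K} (ha : a ∈ P.ring) :
    a ∈ loc L y P := by
  obtain ⟨g, k, k0, ko, rfl⟩ := h.2 a ha
  obtain ⟨p, q, u, e⟩ := lv_mem h0 h.oy g
  obtain ⟨p', q', u', e'⟩ := lv_mem h0 h.oy k
  refine ⟨p * q', q * p', u.mul ⟨e' ▸ mul_ne_zero k0 u'.1, ?_⟩, ?_⟩
  · rw [← e', Pl.ord_mul _ k0 u'.1, ko, u'.2, add_zero]
  · rw [map_mul, map_mul, ← e, ← e']
    field_simp

theorem aev_mem (h0 : ∀ j, y j ≠ 0) (h : Tpl L y P) (p : MvPolynomial (Fin d) L) :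
    aeval y p ∈ P.ring := by
  induction p using MvPolynomial.induction_on with
  | C c => simpa using h.con c
  | add p q a b => rw [map_add]; exact add_mem a b
  | mul_X p j a =>
    rw [map_mul, aeval_X]
    exact mul_mem a ((Pl.ord_nonneg_iff _ (h0 j)).1 (h.oy j).ge)

omit [Algebra ℂ K] in
theorem aev_ne (hr : AlgebraicIndependent L y) {p : MvPolynomial (Fin d) L} (h : p ≠ 0) :
    aeval y p ≠ 0 := (map_ne_zero_iff _ hr).2 h

/-- a prime polynomial which vanishes at `P` generates the centre -/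
theorem dvd (hr : AlgebraicIndependent L y) (h : Tpl L y P) {π a : MvPolynomial (Fin d) L} (hπ : Prime π)
    (o : 0 < P.ord (aeval y π)) (a0 : a ≠ 0) (oa : 0 < P.ord (aeval y a)) : π ∣ a := by
  have h0 := hr.ne_zero
  obtain ⟨s, hs⟩ := Int.eq_ofNat_of_zero_le o.le
  obtain ⟨r, hr'⟩ := Int.eq_ofNat_of_zero_le oa.le
  have p0 := aev_ne hr hπ.ne_zero
  have b0 := aev_ne hr a0
  have m : aeval y a ^ s / aeval y π ^ r ∈ P.ring :=
    (Pl.ord_nonneg_iff _ (div_ne_zero (pow_ne_zero _ b0) (pow_ne_zero _ p0))).1 (by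
      rw [Pl.ord_div _ (pow_ne_zero _ b0) (pow_ne_zero _ p0), Pl.ord_pow, Pl.ord_pow, hs, hr',
        mul_comm, sub_self])
  obtain ⟨p, q, u, e⟩ := mem_loc h0 h m
  have e' : a ^ s * q = π ^ r * p := hr (by
    rw [map_mul, map_mul, map_pow, map_pow, ← e]
    field_simp)
  have k : π ∣ a ^ s * q := e' ▸ (dvd_pow_self π (by omega)).mul_right p
  rcases hπ.dvd_or_dvd k with k | ⟨c, rfl⟩
  · exact hπ.dvd_of_dvd_pow k
  · have c0 : aeval y c ≠ 0 := fun z => u.1 (by rw [map_mul, z, mul_zero])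
    have := u.2
    rw [map_mul, Pl.ord_mul _ p0 c0] at this
    linarith [Pl.ord_nonneg_of_mem _ (aev_mem h0 h c)]

theorem exists_prime (hr : AlgebraicIndependent L y) (ho : Tpl L y P) (p : MvPolynomial (Fin d) L)
    (p0 : p ≠ 0) (o : P.ord (aeval y p) = 1) :
    ∃ π : MvPolynomial (Fin d) L, Prime π ∧ P.ord (aeval y π) = 1 := by
  have h0 := hr.ne_zero
  induction p using UniqueFactorizationMonoid.induction_on_prime with
  | h₁ => exact (p0 rfl).elim
  | h₂ x hx =>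
    obtain ⟨c, hc⟩ := hx.exists_right_inv
    have e : aeval y x * aeval y c = 1 := by rw [← map_mul, hc, map_one]
    rw [Pl.ord_unit _ (aev_mem h0 ho x) (by
      rw [inv_eq_of_mul_eq_one_right e]; exact aev_mem h0 ho c)] at o
    exact absurd o zero_ne_one
  | h₃ a π a0 hπ ih =>
    rw [map_mul, Pl.ord_mul _ (aev_ne hr hπ.ne_zero) (aev_ne hr a0)] at o
    have k1 := Pl.ord_nonneg_of_mem _ (aev_mem h0 ho π)
    have k2 := Pl.ord_nonneg_of_mem _ (aev_mem h0 ho a)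
    by_cases k : P.ord (aeval y a) = 1
    · exact ih a0 k
    · exact ⟨π, hπ, by omega⟩

/-- the prime divisors of the torus are principal -/
theorem pri (hr : AlgebraicIndependent L y) (h : Tpl L y P) :
    ∃ π : K, π ≠ 0 ∧ P.ord π = 1 ∧ ∀ P', Tpl L y P' → P' ≠ P → P'.ord π = 0 := by
  have h0 := hr.ne_zero
  obtain ⟨t0, t1⟩ := Bm.ord_t P
  obtain ⟨p, q, u, e⟩ := mem_loc h0 h ((Pl.ord_nonneg_iff _ t0).1 (t1 ▸ zero_le_one))
  have p0 : aeval y p ≠ 0 := e ▸ mul_ne_zero t0 u.1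
  obtain ⟨π, hπ, o⟩ := exists_prime hr h p (fun z => p0 (by rw [z, map_zero]))
    (by rw [← e, Pl.ord_mul _ t0 u.1, t1, u.2, add_zero])
  refine ⟨_, aev_ne hr hπ.ne_zero, o, fun P' h' ne => by_contra fun k => ne ?_⟩
  have o' := lt_of_le_of_ne (Pl.ord_nonneg_of_mem _ (aev_mem h0 h' π)) (Ne.symm k)
  refine Pl.ext' (congrArg _ (Pl.eq_of_le' (v := P'.toPlace) (w := P.toPlace) fun a ha => ?_))
  obtain ⟨b, c, v, f⟩ := mem_loc h0 h' ha
  have c0 : c ≠ 0 := fun z => v.1 (by rw [z, map_zero])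
  have oc : P.ord (aeval y c) = 0 := le_antisymm (not_lt.1 fun w => by
    obtain ⟨r, rfl⟩ := dvd hr h hπ (o ▸ zero_lt_one) c0 w
    have r0 := aev_ne hr (right_ne_zero_of_mul c0)
    have := v.2
    rw [map_mul, Pl.ord_mul _ (aev_ne hr hπ.ne_zero) r0] at this
    linarith [Pl.ord_nonneg_of_mem _ (aev_mem h0 h' r)])
    (Pl.ord_nonneg_of_mem _ (aev_mem h0 h c))
  rw [eq_div_of_mul_eq v.1 f, div_eq_mul_inv]
  exact mul_mem (aev_mem h0 h b) ((Pl.ord_eq_zero_iff _ v.1).1 oc).2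

/-- **the equation of a divisor of the torus** -/
theorem eqn (hr : AlgebraicIndependent L y) (c : Pl K → ℤ) (S : Finset (Pl K))
    (hS : ∀ P ∈ S, Tpl L y P) : ∃ G : K, G ≠ 0 ∧ ∀ P, Tpl L y P →
      (P ∈ S → P.ord G = c P) ∧ (P ∉ S → P.ord G = 0) := by
  classical
  choose! π π0 π1 π2 using fun P (h : Tpl L y P) => pri hr h
  have n : ∀ R ∈ S, π R ^ c R ≠ 0 := fun R h => zpow_ne_zero _ (π0 R (hS R h))
  refine ⟨∏ R ∈ S, π R ^ c R, Finset.prod_ne_zero_iff.2 n, fun P h => ?_⟩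
  have z : ∀ R ∈ S, R ≠ P → P.ord (π R ^ c R) = 0 := fun R a b => by
    rw [Pl.ord_zpow, π2 R (hS R a) P h b.symm, mul_zero]
  rw [P.ord_prod _ n]
  refine ⟨fun a => ?_, fun a => Finset.sum_eq_zero fun R b => z R b fun e => a (e ▸ b)⟩
  rw [Finset.sum_eq_single_of_mem P a z, Pl.ord_zpow, π1 P h, mul_one]

open Cb Kah in
/-- **the form has no zeros along the prime divisors of the torus** -/
theorem kt [Algebra ℂ L] [IsScalarTower ℂ L K] {c : ℕ} {z : Fin c → L} (h : Ext L c y)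
    (hz : Frm z) (hP : Tpl L y P) : lt z y P = 1 := by
  obtain ⟨E, hE⟩ := zt_frm h hz
  obtain ⟨E₀, h₀⟩ := hz
  have ot := hP.oy
  have mK := hP.con
  have m : ∀ i j, E i (zt z y j) ∈ P.ring := fun i j => by
    rw [hE.dual]
    split_ifs
    exacts [one_mem _, zero_mem _]
  have rK : ∀ i (φ : L), algebraMap L K φ ∈ rg P (E i) := fun i φ => ⟨mK φ, by
    have := expand ((dr_of (E i)).comp (algebraMap L K)) (fun c => by
      rw [← IsScalarTower.algebraMap_apply]; exact (E i).map_algebraMap c) h₀ φ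
    exact this ▸ sum_mem fun j _ => mul_mem (by simpa [zt] using m i (Fin.castAdd d j)) (mK _)⟩
  have rt : ∀ i j, y j ∈ rg P (E i) := fun i j =>
    ⟨mem_ord (ot j).ge, by simpa [zt] using m i (Fin.natAdd c j)⟩
  have rS : ∀ i (g : (Fin d → ℤ) →₀ L), lv y g ∈ rg P (E i) := fun i g =>
    Subalgebra.sum_mem _ fun e _ =>
      mul_mem (rK i _) (prod_mem fun l _ => zpow_rg (rt i l) (inv_mem_ord (ot l)) _)
  have ad : Ad P (zt z y) E := ⟨hE, fun j => by
      refine Fin.addCases (fun j => ?_) (fun j => ?_) j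
      · simpa [zt] using mK (z j)
      · simpa [zt] using mem_ord (ot j).ge, fun i x hx => by
    obtain ⟨b, g, -, g1, rfl⟩ := hP.2 x hx
    rw [div_eq_mul_inv]
    exact (mul_mem (rS i b) (inv_rg (rS i g) (inv_mem_ord g1))).2⟩
  rw [lt, kap_eq ad, jac_self hE]
  simp [ot]

end Vale.Agent.P283R.Cq.E60
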