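import Vale.Agent.P283R.Pq.Inv85
import Vale.Agent.P283R.Cx.Bas
import Vale.Agent.P283R.Cx.Lar

/-!
# P283R, block CQ: graded charts over an arbitrary field of invariants
-/

set_option linter.all false

open Set CategoryTheory AlgebraicGeometry
open Vale.Agent.P285N.Brep (Fr)

noncomputable section

namespace Vale.Agent.P283R.Cq.I12

open Vale.Agent.P287D Vale.Agent.P283M Vale.Agent.P297Z Cx
open Vale.Agent.P283R.To (mon der_mon)

section field

variable {L K : Type} [Field L] [Algebra ℂ L] [Field K] [Algebra ℂ K] [Algebra L K]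
  [IsScalarTower ℂ L K] {c ρ n : ℕ} {y : Fin ρ → K} {P : Pl K}

theorem lv_smul (a : L) (G : (Fin ρ → ℤ) →₀ L) : lv y (a • G) = algebraMap L K a * lv y G := by
  rw [lv, lv, Finsupp.sum_smul_index' (h := fun e φ => hm y φ e) fun e => hm_zero y e,
    Finsupp.mul_sum]
  exact Finsupp.sum_congr fun e _ => by rw [smul_eq_mul, hm, hm, map_mul, mul_assoc]

/-- the components of a sum of homogeneous functions -/
theorem dec (I : Submodule ℂ K) {A : K → Prop} (hA : ∀ b, A b → b ∈ I) {g : K}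
    (hg : g ∈ Submodule.span ℂ {b | A b ∧ ∃ (φ : L) (m : Fin ρ → ℤ), b = hm y φ m}) :
    ∃ G : (Fin ρ → ℤ) →₀ L, g = lv y G ∧ ∀ m, hm y (G m) m ∈ I := by
  classical
  induction hg using Submodule.span_induction with
  | mem b hb =>
    obtain ⟨h, φ, m, rfl⟩ := hb
    refine ⟨.single m φ, (lv_single y m φ).symm, fun m' => ?_⟩
    rw [Finsupp.single_apply]
    split_ifs with e
    · exact e ▸ hA _ h
    · rw [hm_zero]; exact zero_mem _
  | zero => exact ⟨0, (lv_zero y).symm, fun m => by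
      rw [Finsupp.zero_apply, hm_zero]; exact zero_mem _⟩
  | add a b _ _ u v =>
    obtain ⟨G, rfl, u⟩ := u
    obtain ⟨G', rfl, v⟩ := v
    exact ⟨G + G', (lv_add y G G').symm, fun m => by
      rw [Finsupp.add_apply, hm_add]; exact add_mem (u m) (v m)⟩
  | smul b a _ u =>
    obtain ⟨G, rfl, u⟩ := u
    refine ⟨algebraMap ℂ L b • G, by
      rw [lv_smul, ← IsScalarTower.algebraMap_apply, Algebra.smul_def], fun m => ?_⟩
    have : hm y ((algebraMap ℂ L b • G) m) m = b • hm y (G m) m := by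
      rw [Finsupp.smul_apply, smul_eq_mul, hm, hm, map_mul, ← IsScalarTower.algebraMap_apply,
        Algebra.smul_def, mul_assoc]
    exact this ▸ I.smul_mem b (u m)

/-- the Euler derivations -/
theorem eul (x : Ext L c y) : ∃ θ : Fin ρ → Derivation ℂ K K,
    ∀ i (φ : L) m, θ i (hm y φ m) = (m i : ℂ) • hm y φ m := by
  obtain ⟨s, hs, -⟩ := x.ff
  obtain ⟨E, hE⟩ := Cb.fr_of x.ff hs
  obtain ⟨D, hD⟩ := zt_frm x ⟨E, hE⟩
  have hy := x.ind.ne_zero
  refine ⟨fun i => y i • D (Fin.natAdd c i), fun i φ m => ?_⟩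
  have d : ∀ j, D (Fin.natAdd c i) (y j) = if i = j then 1 else 0 := fun j => by
    simpa [zt] using hD.dual (Fin.natAdd c i) (Fin.natAdd c j)
  have s0 : ∀ l, D (Fin.natAdd c i) (algebraMap L K (s l)) = 0 := fun l => by
    have := hD.dual (Fin.natAdd c i) (Fin.castAdd ρ l)
    rwa [zt, Fin.append_left, if_neg fun e => by
      have := congrArg Fin.val e
      have := l.2
      simp only [Fin.val_castAdd, Fin.val_natAdd] at *
      omega] at this
  have z : D (Fin.natAdd c i) (algebraMap L K φ) = 0 := by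
    have := Cb.expand ((Cb.dr_of (D (Fin.natAdd c i))).comp (algebraMap L K)) (fun b => by
      rw [← IsScalarTower.algebraMap_apply, Derivation.map_algebraMap]) hE φ
    simpa [s0] using this
  rw [hm, Derivation.smul_apply, Derivation.leibniz, z, smul_zero, add_zero, der_mon _ hy,
    Finset.sum_eq_single i (fun j _ h => by rw [d, if_neg h.symm]; simp) (by simp), d, if_pos rfl,
    Algebra.smul_def (m i : ℂ), map_intCast]
  have := hy i
  simp only [smul_eq_mul]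
  field_simp

variable {θ : Fin ρ → Derivation ℂ K K}

theorem sep (I : Submodule ℂ K) (hI : ∀ i, ∀ a ∈ I, θ i a ∈ I) {G : (Fin ρ → ℤ) → K}
    (hG : ∀ i u, θ i (G u) = (u i : ℂ) • G u) (m : Fin ρ → ℤ) (T : Finset (Fin ρ → ℤ)) :
    ∀ (c₀ : ℂ) (c : (Fin ρ → ℤ) → ℂ), m ∉ T → c₀ ≠ 0 →
      c₀ • G m + ∑ l ∈ T, c l • G l ∈ I → G m ∈ I := by
  classical
  induction T using Finset.induction_on with
  | empty => exact fun c₀ c _ h k => (I.smul_mem_iff h).1 (by simpa using k)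
  | insert a T ha ih =>
    intro c₀ c hm h k
    rw [Finset.mem_insert, not_or] at hm
    obtain ⟨i, hi⟩ := Function.ne_iff.1 hm.1
    refine ih (c₀ * (m i - a i)) (fun l => c l * (l i - a i)) hm.2
      (mul_ne_zero h (sub_ne_zero.2 (by exact_mod_cast hi))) ?_
    convert I.sub_mem (hI i _ k) (I.smul_mem (a i : ℂ) k) using 1
    simp only [Finset.sum_insert ha, map_add, map_sum, Derivation.map_smul, hG i, smul_add,
      Finset.smul_sum, smul_smul, mul_sub, sub_smul, Finset.sum_sub_distrib, mul_comm (a i : ℂ)]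
    abel

theorem sep' (e : ∀ i (φ : L) m, θ i (hm y φ m) = (m i : ℂ) • hm y φ m) (I : Submodule ℂ K)
    (hI : ∀ i, ∀ a ∈ I, θ i a ∈ I) {G : (Fin ρ → ℤ) →₀ L} (h : lv y G ∈ I) (m : Fin ρ → ℤ) :
    hm y (G m) m ∈ I := by
  classical
  by_cases k : m ∈ G.support
  · refine sep I hI (G := fun u => hm y (G u) u) (fun i u => e i _ u) m (G.support.erase m) 1 1
      (by simp) one_ne_zero ?_
    simp only [Pi.one_apply, one_smul]
    rwa [Finset.add_sum_erase _ (fun l => hm y (G l) l) k]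
  · rw [Finsupp.notMem_support_iff.1 k, hm_zero]
    exact zero_mem _

/-- a place whose ring is stable under the Euler derivations -/
theorem inv_of (hy : AlgebraicIndependent L y)
    (e : ∀ i (φ : L) m, θ i (hm y φ m) = (m i : ℂ) • hm y φ m)
    (r : ∀ i, ∀ a ∈ P.ring, θ i a ∈ P.ring) (n : ¬ Hz L y P) {G : (Fin ρ → ℤ) →₀ L}
    {u : Fin ρ → ℤ} (hu : G u ≠ 0) : P.ord (lv y G) ≤ P.ord (hm y (G u) u) := by
  obtain ⟨φ, v, h0, hj⟩ : ∃ (φ : L) (v : Fin ρ → ℤ), φ ≠ 0 ∧ P.ord (hm y φ v) ≠ 0 := by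
    by_contra c
    push Not at c
    exact n c
  have G0 : lv y G ≠ 0 := fun z => hu (by rw [lv_inj hy z]; rfl)
  let I : Submodule ℂ K :=
    { carrier := {a | a / lv y G ∈ P.ring}
      add_mem' := fun {a b} ha hb => by
        change (a + b) / lv y G ∈ P.ring
        rw [add_div]
        exact add_mem ha hb
      zero_mem' := by
        change (0 : K) / lv y G ∈ P.ring
        rw [zero_div]
        exact zero_mem _
      smul_mem' := fun c a ha => by
        change (c • a) / lv y G ∈ P.ring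
        rw [smul_div_assoc]
        exact To.Mop.smul_mem P c ha }
  have k : hm y (G u) u / lv y G ∈ P.ring := by
    refine sep' e I (fun i a ha => ?_) ?_ u
    · change θ i a / lv y G ∈ P.ring
      have z : θ i a / lv y G = θ i (a / lv y G) + a / lv y G * (θ i (lv y G) / lv y G) := by
        rw [Derivation.leibniz_div]
        simp only [smul_eq_mul]
        field_simp
        ring
      rw [z]
      exact add_mem (r i _ ha) (mul_mem ha
        (Pq.I85.lg (r i) (hm_ne hy.ne_zero h0 v) hj (e i φ v) G0))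
    · change lv y G / lv y G ∈ P.ring
      rw [div_self G0]
      exact one_mem _
  have := Pl.ord_nonneg_of_mem _ k
  rw [Pl.ord_div _ (hm_ne hy.ne_zero hu u) G0] at this
  linarith

theorem lv_adj (G : (Fin ρ → ℤ) →₀ L) : lv y G ∈ IntermediateField.adjoin L (range y) :=
  sum_mem fun m _ => mul_mem (IntermediateField.algebraMap_mem _ _) (prod_mem fun j _ =>
    zpow_mem (IntermediateField.subset_adjoin L _ (mem_range_self j)) _)

theorem ext_of (hL : FF L c) (hK : FF K n) (hy : AlgebraicIndependent L y)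
    (gen : IntermediateField.adjoin L (range y) = ⊤) : c + ρ = n ∧ Ext L c y := by
  have a : Algebra.IsAlgebraic (Algebra.adjoin L (range y)) K :=
    IntermediateField.isAlgebraic_adjoin_iff_top.1 ⟨fun a =>
      isAlgebraic_algebraMap (⟨a, gen ▸ IntermediateField.mem_top⟩ :
        IntermediateField.adjoin L (range y))⟩
  have b := (hy.isTranscendenceBasis_iff_isAlgebraic.2 a).cardinalMk_eq_trdeg
  have t := trdeg_add_eq ℂ L (A := K)
  rw [hL.trdeg, hK.trdeg, ← b, Cardinal.mk_fin] at t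
  obtain rfl : c + ρ = n := by exact_mod_cast t
  exact ⟨rfl, hL, hK, hy, gen⟩

end field

open Vale.Agent.P289 (Pt)
open Vale.Agent.P283M.Stm Vale.Agent.P283M.Stm.Var Vale.Agent.P283M.Br Vale.Agent.P283R.Gl

variable {X : Var} {L : Type} [Field L] [Algebra ℂ L] [Algebra L X.K] [IsScalarTower ℂ L X.K]
  {c ρ n : ℕ} {W : X.X.Opens} {y : Fin ρ → X.K} {x : Pt X.X}

variable (L W y) in
/-- `W` is covered by affine charts which are graded over `L` -/
def CoL : Prop := AlgebraicIndependent L y ∧ ∀ x ∈ W, ∃ U ≤ W, IsAffineOpen U ∧ x ∈ U ∧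
  ∀ g, (∀ x' ∈ U, RegAt g x') → g ∈ Submodule.span ℂ
    {b | (∀ x' ∈ U, RegAt b x') ∧ ∃ (φ : L) (m : Fin ρ → ℤ), b = hm y φ m}

/-- the regular functions -/
def rg (U : X.X.Opens) : Submodule ℂ X.K where
  carrier := {g | ∀ x ∈ U, RegAt g x}
  add_mem' := fun a b x hx => (lr x).add_mem (a x hx) (b x hx)
  zero_mem' := fun x _ => map_zero (algebraMap ℂ X.K) ▸ reg_const 0 x
  smul_mem' := fun c _ a x hx => reg_smul c (a x hx)

theorem cht (h : CoL L W y) (hx : x ∈ W) : ∃ U ≤ W, IsAffineOpen U ∧ x ∈ U ∧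
    ∀ g, (∀ x' ∈ U, RegAt g x') → ∃ G : (Fin ρ → ℤ) →₀ L, g = lv y G ∧
      ∀ m, ∀ x' ∈ U, RegAt (hm y (G m) m) x' :=
  let ⟨U, a, b, c, d⟩ := h.2 x hx
  ⟨U, a, b, c, fun g hg => dec (rg U) (fun _ z => z) (d g hg)⟩

theorem gen (h : CoL L W y) (hx : x ∈ W) : IntermediateField.adjoin L (range y) = ⊤ := by
  refine eq_top_iff.2 fun a _ => ?_
  obtain ⟨U, -, hU, xU, eS⟩ := cht h hx
  have g0 : genericPoint X.X ∈ U := (genericPoint_specializes x).mem_open U.isOpen xU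
  obtain ⟨b, h1, h2, h3⟩ := Am.frac hU g0 (P270L.S.mem_loc_gen a)
  obtain ⟨G, e, -⟩ := eS _ (Am.mem_reg.1 h1)
  obtain ⟨G', e', -⟩ := eS _ (Am.mem_reg.1 h3)
  rw [← mul_div_cancel_left₀ a h2.1, e', e]
  exact div_mem (lv_adj _) (lv_adj _)

theorem ext (h : CoL L W y) (hx : x ∈ W) (hL : FF L c) (hK : FF X.K n) :
    c + ρ = n ∧ Ext L c y := ext_of hL hK h.1 (gen h hx)

theorem tpl (h : CoL L W y) (E : X.PrimeDiv) (hE : E.1 ∈ W) : ∀ a ∈ (pq E).ring,
    ∃ g k : (Fin ρ → ℤ) →₀ L, lv y k ≠ 0 ∧ (pq E).ord (lv y k) = 0 ∧ a = lv y g / lv y k := by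
  intro a ha
  obtain ⟨U, -, hU, xU, eS⟩ := cht h hE
  obtain ⟨b, h1, h2, h3⟩ := Am.frac (f := a) hU xU ((pq_is E a).1 ha)
  obtain ⟨G, e, -⟩ := eS _ (Am.mem_reg.1 h1)
  obtain ⟨G', e', -⟩ := eS _ (Am.mem_reg.1 h3)
  exact ⟨G', G, e ▸ h2.1, e ▸ (pq_is E).dom.ord h2, by
    rw [← e, ← e', mul_div_cancel_left₀ a h2.1]⟩

theorem inv (h : CoL L W y) (e : Ext L c y) (E : X.PrimeDiv) (hE : E.1 ∈ W)
    (n : ¬ Hz L y (pq E)) (G : (Fin ρ → ℤ) →₀ L) (u : Fin ρ → ℤ) (hu : G u ≠ 0) :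
    (pq E).ord (lv y G) ≤ (pq E).ord (hm y (G u) u) := by
  obtain ⟨θ, hθ⟩ := eul e
  obtain ⟨U, -, hU, xU, eS⟩ := cht h hE
  refine inv_of h.1 hθ (fun i a ha => ?_) n hu
  obtain ⟨b, h1, h2, h3⟩ := Am.frac (f := a) hU xU ((pq_is E a).1 ha)
  have k : ∀ g, g ∈ Am.reg U → θ i g ∈ (pq E).ring := fun g hg => by
    obtain ⟨G, rfl, r⟩ := eS g (Am.mem_reg.1 hg)
    rw [lv, Finsupp.sum, map_sum]
    refine sum_mem fun m _ => ?_
    rw [hθ]
    exact To.Mop.smul_mem _ _ ((pq_is E _).2 (r m _ xU))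
  have z : θ i a = (θ i (b * a) - a * θ i b) * b⁻¹ := by
    rw [Derivation.leibniz]
    have := h2.1
    simp only [smul_eq_mul]
    field_simp
    ring
  rw [z]
  exact mul_mem (sub_mem (k _ h3) (mul_mem ha (k _ h1))) ((pq_is E _).2 h2.2.2)

theorem lau (h : CoL L W y) (hx : x ∈ W) (φ : X.K) (φ0 : φ ≠ 0)
    (hφ : ∀ E : X.PrimeDiv, E.1 ∈ W → Hz L y (pq E) → 0 ≤ (pq E).ord φ) :
    ∃ G : (Fin ρ → ℤ) →₀ L, φ = lv y G := by
  classical
  have y0 := h.1.ne_zero
  obtain ⟨U, UW, hU, xU, dec⟩ := cht h hx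
  have nn : ∀ g, (∀ x' ∈ U, RegAt g x') → ∀ E : X.PrimeDiv, E.1 ∈ U → 0 ≤ (pq E).ord g :=
    fun g hg E c => Pl.ord_nonneg_of_mem _ ((pq_is E _).2 (hg _ c))
  have g0 : genericPoint X.X ∈ U := (genericPoint_specializes x).mem_open U.isOpen xU
  have pos : ∀ E : X.PrimeDiv, E.1 ∈ U → ∀ (a : L) u, a ≠ 0 → 0 < (pq E).ord (hm y a u) →
      ∃ (b : L) (v : Fin ρ → ℤ), b ≠ 0 ∧ (∀ x' ∈ U, RegAt (hm y b v) x') ∧
        0 < (pq E).ord (hm y b v) := by
    intro E c a u a0 p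
    obtain ⟨b, h1, h2, h3⟩ := Am.frac hU g0 (P270L.S.mem_loc_gen (hm y a u))
    obtain ⟨G, g2, g3⟩ := dec _ (Am.mem_reg.1 h1)
    obtain ⟨G', k2, k3⟩ := dec _ (Am.mem_reg.1 h3)
    obtain ⟨G₁, l3, l2⟩ := lv_shift y0 G a u
    have e : G₁ = G' := sub_eq_zero.1 (lv_inj h.1 (by
      have := lv_add y (G₁ - G') G'
      rw [sub_add_cancel, l2, ← g2, ← k2] at this
      linear_combination -this))
    obtain ⟨v, hv⟩ : ∃ v, G v ≠ 0 := by
      by_contra! n
      exact h2.1 (by rw [g2, show G = 0 from Finsupp.ext n, lv_zero])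
    refine ⟨G v * a, v + u, mul_ne_zero hv a0, by rw [← l3, e]; exact k3 _, ?_⟩
    rw [hm_mul y0, Pl.ord_mul _ (hm_ne y0 hv v) (hm_ne y0 a0 u)]
    linarith [nn _ (g3 v) E c]
  have k : ∀ T : Finset X.PrimeDiv, ∃ (b : L) (v : Fin ρ → ℤ), b ≠ 0 ∧
      (∀ x' ∈ U, RegAt (hm y b v) x') ∧
      ∀ E ∈ T, E.1 ∈ U → 0 ≤ (pq E).ord φ + (pq E).ord (hm y b v) := fun T => by
    induction T using Finset.induction_on with
    | empty => exact ⟨1, 0, one_ne_zero, fun _ _ => hm_one (K := L) y ▸ reg_one,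
        fun _ a => (Finset.notMem_empty _ a).elim⟩
    | insert E T _ ih =>
      obtain ⟨b, v, b0, b2, b3⟩ := ih
      by_cases c : E.1 ∈ U ∧ (pq E).ord φ < 0
      · obtain ⟨b', v', c0, c2, c3⟩ : ∃ (b : L) (v : Fin ρ → ℤ), b ≠ 0 ∧
            (∀ x' ∈ U, RegAt (hm y b v) x') ∧ 0 < (pq E).ord (hm y b v) := by
          have n : ¬ Hz L y (pq E) := fun t => c.2.not_ge (hφ E (UW c.1) t)
          simp only [Hz, not_forall] at n
          obtain ⟨a, u, a0, n⟩ := n
          rcases lt_or_gt_of_ne n with n | n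
          · exact pos E c.1 _ (-u) (inv_ne_zero a0) (by rw [hm_inv y0, Pl.ord_inv]; omega)
          · exact pos E c.1 _ _ a0 n
        obtain ⟨n, hn⟩ := Int.eq_ofNat_of_zero_le (show 0 ≤ -(pq E).ord φ by omega)
        have rp : ∀ x' ∈ U, RegAt (hm y b' v' ^ n) x' := fun x' hx' => reg_pow (c2 x' hx') n
        refine ⟨b * b' ^ n, v + (n : ℤ) • v', mul_ne_zero b0 (pow_ne_zero _ c0), ?_⟩
        rw [hm_mul y0, hm_pow y0]
        refine ⟨fun x' hx' => reg_mul (b2 x' hx') (rp x' hx'), fun E' hE' c' => ?_⟩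
        rw [Pl.ord_mul _ (hm_ne y0 b0 v) (pow_ne_zero _ (hm_ne y0 c0 v'))]
        rcases Finset.mem_insert.1 hE' with rfl | hE'
        · rw [Pl.ord_pow]
          nlinarith [nn _ b2 E' c']
        · linarith [b3 E' hE' c', nn _ rp E' c']
      · refine ⟨b, v, b0, b2, fun E' hE' c' => ?_⟩
        rcases Finset.mem_insert.1 hE' with rfl | hE'
        · exact add_nonneg (not_lt.1 fun a => c ⟨c', a⟩) (nn _ b2 E' c')
        · exact b3 E' hE' c'
  obtain ⟨b, v, b0, b2, b3⟩ := k (fin X φ).toFinset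
  have q : ∀ x ∈ U, RegAt (φ * hm y b v) x := fun x hx => har X _ x fun E hE => by
    have c : E.1 ∈ U := hE.mem_open U.isOpen hx
    rw [pq_ord, Pl.ord_mul _ φ0 (hm_ne y0 b0 v)]
    by_cases e : ord φ E = 0
    · rw [← pq_ord, e, zero_add]
      exact nn _ b2 E c
    · exact b3 E ((fin X φ).mem_toFinset.2 e) c
  obtain ⟨G, g2, -⟩ := dec _ q
  obtain ⟨G₁, -, l2⟩ := lv_shift y0 G b⁻¹ (-v)
  exact ⟨G₁, by rw [l2, ← g2, hm_inv y0, mul_inv_cancel_right₀ (hm_ne y0 b0 v)]⟩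

end Vale.Agent.P283R.Cq.I12
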