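import Vale.Agent.P283R.Cq.St
import Vale.Agent.P283R.Cq.Inv12
import Vale.Agent.P283R.Cq.Eqn60

/-!
# P283R, block CQ: the prime divisors of the generic torus of a variety with graded charts
-/

open Set

noncomputable section

namespace Vale.Agent.P283R.Cq

open Vale.Agent.P287D Vale.Agent.P283M Cx

/-- **EQK** -/
theorem eqk60 : EQK := by
  classical
  intro X L _ _ _ _ c ρ W y x hL hx hy ch
  have h : I12.CoL L W y := ⟨hy, ch⟩
  obtain ⟨n, hn⟩ := Md.exists_ff X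
  have tp : ∀ P ∈ {P | ∃ E : X.PrimeDiv, E.1 ∈ W ∧ Gl.pq E = P}, Hz L y P → E60.Tpl L y P := by
    rintro _ ⟨E, hE, rfl⟩ z
    exact ⟨z, I12.tpl h E hE⟩
  refine ⟨fun a ha => ?_, fun s hs P hP z => E60.kt (I12.ext h hx hL hn).2 hs (tp P hP z)⟩
  have f : {P | a P ≠ 0 ∧ E60.Tpl L y P}.Finite := ha.subset fun _ k => k.1
  obtain ⟨G, G0, hG⟩ := E60.eqn hy a f.toFinset fun P k => (f.mem_toFinset.1 k).2
  refine ⟨G, G0, fun P hP z => ?_⟩
  have t := tp P hP z
  by_cases k : P ∈ f.toFinset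
  · exact (hG P t).1 k
  · rw [(hG P t).2 k]
    exact (by_contra fun e => k (f.mem_toFinset.2 ⟨e, t⟩) : a P = 0).symm

end Vale.Agent.P283R.Cq
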