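import Vale.Agent.P283R.Wd.Gen70

/-!
# P283R, block CQ: expansion of a function into monomials of the Cox ring
-/

set_option linter.all false

open Set

noncomputable section

namespace Vale.Agent.P283R.Cq.X38

open Vale.Agent.P287D Vale.Agent.P297Z Vale.Agent.P283R.To
open Cx (Sp dg)

variable {L : Type} [Field L] [Algebra ℂ L] {ι : Type} {k N : ℕ}

/-- a function without poles outside of `J` is a sum of monomials in the sections `lam p`, `p ∈ J`
(any exponent) and `σ j`, whose orders along `J` are not smaller -/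
theorem exp38 [DecidableEq ι] (pl : ι → Pl L) (w : ι → Prop) (D : ι → Fin k → ℤ)
    {σ : Fin N → L} {α : Fin N → Fin k → ℤ} (s0 : ∀ j, σ j ≠ 0)
    (sec : ∀ e φ, φ ≠ 0 → (φ ∈ Sp σ α e ↔ ∀ p, w p → 0 ≤ (pl p).ord φ + e ⬝ᵥ D p))
    (J : Finset ι) (lam : ι → L) (g : ι → Fin k → ℤ) (l0 : ∀ p ∈ J, lam p ≠ 0)
    (hl : ∀ p ∈ J, ∀ p', w p' → (pl p').ord (lam p) + g p ⬝ᵥ D p' = if p' = p then 1 else 0)
    {φ : L} (φ0 : φ ≠ 0) (h : ∀ p, w p → p ∉ J → 0 ≤ (pl p).ord φ) :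
    φ ∈ Submodule.span ℂ {x | ∃ (n : J → ℤ) (τ : Fin N → ℕ),
      x = mon (fun p : J => lam p) n * ∏ j, σ j ^ τ j ∧
        ∀ p ∈ J, w p → (pl p).ord φ ≤ (pl p).ord x} := by
  let n : J → ℤ := fun p => (pl p).ord φ
  have l1 : ∀ p : J, lam p ≠ 0 := fun p => l0 p p.2
  have m0 : mon (fun p : J => lam p) n ≠ 0 := mon_ne l1 n
  let m : Fin k → ℤ := -∑ p : J, n p • g p
  have key : ∀ p', w p' → (pl p').ord (φ / mon (fun p : J => lam p) n) + m ⬝ᵥ D p' =
      if p' ∈ J then 0 else (pl p').ord φ := fun p' a => by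
    have e1 : ∑ p : J, n p * (pl p').ord (lam p) + ∑ p : J, n p * (g p ⬝ᵥ D p') =
        if p' ∈ J then (pl p').ord φ else 0 := by
      rw [← Finset.sum_add_distrib,
        Finset.sum_congr rfl fun (p : J) _ => show _ = n p * if p' = p then 1 else 0 by
          rw [← mul_add, hl p p.2 p' a],
        Finset.sum_coe_sort J fun x => (pl x).ord φ * if p' = x then 1 else 0]
      simp
    have e2 : m ⬝ᵥ D p' = -∑ p : J, n p * (g p ⬝ᵥ D p') := by
      simp only [m, neg_dotProduct, sum_dotProduct, smul_dotProduct, smul_eq_mul]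
    rw [Pl.ord_div _ φ0 m0, ord_mon _ l1, e2]
    split_ifs at e1 ⊢ <;> omega
  have ψ0 : φ / mon (fun p : J => lam p) n ≠ 0 := div_ne_zero φ0 m0
  have sp := (sec m _ ψ0).2 fun p a => by
    rw [key p a]
    split_ifs with b
    · exact le_rfl
    · exact h p a b
  rw [← mul_div_cancel₀ φ m0]
  refine Submodule.span_le.2 (?_ : _ ⊆ ((Submodule.span ℂ _).comap
    (LinearMap.mulLeft ℂ (mon (fun p : J => lam p) n)) : Set L)) sp
  rintro _ ⟨τ, hτ, rfl⟩
  refine Submodule.subset_span ⟨n, τ, rfl, fun p b a => ?_⟩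
  have t0 : ∏ j, σ j ^ τ j ≠ 0 := Finset.prod_ne_zero_iff.2 fun j _ => pow_ne_zero _ (s0 j)
  have a1 := (sec m _ t0).1 (Submodule.subset_span ⟨τ, hτ, rfl⟩) p a
  have a2 := key p a
  rw [if_pos b] at a2
  show _ ≤ (pl p).ord (mon (fun p : J => lam p) n * ∏ j, σ j ^ τ j)
  rw [Pl.ord_mul _ m0 ψ0, Pl.ord_mul _ m0 t0]
  omega

end Vale.Agent.P283R.Cq.X38
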