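import Vale.Agent.P283R.Cq.St
import Vale.Agent.P283R.Cq.Exp38
import Vale.Agent.P283R.Wc.Ga70

/-!
# P283R, block CQ: the row GNR
-/

set_option linter.all false

open Set

noncomputable section

namespace Vale.Agent.P283R.Cq

open Vale.Agent.P287D Vale.Agent.P297Z Vale.Agent.P283R.To Cx
open Wc (Dr)

namespace N38

variable {L K : Type} [Field L] [Algebra ℂ L] [Field K] [Algebra ℂ K] [Algebra L K] {c r : ℕ}
  {b : Ba L c} {y : Fin r → K} {J : Finset (Pl L)} {f : L}

theorem mo_one : Mo b y J f 1 := ⟨0, 0, 0, 0, by simp, by simp [hm_one]⟩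

theorem mo_mul (l0 : ∀ p, b.lam p ≠ 0) (y0 : ∀ i, y i ≠ 0) (a a' : K) (h : Mo b y J f a)
    (h' : Mo b y J f a') : Mo b y J f (a * a') := by
  classical
  obtain ⟨n, v, a, w, hn, rfl⟩ := h
  obtain ⟨n', v', a', w', hn', rfl⟩ := h'
  refine ⟨n + n', v + v', a + a', w + w', fun p t => ?_, ?_⟩
  · exact (Finset.mem_union.1 (Finsupp.support_add t)).elim (hn p) (hn' p)
  · rw [← hm_mul y0, Finsupp.prod_add_index' (fun _ => zpow_zero _) fun p _ _ => zpow_add₀ (l0 p) _ _]
    simp only [Pi.add_apply, pow_add, Finset.prod_mul_distrib]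
    refine congrArg (hm y · _) ?_
    ring

theorem mo_pow (l0 : ∀ p, b.lam p ≠ 0) (y0 : ∀ i, y i ≠ 0) {a : K} (h : Mo b y J f a) (n : ℕ) :
    Mo b y J f (a ^ n) := by
  induction n with
  | zero => rw [pow_zero]; exact mo_one
  | succ n ih => rw [pow_succ]; exact mo_mul l0 y0 _ _ ih h

end N38

open N38

/-- **GNR** -/
theorem gnr38 : GNR := by
  rintro tw L K _ _ _ _ _ _ c r ρ b y u T l J f k e ok h sJ un ⟨Ee, hE, hf⟩ ei er
  classical
  obtain ⟨-, x2, -, cmp⟩ := tw L K c r ρ b y u T h.ext ok.fr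
  have Y0 := h.ext.ind.ne_zero
  have y0 : ∀ i, y i ≠ 0 := fun i => Fin.append_left y u i ▸ Y0 (Fin.castAdd ρ i)
  have m0 : ∀ a : L, a ≠ 0 → algebraMap L K a ≠ 0 := fun a z => (map_ne_zero _).2 z
  let φ : Sm L y →ₐ[ℂ] K := (IntermediateField.adjoin L (range y)).val.restrictScalars ℂ
  let J' := J.filter (· ∈ b.T)
  have mJ : ∀ p, p ∈ J' ↔ p ∈ J ∧ p ∈ b.T := fun p => Finset.mem_filter
  let x : J' ⊕ Fin r → Sm L y := Sum.elim (fun p => algebraMap L _ (b.lam p)) (sm L y)
  let z₀ : Fin (b.N + 1) → L := Fin.cons f⁻¹ b.σ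
  let z : Fin (b.N + 1) → Sm L y := fun j => algebraMap L _ (z₀ j)
  have f0 : f ≠ 0 := hf ▸ Finset.prod_ne_zero_iff.2 fun p _ => ok.l0 p
  have z0 : ∀ j, z₀ j ≠ 0 := fun j => Fin.cases (inv_ne_zero f0) ok.cox.ne j
  have kt : ∀ i, e i ∈ Kt (Fin.append y u) T J := fun i => er ▸ mem_range_self i
  have inT : ∀ P ∈ T, ∀ p, At P p → p ∈ b.T := fun P a p t =>
    (h.pg P a).elim (fun v => (t.not_trv v).elim) fun ⟨p', a', t'⟩ => t'.uniq t ▸ a'
  have nh : ∀ (P : Pl K) (p : Pl L), At P p → ¬ Hz L (Fin.append y u) P := fun P p t v => by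
    have := v p.t 0 p.t_ne
    rw [hm_deg0] at this
    exact t.e_pos.ne' this
  have lo : ∀ p ∈ b.T, ∀ p' ∈ b.T, p' ∉ J → p'.ord (b.lam p) = if p' = p then 1 else 0 :=
    fun p a p' a' t => by
      have := ok.lam p a p' a'
      rw [ok.sup p' a' fun v => t (sJ v), dotProduct_zero, add_zero] at this
      rw [this]
  have fo : ∀ p ∈ b.T, p ∉ J → p.ord f = if p ∈ Ee then 1 else 0 := fun p a t => by
    rw [hf, Pl.ord_prod _ _ fun p _ => ok.l0 p,
      Finset.sum_congr rfl fun p' v => lo p' ((hE p').1 v).1 p a t]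
    simp
  have off : ∀ P ∈ T, P ∉ range e → Hz L (Fin.append y u) P ∨ ∃ p ∉ J, At P p := fun P a t => by
    by_contra q
    exact t (er ▸ ⟨a, fun v => q (.inl v), fun p v v' => q (.inr ⟨p, v, v'⟩)⟩)
  have em : ∀ (a : L) (v : Fin r → ℤ), hm (Fin.append y u) a (Fin.append v 0) = hm y a v :=
    fun a v => by simp [hm, mon, Fin.prod_univ_add]
  obtain ⟨E, s', a', hE', s0, sg, sec⟩ := Wc.G70.gen_abs φ (x := x) (z := z) (T := T)
    (by
      rintro (p | i)
      · exact (map_ne_zero _).2 (ok.l0 p)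
      · exact fun v => y0 i (congrArg Subtype.val v))
    (fun j => (map_ne_zero _).2 (z0 j)) ei (fun i => (kt i).1) (fun P a t => by
      rcases off P a t with v | ⟨p, v, v'⟩
      · have v1 : ∀ a : L, a ≠ 0 → P.ord (algebraMap L K a) = 0 := fun a a0 =>
          hm_deg0 (Fin.append y u) a ▸ v a 0 a0
        refine ⟨?_, fun j => (v1 _ (z0 j)).ge⟩
        rintro (p | i)
        · exact v1 _ (ok.l0 p)
        · have := v 1 (Pi.single (Fin.castAdd ρ i) 1) one_ne_zero
          rwa [hm_single, Fin.append_left] at this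
      · have pT := inT P a p v'
        refine ⟨?_, fun j => ?_⟩
        · rintro (p' | i)
          · refine (v'.ord (b.lam p')).trans ?_
            rw [lo _ ((mJ _).1 p'.2).2 p pT v,
              if_neg fun w : p = p'.1 => v (w ▸ ((mJ _).1 p'.2).1), mul_zero]
          · exact un P a p v v' i (y0 i)
        · refine (mul_nonneg v'.e_pos.le ?_).trans_eq (v'.ord (z₀ j)).symm
          refine Fin.cases ?_ (fun j => ?_) j
          · show 0 ≤ p.ord f⁻¹
            rw [Pl.ord_inv, fo p pT v, if_neg fun w => ((hE p).1 w).2.2 ⟨P, a, v'⟩, neg_zero]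
          · have := (ok.cox.sec _ _ (ok.cox.ne j)).1 (Wd.G70.sp_gen b.σ b.a j) p pT
            rwa [ok.sup p pT fun w => v (sJ w), dotProduct_zero, add_zero] at this)
    fun ψ ψ0 reg => by
      have ψ0' : φ ψ ≠ 0 := (map_ne_zero φ).2 ψ0
      obtain ⟨G, hG⟩ := h.lau _ ψ0' fun P a v => reg P a fun t => (er ▸ t : P ∈ Kt _ T J).2.1 v
      obtain ⟨γ, e1, -, e2, -⟩ := cmp G
      obtain ⟨χ, e3, e4⟩ := e2 0
      have e5 : γ - Finsupp.single 0 ψ = 0 := lv_inj x2.ind (by
        rw [sub_eq_add_neg, ← Finsupp.single_neg, lv_add, e1, hG, lv_single, hm_deg0, map_neg]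
        exact add_neg_cancel _)
      have e6 : ψ = lv (sm L y) χ := by
        rw [← e3, sub_eq_zero.1 e5, Finsupp.single_eq_same]
      have e7 : φ ψ = ∑ v ∈ χ.support, hm y (χ v) v := by
        rw [e6, lv, Finsupp.sum, map_sum]
        refine Finset.sum_congr rfl fun v _ => ?_
        simp only [hm, mon, map_mul, map_prod, map_zpow₀]
        rfl
      nth_rewrite 2 [e7]
      refine sum_mem fun v hv => ?_
      have c0 : χ v ≠ 0 := Finsupp.mem_support_iff.1 hv
      have iv : ∀ P ∈ T, ¬ Hz L (Fin.append y u) P → P.ord (φ ψ) ≤ P.ord (hm y (χ v) v) :=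
        fun P a t => by
          have := h.inv P a t G (Fin.append v 0) (Finsupp.mem_support_iff.2 (e4 v ▸ c0))
          rwa [hG, ← e4, em] at this
      obtain ⟨N₀, hN⟩ : ∃ N₀ : ℕ, ∀ p ∈ Ee, 0 ≤ p.ord (χ v) + N₀ := by
        refine ⟨∑ p ∈ Ee, (p.ord (χ v)).natAbs, fun p t => ?_⟩
        have := Finset.single_le_sum (f := fun p : Pl L => (p.ord (χ v)).natAbs)
          (fun _ _ => Nat.zero_le _) t
        omega
      have fp : f ^ N₀ ≠ 0 := pow_ne_zero _ f0
      have sp := X38.exp38 id (· ∈ b.T) b.D ok.cox.ne ok.cox.sec J' b.lam b.dg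
        (fun p _ => ok.l0 p) (fun p t p' t' => by
          rw [id, ok.lam p ((mJ p).1 t).2 p' t']) (mul_ne_zero c0 fp) fun p a t => by
          have t' : p ∉ J := fun w => t ((mJ p).2 ⟨w, a⟩)
          rw [id, Pl.ord_mul _ c0 fp, Pl.ord_pow, fo p a t']
          split_ifs with w
          · simpa using hN p w
          obtain ⟨P, a', v'⟩ := not_not.1 fun q => w ((hE p).2 ⟨a, t', q⟩)
          have a1 := (reg P a' fun q => (er ▸ q : P ∈ Kt _ T J).2.2 p t' v').trans
            (iv P a' (nh P p v'))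
          rw [ord_hm y0 _ c0, Finset.sum_eq_zero fun i _ => by
            rw [un P a' p t' v' i (y0 i), mul_zero], add_zero, v'.ord] at a1
          simpa using (mul_nonneg_iff_of_pos_left v'.e_pos).1 a1
      let Φ : L →ₗ[ℂ] K := (LinearMap.mulRight ℂ (algebraMap L K (f ^ N₀)⁻¹ * mon y v)).comp
        (IsScalarTower.toAlgHom ℂ L K).toLinearMap
      have eΦ : ∀ a, Φ a = hm y (a / f ^ N₀) v := fun a => by
        rw [hm, div_eq_mul_inv, map_mul, mul_assoc]
        rfl
      rw [show hm y (χ v) v = Φ (χ v * f ^ N₀) by rw [eΦ, mul_div_cancel_right₀ _ fp]]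
      refine Submodule.span_le.2 (?_ : _ ⊆ ((Submodule.span ℂ _).comap Φ : Set L)) sp
      rintro a ⟨n, τ, ea, ha⟩
      have a0 : a ≠ 0 := ea ▸ mul_ne_zero (mon_ne (fun p => ok.l0 _) n)
        (Finset.prod_ne_zero_iff.2 fun j _ => pow_ne_zero _ (ok.cox.ne j))
      refine Submodule.subset_span ⟨Sum.elim n v, Fin.cons N₀ τ, ?_, fun i => ?_⟩
      · rw [eΦ, ea]
        simp only [hm, mon, Fintype.prod_sum_type, Fin.prod_univ_succ, x, z, z₀, Sum.elim_inl,
          Sum.elim_inr, Fin.cons_zero, Fin.cons_succ, div_eq_mul_inv, map_mul, map_prod, map_zpow₀,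
          map_pow, map_inv₀, inv_pow]
        show _ = ((∏ p : J', algebraMap L K (b.lam p) ^ n p) * ∏ i, y i ^ v i) *
          ((algebraMap L K f ^ N₀)⁻¹ * ∏ j, algebraMap L K (b.σ j) ^ τ j)
        ring
      · refine (iv _ (kt i).1 (kt i).2.1).trans ?_
        rw [eΦ, ord_hm y0 _ c0, ord_hm y0 _ (div_ne_zero a0 fp)]
        refine add_le_add_left ?_ _
        rcases h.pg _ (kt i).1 with t | ⟨p, pT, t⟩
        · have t0 : ∀ a : L, (e i).ord (algebraMap L K a) = 0 := fun a =>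
            Pl.ord_unit _ (t a) (by rw [← map_inv₀]; exact t _)
          rw [t0, t0]
        · have := ha p ((mJ p).2 ⟨not_not.1 fun w => (kt i).2.2 p w t, pT⟩) pT
          rw [id, Pl.ord_mul _ c0 fp] at this
          rw [t.ord (χ v), t.ord (a / f ^ N₀), Pl.ord_div _ a0 fp]
          exact mul_le_mul_of_nonneg_left (by omega) t.e_pos.le
  have Mm := mo_mul (b := b) (J := J) (f := f) ok.l0 y0
  refine ⟨E, s', a', ?_, s0, fun n => ?_, sec⟩
  · have := Finset.card_filter_le J (· ∈ b.T)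
    have := ok.bN
    rw [hE', Fintype.card_sum, Fintype.card_coe, Fintype.card_fin]
    simp only [J']
    omega
  refine Finset.prod_induction _ _ Mm mo_one fun j _ => mo_pow ok.l0 y0 ?_ _
  rcases sg j with ⟨ξ, v⟩ | ⟨j', v⟩
  · rw [show (s' j : K) = _ from v]
    refine Finset.prod_induction _ _ Mm mo_one ?_
    rintro (p | i) -
    · refine ⟨Finsupp.single p.1 (ξ (.inl p)), 0, 0, 0, fun p' t => ?_, ?_⟩
      · rw [Finset.mem_singleton.1 (Finsupp.support_single_subset t)]
        exact (mJ _).1 p.2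
      · rw [Finsupp.prod_single_index (zpow_zero _), hm_deg0]
        simp only [Pi.zero_apply, pow_zero, Finset.prod_const_one, mul_one, div_one, map_zpow₀]
        rfl
    · refine ⟨0, Pi.single i (ξ (.inr i)), 0, 0, by simp, ?_⟩
      rw [hm, mon, Finset.prod_eq_single i (fun j _ w => by simp [w]) (by simp)]
      simp only [Finsupp.prod_zero_index, Pi.zero_apply, pow_zero, Finset.prod_const_one, mul_one,
        div_one, map_one, one_mul, Pi.single_eq_same]
      rfl
  · rw [v]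
    refine Fin.cases ⟨0, 0, 1, 0, by simp, ?_⟩ (fun j => ⟨0, 0, 0, Pi.single j 1, by simp, ?_⟩) j'
    · rw [hm_deg0]
      simp only [Finsupp.prod_zero_index, Pi.zero_apply, pow_zero, Finset.prod_const_one, mul_one,
        pow_one, one_div]
      rfl
    · rw [hm_deg0, Finset.prod_eq_single j (fun j _ w => by simp [w]) (by simp)]
      simp only [Finsupp.prod_zero_index, pow_zero, one_mul, div_one, Pi.single_eq_same, pow_one]
      rfl

end Vale.Agent.P283R.Cq
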