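import Vale.Agent.P283R.T3.Shr
import Vale.Agent.P283R.T3.Sh95
import Vale.Agent.P283R.Be2.Skp
import Vale.Agent.P283R.Wd.Cen45

/-!
# P283R, a Rees valuation of a closed point
-/

open Set

noncomputable section

namespace Vale.Agent.P283R.Cq

open Vale.Agent.P287D Vale.Agent.P283M Vale.Agent.P297Z T3

variable {F : Type} [Field F] [Algebra ℂ F] {n : ℕ} {S : Subalgebra ℂ F} {p : Ideal S}

/-- **REES** -/
theorem rees (A : Aff (n + 1) S) (hp : p.IsMaximal) :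
    ∃ (R : Pl F) (e : ℕ) (x : Fin (n + 1) → F), 0 < e ∧ Cen S p R ∧
      (∀ a ∈ p, (a : F) ≠ 0 → (e : ℤ) ≤ R.ord (a : F)) ∧ (∀ i, x i ∈ S) ∧
      AlgebraicIndependent ℂ x ∧ 1 + kap x R = (n + 1 : ℕ) * e := by
  classical
  obtain ⟨z, z1, z0, R₀, c₀⟩ := H95.plc A hp
  obtain ⟨v, rfl, hv⟩ := S79.coo A p
  have o : Og v p := ⟨hp, hv⟩
  have vS : ∀ a ∈ v, a ∈ Ad v := fun a ha => Algebra.subset_adjoin ha
  have nz : Nz v := by_contra fun nz => z0 (show z ∈ (⊥ : Ideal (Ad v)) from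
    S79.le_of o (fun a k => Subtype.ext (by_contra fun e => nz ⟨a, k, e⟩)) z1)
  obtain ⟨f, hf, f0, e₀⟩ := R₀.exists_mz nz
  have p₀ : 0 < R₀.ord f := ((Hr.cen_iff c₀ ⟨f, vS f hf⟩).1 (hv _ hf)).resolve_left f0
  let B := Algebra.adjoin ℂ (insert f (range fun a : v => (a : F) / f))
  have fB : f ∈ B := Algebra.subset_adjoin (mem_insert _ _)
  have dB : ∀ a : v, (a : F) / f ∈ B := fun a => Algebra.subset_adjoin (.inr ⟨a, rfl⟩)
  have le : Ad v ≤ B := Algebra.adjoin_le fun a ha => by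
    simpa [f0] using mul_mem (dB ⟨a, ha⟩) fB
  have B0 : ∀ a ∈ B, a ∈ R₀.ring := fun a ha => Cb.adj_mem (by
    rintro _ (rfl | ⟨a, rfl⟩)
    · exact Cb.mem_ord p₀.le
    · by_cases a0 : (a : F) = 0
      · simp [a0]
      · have := R₀.le_mz a.2 a0
        exact Cb.mem_ord (by rw [Pl.ord_div _ a0 f0]; omega)) ha
  have al : Algebra.IsAlgebraic B F := by
    have : IsFractionRing B F := IsFractionRing.of_field B F fun a =>
      let ⟨s, t, e⟩ := A.fr a
      ⟨⟨s, le s.2⟩, ⟨t, le t.2⟩, e⟩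
    exact IsLocalization.isAlgebraic F (nonZeroDivisors B)
  obtain ⟨R, r, pf, ak⟩ := On.div_alg A.ff
    (Subalgebra.fg_def.2 ⟨_, (finite_range _).insert f, rfl⟩) al fB f0
    fun k => by
      have := Pl.ord_nonneg_of_mem _ (B0 _ k)
      rw [Pl.ord_inv] at this
      omega
  have r' : ∀ s ∈ Ad v, s ∈ R.ring := fun s hs => r s (le hs)
  have ge : ∀ a ∈ v, a ≠ 0 → R.ord f ≤ R.ord a := fun a ha a0 => by
    have := Pl.ord_nonneg_of_mem _ (r _ (dB ⟨a, ha⟩))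
    rw [Pl.ord_div _ a0 f0] at this
    omega
  obtain ⟨q, hq, c⟩ := Oner.exists_cen _ R r'
  obtain rfl : p = q := hp.eq_of_le hq.ne_top (S79.le_of o fun a k => (Hr.cen_iff c a).2
    (or_iff_not_imp_left.2 fun a0 => pf.trans_le (ge a k a0)))
  have sub : ∀ a ∈ B, R.rd a ∈ Algebra.adjoin ℂ (range fun a : v => R.rd ((a : F) / f)) :=
    fun a ha => by
      induction ha using Algebra.adjoin_induction with
      | mem x hx =>
        rcases hx with rfl | ⟨a, rfl⟩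
        · rw [(Bm.rd_zero_iff R (r _ fB)).2 (.inr pf)]
          exact zero_mem _
        · exact Algebra.subset_adjoin ⟨a, rfl⟩
      | algebraMap c => rw [Cb.rd_const]; exact Subalgebra.algebraMap_mem _ _
      | add a b ka kb ha hb => rw [Cb.rd_add (r a ka) (r b kb)]; exact add_mem ha hb
      | mul a b ka kb ha hb => rw [Cb.rd_mul (r a ka) (r b kb)]; exact mul_mem ha hb
  have a2 : Algebra.IsAlgebraic (Algebra.adjoin ℂ (range fun a : v => R.rd ((a : F) / f))) R.κ :=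
    ⟨fun x => IntermediateField.isAlgebraic_adjoin_iff.1 (On.alg_mono Subtype.val_injective
      Subtype.val_injective (fun s => ⟨⟨s, IntermediateField.adjoin_le_iff.2 (by
        rintro _ ⟨a, ha, rfl⟩
        exact IntermediateField.algebra_adjoin_le_adjoin _ _ (sub a ha)) s.2⟩, rfl⟩)
      (ak.isAlgebraic x))⟩
  obtain ⟨b, bs, hb⟩ := exists_isTranscendenceBasis_subset (R := ℂ)
    (range fun a : v => R.rd ((a : F) / f))
  have k := hb.cardinalMk_eq_trdeg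
  rw [Cb.trdeg_κ A.ff, ← Cardinal.mk_fin, Cardinal.eq] at k
  obtain ⟨ε⟩ := k
  choose u hu using fun i => bs (ε.symm i).2
  have ind : AlgebraicIndependent ℂ fun i => R.rd ((u i : F) / f) :=
    funext hu ▸ hb.1.comp _ ε.symm.injective
  have m : ∀ i, (u i : F) / f ∈ R.ring := fun i => r _ (dB _)
  have u0 : ∀ i, (u i : F) ≠ 0 := fun i z => ind.ne_zero i (by
    rw [z, zero_div]
    exact (Bm.rd_zero_iff R (zero_mem _)).2 (.inl rfl))
  let x : Fin (n + 1) → F := Fin.cons f fun i => (u i : F)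
  have x0 : ∀ i, x i ≠ 0 := fun i => Fin.cases f0 u0 i
  obtain ⟨⟨D, hD⟩, -⟩ := H.adf0 A.ff R pf.ne' m (Cb.fr_of (Bm.ff_κ A.ff R) ind)
  have dl : ∀ j, H.Dlg x (Skp.ch x j) := fun j => Fin.cases (H.Dlg.self 0 (x0 0))
    (fun l => (H.Dlg.self _ (x0 _)).div (H.Dlg.self 0 (x0 0))) j
  have xi := (H.kp_log A.ff (Equiv.refl _) x0 dl (H.ind_of_fr hD)).1
  obtain ⟨-, kp⟩ := Skp.kap_ch A.ff xi R pf fun G G0 => by
    have m' : MvPolynomial.aeval (fun i => (u i : F) / f) G ∈ R.ring :=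
      Cb.adj_mem (S := range fun i => (u i : F) / f) (by rintro _ ⟨i, rfl⟩; exact m i)
        (by rw [Algebra.adjoin_range_eq_range_aeval]; exact ⟨G, rfl⟩)
    have w := mt (Bm.rd_zero_iff R m').2 (by
      rw [Cb.rd_aeval m]
      exact fun w => G0 (algebraicIndependent_iff.1 ind G w))
    exact ⟨fun e => w (.inl e),
      le_antisymm (not_lt.1 fun e => w (.inr e)) (Pl.ord_nonneg_of_mem _ m')⟩
  have e1 : ((R.ord f).toNat : ℤ) = R.ord f := Int.toNat_of_nonneg pf.le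
  refine ⟨R, (R.ord f).toNat, x, by omega, c, fun a ha a0 => ?_,
    fun i => Fin.cases (vS f hf) (fun i => vS _ (u i).2) i, xi, ?_⟩
  · have k : a ∈ (Oner.subS _ R r' (-(R.ord f : ℝ))).comap (Algebra.linearMap (Ad v) F) :=
      S79.le_of o (fun a k => or_iff_not_imp_left.2 fun a0 => by
        have := Int.cast_le (R := ℝ).2 (ge a k a0)
        change 0 ≤ (R.ord (a : F) : ℝ) + -(R.ord f : ℝ)
        linarith) ha
    have k' : 0 ≤ (R.ord (a : F) : ℝ) + -(R.ord f : ℝ) := Or.resolve_left k a0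
    rw [e1]
    exact_mod_cast (by linarith : (R.ord f : ℝ) ≤ R.ord (a : F))
  · rw [kp, ← Int.cast_natCast (R.ord f).toNat, e1]
    rfl

/-- the log discrepancy of a Rees valuation -/
theorem rees_ld (A : Aff (n + 1) S) (N : IsIntegrallyClosed S) (hp : p.IsMaximal)
    {y : Fin (n + 1) → F} (hy : Frm y) {q : ℕ} (hq : 0 < q) {h : F} (h0 : h ≠ 0)
    (bd : ∀ R, PDat S p R → ld y q h R ≤ 1) : ∃ (R : Pl F) (e : ℕ), 0 < e ∧ Cen S p R ∧
      (∀ a ∈ p, (a : F) ≠ 0 → (e : ℤ) ≤ R.ord (a : F)) ∧ ld y q h R ≤ (n + 1 : ℕ) * e :=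
  let ⟨R, e, x, e0, c, g, xS, xi, k⟩ := rees A hp
  ⟨R, e, e0, c, g, (Wd.secb45 _ q F S p y x h hq A N hp.isPrime hy xS xi h0 bd R c).trans k.le⟩

end Vale.Agent.P283R.Cq
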