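import Vale.Agent.P283R.Cq.St
import Vale.Agent.P283R.Cq.Rees79
import Vale.Agent.P283R.Cq.Cz60
import Vale.Agent.P283R.Cx.All
import Vale.Agent.P283R.Bh.Hel

/-!
# P283R, block CQ: a Rees place over a point of the Cox space of the base
-/

open Set

noncomputable section

namespace Vale.Agent.P283R.Cq

open Vale.Agent.P287D Vale.Agent.P283M Vale.Agent.P297Z Cx Cy
open Vale.Agent.P283R.To (mon)

namespace G36

variable {L F : Type} [Field L] [Algebra ℂ L] [Field F] [Algebra ℂ F] [Algebra L F]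
  [IsScalarTower ℂ L F] {c k N : ℕ} {t : Fin k → F} {σ : Fin N → L} {a : Fin N → Fin k → ℤ}

/-- a point of the Cox space: on the sections of positive weight, off those of weight zero -/
theorem pt (ht : AlgebraicIndependent L t) (fg : (Rg σ a t).FG) (w : L → (Fin k → ℤ) → ℝ)
    (wm : ∀ φ ψ e e', φ ≠ 0 → ψ ≠ 0 → w (φ * ψ) (e + e') = w φ e + w ψ e')
    (wa : ∀ φ ψ e, φ ≠ 0 → ψ ≠ 0 → φ + ψ ≠ 0 → 0 < w φ e → 0 < w ψ e → 0 < w (φ + ψ) e)
    (wc : ∀ r : ℂ, w (algebraMap ℂ L r) 0 = 0) (wσ : ∀ j, 0 ≤ w (σ j) (a j)) {ι : Type}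
    (E : Finset ι) (f : ι → Rg σ a t)
    (hf : ∀ i ∈ E, ∃ φ e, φ ≠ 0 ∧ (f i : F) = hm t φ e ∧ w φ e = 0) :
    ∃ m : Ideal (Rg σ a t), m.IsMaximal ∧ (∀ i ∈ E, f i ∉ m) ∧
      ∀ (z : Rg σ a t) φ e, (z : F) = hm t φ e → 0 < w φ e → z ∈ m := by
  classical
  have t0 := ht.ne_zero
  let p : F → Prop := fun z => ∃ ψ : (Fin k → ℤ) →₀ L, lv t ψ = z ∧ ∀ e, ψ e ≠ 0 → 0 < w (ψ e) e
  have p0 : p 0 := ⟨0, lv_zero t, fun _ h => (h rfl).elim⟩
  have pa : ∀ z z', p z → p z' → p (z + z') := by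
    rintro _ _ ⟨ψ, rfl, h⟩ ⟨ψ', rfl, h'⟩
    refine ⟨ψ + ψ', lv_add t _ _, fun e n => ?_⟩
    rw [Finsupp.add_apply] at n ⊢
    by_cases u : ψ e = 0
    · rw [u, zero_add] at n ⊢
      exact h' e n
    by_cases v : ψ' e = 0
    · rw [v, add_zero] at n ⊢
      exact h e n
    exact wa _ _ e u v n (h e u) (h' e v)
  have sh : ∀ φ δ z, 0 ≤ w φ δ → p z → p (hm t φ δ * z) := by
    rintro φ δ _ g ⟨ψ, rfl, h⟩
    obtain ⟨ψ', e1, e2⟩ := lv_shift t0 ψ φ δ
    refine ⟨ψ', e2.trans (mul_comm _ _), fun e n => ?_⟩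
    obtain ⟨x, rfl⟩ : ∃ x, e = x + δ := ⟨e - δ, (sub_add_cancel _ _).symm⟩
    rw [e1] at n ⊢
    rw [wm _ _ _ _ (left_ne_zero_of_mul n) (right_ne_zero_of_mul n)]
    exact add_pos_of_pos_of_nonneg (h x (left_ne_zero_of_mul n)) g
  have pm : ∀ b ∈ Rg σ a t, ∀ z, p z → p (b * z) := fun b hb => by
    induction hb using Algebra.adjoin_induction with
    | mem x hx => exact let ⟨j, e⟩ := hx; e ▸ fun z => sh _ _ z (wσ j)
    | algebraMap r =>
      intro z h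
      rw [IsScalarTower.algebraMap_apply ℂ L F, ← hm_deg0 t]
      exact sh _ _ z (wc r).ge h
    | add x y _ _ hx hy => exact fun z h => add_mul x y z ▸ pa _ _ (hx z h) (hy z h)
    | mul x y _ _ hx hy => exact fun z h => (mul_assoc x y z).symm ▸ hx _ (hy z h)
  let I : Ideal (Rg σ a t) :=
    { carrier := {z | p z}
      add_mem' := fun h h' => pa _ _ h h'
      zero_mem' := p0
      smul_mem' := fun b z h => pm b b.2 z h }
  let M : Submonoid (Rg σ a t) :=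
    { carrier := {z | ∃ φ e, φ ≠ 0 ∧ (z : F) = hm t φ e ∧ w φ e = 0}
      one_mem' := ⟨1, 0, one_ne_zero, (hm_one t).symm, map_one (algebraMap ℂ L) ▸ wc 1⟩
      mul_mem' := fun ⟨φ, e, h0, h1, h2⟩ ⟨ψ, e', k0, k1, k2⟩ =>
        ⟨φ * ψ, e + e', mul_ne_zero h0 k0, by rw [hm_mul t0, ← h1, ← k1]; rfl,
          by rw [wm _ _ _ _ h0 k0, h2, k2, add_zero]⟩ }
  have dj : ∀ z ∈ M, z ∉ I := by
    rintro z ⟨φ, e, h0, h1, h2⟩ ⟨ψ, k1, k2⟩
    have : ψ - Finsupp.single e φ = 0 := lv_inj ht (by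
      have := lv_add t (ψ - Finsupp.single e φ) (Finsupp.single e φ)
      rwa [sub_add_cancel, lv_single, k1, h1, eq_comm, add_eq_right] at this)
    rw [sub_eq_zero] at this
    have u := k2 e
    rw [this, Finsupp.single_eq_same] at u
    exact (u h0).ne' h2
  have : Algebra.FiniteType ℂ (Rg σ a t) := (Subalgebra.fg_iff_finiteType _).1 fg
  have : IsJacobsonRing (Rg σ a t) := isJacobsonRing_of_finiteType (A := ℂ)
  have n : ∏ i ∈ E, f i ∉ I.radical.jacobson := fun h => by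
    rw [IsJacobsonRing.out inferInstance I.radical_isRadical] at h
    exact let ⟨n, h⟩ := h; dj _ (pow_mem (prod_mem (S := M) hf) n) h
  rw [Ideal.jacobson, Ideal.mem_sInf] at n
  push Not at n
  obtain ⟨m, ⟨m1, m2⟩, m3⟩ := n
  refine ⟨m, m2, fun i hi h => m3 (m.mem_of_dvd (Finset.dvd_prod_of_mem f hi) h),
    fun z φ e h g => m1 (Ideal.le_radical ⟨Finsupp.single e φ, (lv_single t e φ).trans h.symm,
      fun x n => ?_⟩)⟩
  obtain rfl : x = e := by_contra fun u => n (Finsupp.single_eq_of_ne u)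
  rwa [Finsupp.single_eq_same]

variable {T : Set (Pl L)} {D : Pl L → Fin k → ℤ}

open Classical in
/-- the masses of the pages -/
theorem mass (t0 : ∀ i, t i ≠ 0) (x : Cox T D σ a) {l : Pl L → L} {g : Pl L → Fin k → ℤ}
    (l0 : ∀ p, l p ≠ 0)
    (hl : ∀ p ∈ T, ∀ p' ∈ T, p'.ord (l p) + g p ⬝ᵥ D p' = if p' = p then 1 else 0) {R : Pl F}
    (hR : ∀ z ∈ Rg σ a t, z ∈ R.ring) (m : Pl L → ℤ) (m0 : ∀ p ∉ T, m p = 0)
    (m1 : ∀ p ∈ T, m p = R.ord (hm t (l p) (g p))) {φ : L} (φ0 : φ ≠ 0) (δ : Fin k → ℤ) :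
    ∑ᶠ p, m p * (p.ord φ + δ ⬝ᵥ D p) = R.ord (hm t φ δ) := by
  have key : ∀ (J : Finset (Pl L)) (φ : L) (δ : Fin k → ℤ), (∀ p ∈ J, p ∈ T) → φ ≠ 0 →
      (∀ p ∈ T, p ∉ J → p.ord φ + δ ⬝ᵥ D p = 0) →
      ∑ p ∈ J, m p * (p.ord φ + δ ⬝ᵥ D p) = R.ord (hm t φ δ) := fun J => by
    induction J using Finset.induction_on with
    | empty =>
      intro φ δ _ φ0 h
      refine (Pl.ord_unit _ (hR _ (mem_Rg t0 ((x.sec δ φ φ0).2 fun p u => (h p u (by simp)).ge)))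
        (hm_inv t0 φ δ ▸ hR _ (mem_Rg t0 ((x.sec _ _ (inv_ne_zero φ0)).2 fun p u => ?_)))).symm
      have := h p u (by simp)
      rw [Pl.ord_inv, neg_dotProduct]
      omega
    | insert p J n ih =>
      intro φ δ hJ φ0 h
      obtain ⟨z, hz⟩ : ∃ z, z = p.ord φ + δ ⬝ᵥ D p := ⟨_, rfl⟩
      have pT := hJ p (Finset.mem_insert_self _ _)
      have z0 : l p ^ (-z) ≠ 0 := zpow_ne_zero _ (l0 p)
      have e : ∀ p' ∈ T, p'.ord (φ * l p ^ (-z)) + (δ + -z • g p) ⬝ᵥ D p' =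
          p'.ord φ + δ ⬝ᵥ D p' - z * if p' = p then 1 else 0 := fun p' u => by
        rw [← hl p pT p' u, Pl.ord_mul _ φ0 z0, Pl.ord_zpow, add_dotProduct, neg_smul,
          neg_dotProduct, smul_dotProduct, smul_eq_mul]
        ring
      have := ih (φ * l p ^ (-z)) (δ + -z • g p) (fun q u => hJ q (Finset.mem_insert_of_mem u))
        (mul_ne_zero φ0 z0) fun q u v => by
          rw [e q u]
          split_ifs with s
          · rw [s, ← hz, mul_one, sub_self]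
          · rw [h q u (by simp [s, v]), mul_zero, sub_zero]
      rw [Finset.sum_congr rfl (g := fun q => m q * (q.ord φ + δ ⬝ᵥ D q)) fun q u => by
        rw [e q (hJ q (Finset.mem_insert_of_mem u)), if_neg fun s : q = p => n (s ▸ u), mul_zero,
          sub_zero], hm_mul t0, Pl.ord_mul _ (hm_ne t0 φ0 _) (hm_ne t0 z0 _),
        ord_hm t0 R z0, map_zpow₀, Pl.ord_zpow] at this
      rw [Finset.sum_insert n, this, ← hz, m1 p pT, ord_hm t0 R (l0 p), add_mul, Finset.sum_mul]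
      have s : ∑ i, (-z • g p) i * R.ord (t i) = -∑ i, g p i * R.ord (t i) * z := by
        rw [← Finset.sum_neg_distrib]
        exact Finset.sum_congr rfl fun i _ => by simp only [Pi.smul_apply, smul_eq_mul]; ring
      rw [s]
      ring
  have f := x.fin φ δ
  rw [finsum_eq_sum_of_support_subset _ (s := f.toFinset) fun p u => by
    rw [Finite.coe_toFinset]
    exact ⟨by_contra fun v => left_ne_zero_of_mul u (m0 p v), right_ne_zero_of_mul u⟩]
  exact key _ φ δ (fun p u => (f.mem_toFinset.1 u).1) φ0 fun p u v =>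
    by_contra fun s => v (f.mem_toFinset.2 ⟨u, s⟩)

theorem rees' {d : ℕ} (hd : d ≠ 0) {S : Subalgebra ℂ F} {p : Ideal S} (A : Aff d S)
    (N : IsIntegrallyClosed S) (hp : p.IsMaximal) {y : Fin d → F} (hy : Frm y) {h : F}
    (h0 : h ≠ 0) (bd : ∀ R, PDat S p R → ld y 1 h R ≤ 1) : ∃ (R : Pl F) (e : ℕ), 0 < e ∧
      Cen S p R ∧ (∀ a ∈ p, (a : F) ≠ 0 → (e : ℤ) ≤ R.ord (a : F)) ∧ ld y 1 h R ≤ d * e := by
  obtain ⟨n, rfl⟩ := Nat.exists_eq_succ_of_ne_zero hd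
  exact rees_ld A N hp hy one_pos h0 bd

end G36

open G36

/-- **GP** -/
theorem gp36 : GP := by
  intro L K _ _ _ _ _ _ c _ b _ _ l Q x Em ok hx fE hE
  classical
  obtain ⟨F, _, _, _, _, t, X⟩ := Cx.ext L c b.k ok.ff
  have t0 := X.ind.ne_zero
  have A := Cx.aff L F c b.k b.s t X ok.fr _ _ _ _ _ ok.cox
  have kl : b.k ≤ l := (Bh.le_of_cox ok.cox).trans ok.bN
  by_cases z : c + b.k = 0
  · obtain rfl : c = 0 := by omega
    exact ⟨0, 1, one_pos, fun _ _ => rfl, fun _ _ => rfl, fun p => (Bm.no_pl ok.ff p).elim,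
      .inl ⟨fun _ _ => by simp, by simp⟩⟩
  have ls : ∀ p ∈ b.T, hm t (b.lam p) (b.dg p) ∈ Rg b.σ b.a t := fun p u =>
    mem_Rg t0 ((ok.cox.sec _ _ (ok.l0 p)).2 fun p' v => by
      rw [ok.lam p u p' v]
      split_ifs <;> omega)
  have := fE.fintype
  have i0 : ∀ {φ : L}, φ ≠ 0 → algebraMap L K φ ≠ 0 := fun h => (map_ne_zero _).2 h
  obtain ⟨m, mx, m1, m2⟩ := pt X.ind A.fg (fun φ e => (Q.ord (algebraMap L K φ) : ℝ) + pa e x)
    (fun φ ψ e e' u v => by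
      simp only [map_mul, Pl.ord_mul _ (i0 u) (i0 v), pa, Pi.add_apply, Int.cast_add, add_mul,
        Finset.sum_add_distrib]
      ring)
    (fun φ ψ e u v s h h' => by
      have := Pl.min_ord_le_add Q.toPlace (i0 u) (i0 v) (map_add (algebraMap L K) φ ψ ▸ i0 s)
      rw [← map_add, min_le_iff] at this
      rcases this with r | r
      · exact h.trans_le (add_le_add_left (Int.cast_le.2 r) _)
      · exact h'.trans_le (add_le_add_left (Int.cast_le.2 r) _))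
    (fun r => by
      rw [← IsScalarTower.algebraMap_apply, Pl.ord_const]
      simp [pa]) hx (ι := Em) Finset.univ
    (fun p => ⟨_, ls p (hE p p.2).1⟩) fun p _ => ⟨_, _, ok.l0 p, rfl, (hE p p.2).2⟩
  have h0 := ok.can.1
  have ed : ∀ R : Pl F, ld (zt b.s t) 1 (hm t b.h (b.e + 1)) R =
      lt b.s t R - R.ord (hm t b.h b.e) := fun R => by
    simp only [ld, lt, ord_hm t0 R h0, Pi.add_apply, Pi.one_apply, add_mul, one_mul,
      Finset.sum_add_distrib]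
    push_cast
    ring
  obtain ⟨R, e, e0, cn, ge, bd⟩ := rees' z A (Cx.nor L F c b.k b.s t X ok.fr _ _ _ _ _ ok.cox) mx
    (zt_frm X ok.fr) (hm_ne t0 h0 (b.e + 1)) fun R ⟨q, _, u⟩ => by
      rw [ed]
      rcases Cx.pdv L F c b.k b.s t X ok.fr _ _ _ _ _ ok.cox R ⟨q, u⟩ with ⟨E, v, g⟩ | g
      · rw [g.lt, g.ord _ _ h0, ok.can.2 E v]
        push_cast
        linarith
      · rw [Cx.kah L F c b.k b.s t X ok.fr _ _ _ _ _ ok.cox R ⟨q, u⟩ g, g _ _ h0]
        simp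
  have hR : ∀ z ∈ Rg b.σ b.a t, z ∈ R.ring := fun z u => (cn ⟨z, u⟩).1
  obtain ⟨μ, μ0, μ1⟩ : ∃ μ : Pl L → ℕ, (∀ p ∉ b.T, μ p = 0) ∧
      ∀ p ∈ b.T, (μ p : ℤ) = R.ord (hm t (b.lam p) (b.dg p)) :=
    ⟨fun p => if p ∈ b.T then (R.ord (hm t (b.lam p) (b.dg p))).toNat else 0, fun p u => if_neg u,
      fun p u => by
        simp only [if_pos u]
        exact Int.toNat_of_nonneg (Pl.ord_nonneg_of_mem _ (hR _ (ls p u)))⟩
  have ms := fun φ (u : φ ≠ 0) δ => mass t0 ok.cox ok.l0 ok.lam hR (fun p => μ p)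
    (fun p u => by simp only [μ0 p u, Nat.cast_zero]) μ1 u δ
  have s1 : ∀ φ : L, φ ≠ 0 → ∑ᶠ p, (μ p : ℤ) * p.ord φ = R.ord (algebraMap L F φ) :=
    fun φ u => by simpa only [zero_dotProduct, add_zero, hm_deg0] using ms φ u 0
  have s2 : R.ord (hm t b.h b.e) =
      R.ord (algebraMap L F b.h) + ∑ p ∈ b.S, μ p * (b.e ⬝ᵥ b.D p) := by
    have := ms 1 one_ne_zero b.e
    simp only [Pl.ord_one, zero_add] at this
    rw [finsum_eq_sum_of_support_subset _ (s := b.S) fun p u => by_contra fun v => by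
      by_cases r : p ∈ b.T
      · exact right_ne_zero_of_mul u (by rw [ok.sup p r v, dotProduct_zero])
      · exact left_ne_zero_of_mul u (by rw [μ0 p r, Nat.cast_zero])] at this
    rw [this, ord_hm t0 R h0, ord_hm t0 R one_ne_zero, map_one, Pl.ord_one, zero_add]
  have bd' : lt b.s t R - R.ord (algebraMap L F b.h) ≤
      (((c + l) * e : ℤ) + ∑ p ∈ b.S, μ p * (b.e ⬝ᵥ b.D p) : ℤ) := by
    rw [ed, s2] at bd
    have : ((c + b.k : ℕ) : ℝ) * e ≤ (c + l : ℕ) * e := by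
      exact_mod_cast Nat.mul_le_mul_right e (Nat.add_le_add_left kl c)
    push_cast at bd this ⊢
    linarith
  refine ⟨μ, e, e0, fun p u => ?_, μ0, fun p u v => ?_, ?_⟩
  · have := Gav.ord_zero (hR _ (ls p (hE p u).1))
      (mt (cn ⟨_, ls p (hE p u).1⟩).2.2 (m1 ⟨p, u⟩ (Finset.mem_univ _)))
    exact_mod_cast (μ1 p (hE p u).1).trans this
  · exact_mod_cast (ge _ (m2 ⟨_, ls p u⟩ _ _ rfl v) (hm_ne t0 (ok.l0 p) _)).trans (μ1 p u).ge
  rcases Cx.dwn L F c b.k b.s t X ok.fr R with ⟨u, v⟩ | ⟨P, u, v⟩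
  · refine .inl ⟨fun φ r => (s1 φ r).trans (Z60.of_trv u φ), ?_⟩
    rw [Z60.of_trv u, Int.cast_zero, sub_zero] at bd'
    exact_mod_cast v.trans bd'
  · have p0 := Int.toNat_of_nonneg u.e_pos.le
    refine .inr ⟨P, (R.ord (algebraMap L F P.t)).toNat, by have := u.e_pos; omega,
      fun φ r => by rw [s1 φ r, p0, u.ord], le_trans ?_ bd'⟩
    rw [← Int.cast_natCast, p0, u.ord b.h]
    push_cast
    linarith

/-- **GPR** -/
theorem gpr36 : GPR := fun _ => gp36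

end Vale.Agent.P283R.Cq
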