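import Vale.Agent.P283R.Cq.St
import Vale.Agent.P283R.Cq.Gta68
import Vale.Agent.P283R.Cx.Bas

/-!
# P283R, block CQ: the weights of Goldman and Tucker
-/

open Set

noncomputable section

namespace Vale.Agent.P283R.Cq

open Vale.Agent.P287D Vale.Agent.P297Z Vale.Agent.P283M Cx

theorem kt_fin85 {L K : Type} [Field L] [Algebra ℂ L] [Field K] [Algebra ℂ K] [Algebra L K]
    {c ρ : ℕ} {b : Ba L c} {y : Fin ρ → K} {T : Set (Pl K)} (F : Fm b y T) (I : Finset (Pl L)) :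
    (Kt y T I).Finite := by
  refine ((finite_iUnion fun j => F.fin (y j)).union (I.finite_toSet.biUnion
    fun p _ => F.fin (algebraMap L K p.t))).subset fun P ⟨a, n, e⟩ => ?_
  obtain z | ⟨p, -, z⟩ := F.pg P a
  · refine .inl (by_contra fun k => n fun φ u φ0 => ?_)
    simp only [mem_iUnion, mem_ofPred_eq, a, true_and, not_exists, not_not] at k
    simp [Cx.ord_hm F.ext.ind.ne_zero P φ0, z.ord, k]
  · exact .inr (mem_biUnion (by_contra fun k => e p k z : p ∈ I) ⟨a, z.e_pos.ne'⟩)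

/-- **GT** -/
theorem gt85 : GT := fun L K _ _ _ _ _ _ c ρ b y T l ψ κ I Q ok F O H => by
  classical
  have y0 := F.ext.ind.ne_zero
  have fin := kt_fin85 F I
  choose ch cT cA using fun p : {p // p ∈ b.T ∧ p ∉ I} => O.ex p p.2.1 p.2.2
  have oa : ∀ P ∈ T, ∀ p ∉ I, At P p → ∀ (φ : L) u, φ ≠ 0 → P.ord (hm y φ u) = p.ord φ :=
    fun P a p n e φ u φ0 => by
      have := (O.od.od P a p n e).1
      rw [mu] at this
      simp [Cx.ord_hm y0 P φ0, e.ord φ, this, fun j => O.y0 P a p n e j (y0 j)]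
  have oc : ∀ p (φ : L) u, φ ≠ 0 → (ch p).ord (hm y φ u) = p.1.ord φ :=
    fun p => oa _ (cT p) _ p.2.2 (cA p)
  have ol : ∀ p p' : {p // p ∈ b.T ∧ p ∉ I}, p'.1.ord (b.lam p) = if p'.1 = p.1 then 1 else 0 :=
    fun p p' => by
      rw [← ok.lam p p.2.1 p' p'.2.1, ok.sup p' p'.2.1 fun k => p'.2.2 (O.od.co k),
        dotProduct_zero, add_zero]
  obtain ⟨ξ, χ, a1, a2, a3, ⟨φ, u, φ0, rfl⟩, a5, a6, a7⟩ := G68.gtk
    (fun a => ∃ (φ : L) (u : Fin ρ → ℤ), φ ≠ 0 ∧ a = hm y φ u)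
    (fun _ ⟨_, u, h, e⟩ => e ▸ Cx.hm_ne y0 h u) ⟨1, 0, one_ne_zero, (Cx.hm_one y).symm⟩
    (fun _ _ ⟨φ, u, h, e⟩ ⟨φ', u', h', e'⟩ =>
      ⟨φ * φ', u + u', mul_ne_zero h h', by rw [e, e', Cx.hm_mul y0]⟩)
    (fun _ ⟨φ, u, h, e⟩ => ⟨φ⁻¹, -u, inv_ne_zero h, by rw [e, Cx.hm_inv y0]⟩) T fin.toFinset ch
    (fun p k => (fin.mem_toFinset.1 k).2.2 p p.2.2 (cA p))
    (fun P a => by
      by_cases z : Hz L y P
      · exact .inl fun _ ⟨φ, u, h, e⟩ => e ▸ z φ u h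
      by_cases k : ∀ p ∉ I, ¬ At P p
      · exact .inr (.inl (fin.mem_toFinset.2 ⟨a, z, k⟩))
      push Not at k
      obtain ⟨p, n, e⟩ := k
      obtain t | ⟨p', m, e'⟩ := F.pg P a
      · exact absurd t e.not_trv
      · exact .inr (.inr ⟨⟨p, e'.uniq e ▸ m, n⟩, fun _ ⟨φ, u, h, k⟩ => by
          rw [k, oc _ φ u h, oa P a p n e φ u h]⟩))
    (fun _ ⟨φ, u, h, e⟩ => ((ok.cox.fin φ 0).preimage Subtype.val_injective.injOn).subset
      fun p k => ⟨p.2.1, by simpa [e, oc p φ u h] using k⟩)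
    (fun p => hm y (b.lam p) 0) (fun p => ⟨_, 0, ok.l0 p, rfl⟩)
    (fun p => by rw [oc _ _ _ (ok.l0 p), ol, if_pos rfl])
    (fun p p' n => by rw [oc _ _ _ (ok.l0 p), ol, if_neg fun k => n (Subtype.ext k).symm])
    (fun p => by
      have sp := (ok.cox.sec (b.dg p) _ (ok.l0 p)).2 fun p' a => by
        rw [ok.lam p p.2.1 p' a]
        split_ifs <;> omega
      rw [Cx.hm_deg0]
      refine Submodule.span_le.2 (?_ : _ ⊆ ((Submodule.span ℂ _).comap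
        (IsScalarTower.toAlgHom ℂ L K).toLinearMap : Set L)) sp
      rintro _ ⟨τ, hτ, rfl⟩
      have t0 : ∏ j, b.σ j ^ τ j ≠ 0 :=
        Finset.prod_ne_zero_iff.2 fun j _ => pow_ne_zero _ (ok.cox.ne j)
      refine Submodule.subset_span ⟨⟨_, 0, t0, (Cx.hm_deg0 y _).symm⟩, fun p' => ?_, fun E a => ?_⟩
      · refine (congrArg _ (Cx.hm_deg0 y _).symm).trans ((oc p' _ 0 t0).trans ?_)
        rw [Pl.ord_prod _ _ fun j _ => pow_ne_zero _ (ok.cox.ne j)]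
        simp [Pl.ord_pow, fun j => O.s0 j p' p'.2.1 p'.2.2]
      · rw [fin.mem_toFinset] at a
        show _ ≤ E.ord (algebraMap L K _)
        obtain t | ⟨p', m, e⟩ := F.pg E a.1
        · rw [t.ord, t.ord]
        · have k1 := (ok.cox.sec (b.dg p) _ t0).1 (Submodule.subset_span ⟨τ, hτ, rfl⟩) p' m
          have k2 := ok.lam p p.2.1 p' m
          rw [if_neg fun k : p' = p.1 => a.2.2 p p.2.2 (k ▸ e)] at k2
          rw [e.ord (b.lam p), e.ord (∏ j, _)]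
          exact mul_le_mul_of_nonneg_left (by omega) e.e_pos.le) Q H
  refine ⟨{E | E ∈ Kt y T I ∧ ξ E = 0}, _, ξ, fin.subset fun _ h => h.1, fun _ h => h.1,
    Cx.hm_ne y0 φ0 u, a5, fun P h => (a7 P (fin.mem_toFinset.2 h.1)).1 h.2, a6,
    ⟨a1, fun P z => ?_, fun φ u h => a3 _ ⟨φ, u, h, rfl⟩⟩,
    fun P h => (a1 P).lt_of_ne' fun z => h.1.2 ⟨⟨h.1.1, h.2⟩, z⟩⟩
  obtain k | ⟨p, rfl⟩ := a2 P z
  · rw [fin.mem_toFinset] at k
    exact ⟨⟨k.1, fun h => z h.2⟩, k.2.1⟩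
  · refine ⟨⟨cT p, fun h => z h.2⟩, fun h => ?_⟩
    have := h _ 0 (ok.l0 p)
    rw [oc _ _ _ (ok.l0 p), ol, if_pos rfl] at this
    exact one_ne_zero this

end Vale.Agent.P283R.Cq
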