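import Vale.Agent.P283R.Cq.St

/-!
# P283R, block CQ: the row IND
-/

open Set

noncomputable section

namespace Vale.Agent.P283R.Cq

open Vale.Agent.P287D Vale.Agent.P283M Cx Cy Vale.Agent.P297Z
open Vale.Agent.P283R.To (mon)

namespace I88

variable {L K : Type} [Field L] [Field K] [Algebra L K] {r ρ : ℕ} {y : Fin r → K} {u : Fin ρ → K}

/-- the components of a polynomial in `y` -/
theorem cmp {a : K} (ha : a ∈ Algebra.adjoin L (range y)) :
    ∃ ψ : (Fin (r + ρ) → ℤ) →₀ L, a = lv (Fin.append y u) ψ ∧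
      ∀ w, ψ w ≠ 0 → ∀ i, w (Fin.natAdd r i) = 0 := by
  classical
  rw [Algebra.adjoin_range_eq_range_aeval] at ha
  obtain ⟨g, rfl⟩ := ha
  change ∃ ψ : _ →₀ L, MvPolynomial.aeval y g = _ ∧ _
  induction g using MvPolynomial.induction_on' with
  | monomial n t =>
    refine ⟨Finsupp.single (Fin.append (fun i => (n i : ℤ)) 0) t, ?_, fun w hw i => ?_⟩
    · rw [lv, Finsupp.sum_single_index (by simp [hm]), MvPolynomial.aeval_monomial, hm,
        Finsupp.prod_fintype _ _ fun _ => pow_zero _]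
      simp [mon, Fin.prod_univ_add]
    · by_cases e : Fin.append (fun i => (n i : ℤ)) 0 = w
      · subst e
        simp
      · exact absurd (Finsupp.single_eq_of_ne (Ne.symm e)) hw
  | add g g' hx hz =>
    obtain ⟨G, a1, a2⟩ := hx
    obtain ⟨G', b1, b2⟩ := hz
    refine ⟨G + G', ?_, fun w hw => ?_⟩
    · rw [map_add, a1, b1]
      exact (Finsupp.sum_add_index' (fun _ => by simp [hm]) fun _ _ _ => by
        simp [hm, add_mul]).symm
    · by_cases e : G w = 0
      · exact b2 w fun e' => hw (by rw [Finsupp.add_apply, e, e', add_zero])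
      · exact a2 w e

end I88

theorem ind88 : IND := by
  intro L K _ _ _ _ _ _ c r ρ b y u T J κ fm od un p hp
  have t0 : ∀ j, Fin.append y u j ≠ 0 := fm.ext.ind.ne_zero
  have y0 : ∀ j, y j ≠ 0 := fun j => by
    have := t0 (Fin.castAdd ρ j)
    rwa [Fin.append_left] at this
  have one : ∀ (w : Fin (r + ρ) → ℤ) (φ : L), φ ≠ 0 → (∀ i, w (Fin.natAdd r i) = 0) →
      ∀ P ∈ T, At P p → P.ord (hm (Fin.append y u) φ w) = p.ord φ := by
    intro w φ a0 hw P hP hA
    have m : P.ord (algebraMap L K p.t) = 1 := (od.od P hP p hp hA).1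
    rw [hm, mon, Pl.ord_mul _ ((map_ne_zero _).2 a0)
      (Finset.prod_ne_zero_iff.2 fun j _ => zpow_ne_zero _ (t0 j)), hA.ord, m,
      P.ord_prod _ fun j _ => zpow_ne_zero _ (t0 j), Fin.sum_univ_add]
    simp [hw, Pl.ord_zpow, un P hP p hp hA _ (y0 _)]
  have nz : ∀ P : Pl K, At P p → ¬ Hz L (Fin.append y u) P := fun P hA h => by
    have e := h p.t 0 p.t_ne
    have := hA.e_pos
    simp only [hm, mon, Pi.zero_apply, zpow_zero, Finset.prod_const_one, mul_one] at e
    omega
  have le : ∀ a ∈ Algebra.adjoin L (range y), a ≠ 0 → ∀ P ∈ T, ∀ P' ∈ T,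
      At P p → At P' p → P.ord a ≤ P'.ord a := by
    intro a ha a0 P hP P' hP' hA hA'
    obtain ⟨G, rfl, g2⟩ := I88.cmp (u := u) ha
    by_contra k
    have : lv (Fin.append y u) G ∈ P'.sub (-(P'.ord (lv (Fin.append y u) G) : ℝ) - 1) :=
      sum_mem fun w hw => .inr (by
        have w0 := Finsupp.mem_support_iff.1 hw
        have h1 := fm.inv P hP (nz P hA) G w hw
        rw [one w _ w0 (g2 w w0) P hP hA, ← one w _ w0 (g2 w w0) P' hP' hA'] at h1
        have : ((P'.ord (lv (Fin.append y u) G) + 1 : ℤ) : ℝ) ≤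
          P'.ord (hm (Fin.append y u) (G w) w) := Int.cast_le.2 (by omega)
        push_cast at this
        linarith)
    linarith [this.resolve_left a0]
  rintro P hP P' hP' hA hA' ⟨z, hz⟩ z0
  obtain ⟨a, ha, b, hb, rfl⟩ := IntermediateField.mem_adjoin_iff_div.1 hz
  have n0 : a / b ≠ 0 := fun e => z0 (Subtype.ext e)
  have a0 : a ≠ 0 := fun e => n0 (by rw [e, zero_div])
  have b0 : b ≠ 0 := fun e => n0 (by rw [e, div_zero])
  change P.ord (a / b) = P'.ord (a / b)
  rw [Pl.ord_div _ a0 b0, Pl.ord_div _ a0 b0,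
    le_antisymm (le a ha a0 P hP P' hP' hA hA') (le a ha a0 P' hP' P hP hA' hA),
    le_antisymm (le b hb b0 P hP P' hP' hA hA') (le b hb b0 P' hP' P hP hA' hA)]

end Vale.Agent.P283R.Cq
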