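import Vale.Agent.P283R.Wc.W1r39
import Vale.Agent.P283R.Pq.Mis29

/-!
# P283R, block CQ: only finitely many prime divisors of the orbit space are missed
-/

open Set AlgebraicGeometry

noncomputable section

namespace Vale.Agent.P283R.Cq.M39

open Vale.Agent.P287D Vale.Agent.P283M Vale.Agent.P297Z Cx
open Wc (Dr)

variable {L K : Type} [Field L] [Algebra ℂ L] [Field K] [Algebra ℂ K] {k N : ℕ} {T : Set (Pl L)}
  {e : Fin k → Pl L} {σ : Fin N → L} {α : Fin N → Fin k → ℤ} {lam : Pl L → L}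

theorem sp_le (δ : Fin k → ℤ) {a : L} (h : a ∈ Sp σ α δ) : a ∈ Algebra.adjoin ℂ (range σ) :=
  (Submodule.span_le (p := (Algebra.adjoin ℂ (range σ)).toSubmodule)).2 (by
    rintro _ ⟨c, -, rfl⟩
    exact (Algebra.adjoin ℂ (range σ)).prod_mem fun j _ =>
      pow_mem (Algebra.subset_adjoin (mem_range_self j)) _) h

/-- the functions which are regular outside of the divisors -/
theorem mem_iff (cx : Cox T (Dr e) σ α) {a : L} (a0 : a ≠ 0) :
    a ∈ Algebra.adjoin ℂ (range σ) ↔ ∀ p ∈ T, p ∉ range e → 0 ≤ p.ord a := by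
  classical
  refine ⟨fun h p hp n => Pl.ord_nonneg_of_mem p.toPlace ((Algebra.adjoin_le
    (S := { p.ring.toSubring with algebraMap_mem' := p.con }) ?_) h), fun h => ?_⟩
  · rintro _ ⟨j, rfl⟩
    have := (cx.sec (dg α (Pi.single j 1)) _ (cx.ne j)).1 (by
      simpa [Pi.single_apply, pow_ite] using mon_mem σ α (Pi.single j 1)) p hp
    rw [Wc.W39.dr_0 n, add_zero] at this
    exact (Pl.ord_nonneg_iff p.toPlace (cx.ne j)).1 this
  refine sp_le (fun i => |(e i).ord a|) ((cx.sec _ _ a0).2 fun p hp => ?_)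
  by_cases n : p ∈ range e
  · obtain ⟨i, rfl⟩ := n
    have := Finset.single_le_sum (f := fun j => |(e j).ord a| * Dr e (e i) j)
      (fun j _ => mul_nonneg (abs_nonneg _) (by rw [Dr]; split_ifs <;> simp)) (Finset.mem_univ i)
    rw [show Dr e (e i) i = 1 from if_pos rfl, mul_one] at this
    have b := neg_abs_le ((e i).ord a)
    rw [dotProduct]
    omega
  · rw [Wc.W39.dr_0 n, add_zero]
    exact h p hp n

/-- a finitely generated algebra contains the inverses of only finitely many equations -/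
theorem units (cx : Cox T (Dr e) σ α) (i : L →ₐ[ℂ] K) (S : Finset K)
    (hl : ∀ p ∈ T, lam p ≠ 0 ∧ ∀ p' ∈ T, p' ∉ range e →
      p'.ord (lam p) = open Classical in if p' = p then 1 else 0) :
    {p | p ∈ T ∧ (i (lam p))⁻¹ ∈ Algebra.adjoin ℂ (S : Set K)}.Finite := by
  classical
  let R : Subalgebra ℂ L := Algebra.adjoin ℂ (range σ)
  let B : Subalgebra ℂ K := Algebra.adjoin ℂ ((S ∪ Finset.univ.image (i ∘ σ) : Finset K) : Set K)
  have le : Algebra.adjoin ℂ (S : Set K) ≤ B := Algebra.adjoin_mono (by simp)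
  have mp : ∀ a : R, i a ∈ B := fun a =>
    (Algebra.adjoin_le (S := B.comap i) (by
      rintro _ ⟨j, rfl⟩
      exact Algebra.subset_adjoin (by simp))) a.2
  let φ : R →ₐ[ℂ] B := (i.comp R.val).codRestrict B mp
  have inj : Function.Injective φ := fun a b h =>
    Subtype.ext (i.injective (congrArg Subtype.val h))
  have : Algebra.FiniteType ℂ B := (Subalgebra.fg_iff_finiteType B).1 ⟨_, rfl⟩
  have : Algebra.FiniteType ℂ R := (Subalgebra.fg_iff_finiteType R).1
    ⟨Finset.univ.image σ, by simp [R]⟩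
  have : IsNoetherianRing R := Algebra.FiniteType.isNoetherianRing ℂ R
  obtain ⟨h, h0, hh⟩ := Pq.M29.gen (φ := φ.toRingHom) (RingHom.FiniteType.of_comp_finiteType
    (f := algebraMap ℂ _) (by
      rw [show φ.toRingHom.comp (algebraMap ℂ _) = algebraMap ℂ B from φ.comp_algebraMap]
      exact RingHom.finiteType_algebraMap.2 ‹_›)) inj
  refine ((cx.fin h 0).union (finite_range e)).subset fun p ⟨hp, b⟩ => or_iff_not_imp_right.2
    fun n => ⟨hp, ?_⟩
  obtain ⟨l0, l1⟩ := hl p hp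
  have nn : ∀ a : R, 0 ≤ p.ord a := fun a => by
    rcases eq_or_ne (a : L) 0 with z | z
    · simp [z]
    · exact (mem_iff cx z).1 a.2 p hp n
  let l : R := ⟨lam p, (mem_iff cx l0).2 fun p' a b => by rw [l1 p' a b]; split_ifs <;> simp⟩
  have dv : ∀ a : R, a ≠ 0 → (l ∣ a ↔ 0 < p.ord a) := fun a a0 => by
    have a0' : (a : L) ≠ 0 := fun z => a0 (Subtype.ext z)
    refine ⟨fun ⟨c, hc⟩ => ?_, fun z => ⟨⟨a / lam p, (mem_iff cx (div_ne_zero a0' l0)).2
      fun p' x y => ?_⟩, Subtype.ext (mul_div_cancel₀ _ l0).symm⟩⟩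
    · have c0 : (c : L) ≠ 0 := fun z => a0 (by rw [hc, show c = 0 from Subtype.ext z, mul_zero])
      have := nn c
      rw [hc, Subalgebra.coe_mul, Pl.ord_mul _ l0 c0, l1 p hp n, if_pos rfl]
      omega
    · have := (mem_iff cx a0').1 a.2 p' x y
      rw [div_eq_mul_inv, Pl.ord_mul _ a0' (inv_ne_zero l0), Pl.ord_inv, l1 p' x y]
      split_ifs with w
      · subst w
        omega
      · simpa using this
  have l0' : l ≠ 0 := fun z => l0 (congrArg Subtype.val z)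
  have pr : Prime l := ⟨l0', fun u => by simpa using (dv 1 one_ne_zero).1 u.dvd, fun a b z => by
    by_cases a0 : a = 0
    · exact .inl (a0 ▸ dvd_zero l)
    by_cases b0 : b = 0
    · exact .inr (b0 ▸ dvd_zero l)
    rw [dv _ (mul_ne_zero a0 b0), Subalgebra.coe_mul, Pl.ord_mul _ (fun z => a0 (Subtype.ext z))
      fun z => b0 (Subtype.ext z)] at z
    rw [dv a a0, dv b b0]
    have := nn a
    have := nn b
    omega⟩
  rw [zero_dotProduct, add_zero]
  exact ((dv h h0).1 (hh l pr (IsUnit.of_mul_eq_one ⟨_, le b⟩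
    (Subtype.ext (mul_inv_cancel₀ ((map_ne_zero i).2 l0)))))).ne'

open Vale.Agent.P283M.Stm Vale.Agent.P283M.Stm.Var Vale.Agent.P283M.Br Vale.Agent.P283R.Gl
open Vale.Agent.P289 (Pt)

/-- **MIS** -/
theorem mis {X : Var} (i : L →ₐ[ℂ] X.K) {W : X.X.Opens} {x : Pt X.X} (hx : x ∈ W)
    (cx : Cox T (Dr e) σ α)
    (hl : ∀ p ∈ T, lam p ≠ 0 ∧ ∀ p' ∈ T, p' ∉ range e →
      p'.ord (lam p) = open Classical in if p' = p then 1 else 0)
    (ov : ∀ E : X.PrimeDiv, E.1 ∈ W → ∃ μ : ℤ, 0 ≤ μ ∧ (μ = 0 ∧ (∀ a, (pq E).ord (i a) = 0) ∨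
      ∃ F ∈ T, ∀ a, (pq E).ord (i a) = μ * F.ord a)) :
    {p | p ∈ T ∧ ¬ ∃ E : X.PrimeDiv, E.1 ∈ W ∧ ∃ μ : ℤ, 0 < μ ∧
      ∀ a, (pq E).ord (i a) = μ * p.ord a}.Finite := by
  classical
  let S : Set X.PrimeDiv := ⋃ j, {E | ord (i (e j).t) E ≠ 0}
  have fS : S.Finite := finite_iUnion fun j => fin X _
  let O : X.X.Opens := ⟨⋂ E ∈ S, (closure {(E.1 : X.X)})ᶜ,
    fS.isOpen_biInter fun _ _ => isClosed_closure.isOpen_compl⟩
  have g : genericPoint X.X ∈ W ⊓ O :=
    ⟨(genericPoint_specializes (x : X.X)).mem_open W.isOpen hx, mem_iInter₂.2 fun E _ c => by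
      have a : (E.1 : X.X) = genericPoint X.X :=
        ((specializes_iff_mem_closure.2 c).antisymm (genericPoint_specializes _)).eq
      have b : Order.coheight (E.1 : X.X) = 1 := E.2
      rw [a, Order.coheight_eq_zero.2 fun y _ => genericPoint_specializes y] at b
      exact zero_ne_one b⟩
  obtain ⟨U, hU, xU, le⟩ := exists_isAffineOpen_mem_and_subset (X := X.X) g
  obtain ⟨A, -, hA⟩ := Am.Str.fg (Am.str X) hU xU
  refine (units cx i A hl).subset fun p ⟨hp, n⟩ =>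
    ⟨hp, hA _ (Am.mem_reg.2 fun x' hx' => har X _ x' fun E hE => ?_)⟩
  obtain ⟨m, o⟩ := le (hE.mem_open U.isOpen hx')
  rw [pq_ord, (pq E).ord_inv, neg_nonneg]
  obtain ⟨μ, μ0, ⟨-, z⟩ | ⟨F, hF, z⟩⟩ := ov E m
  · exact (z _).le
  rcases μ0.eq_or_lt with rfl | μ0
  · rw [z, zero_mul]
  have b : F ∉ range e := by
    rintro ⟨j, rfl⟩
    exact mem_iInter₂.1 o E (mem_iUnion.2 ⟨j, by
      rw [mem_ofPred, pq_ord, z, Pl.ord_t, mul_one]; exact μ0.ne'⟩) (subset_closure rfl)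
  rw [z, (hl p hp).2 F hF b, if_neg fun c : F = p => n ⟨E, m, μ, μ0, c ▸ z⟩, mul_zero]

end Vale.Agent.P283R.Cq.M39
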