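import Vale.Agent.P283R.Cq.St
import Vale.Agent.P283R.Cq.Mis39
import Vale.Agent.P283R.Tb.Misr29
import Vale.Agent.P283R.Tp.Hrt

/-!
# P283R, block CQ: only finitely many pages are empty
-/

open Set AlgebraicGeometry

noncomputable section

namespace Vale.Agent.P283R.Cq

open Vale.Agent.P287D Vale.Agent.P283M Vale.Agent.P297Z Cx

namespace M29

/-- the primes which miss one element lift to a domain of finite type -/
theorem gen {R B : Type} [CommRing R] [CommRing B] [IsDomain B] [IsNoetherianRing R]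
    {φ : R →+* B} (ft : φ.FiniteType) (inj : Function.Injective φ) :
    ∃ h : R, h ≠ 0 ∧ ∀ p : Ideal R, p.IsPrime → h ∉ p → ∃ q : Ideal B, ∀ a, φ a ∈ q ↔ a ∈ p := by
  obtain ⟨S, hS⟩ := PrimeSpectrum.exists_constructibleSetData_iff.2
    (PrimeSpectrum.isConstructible_range_comap (RingHom.FinitePresentation.of_finiteType.1 ft))
  have m := mem_range_self (f := PrimeSpectrum.comap φ) ⟨⊥, Ideal.isPrime_bot⟩
  rw [← hS] at m
  obtain ⟨C, hC, m1, m2⟩ := mem_iUnion₂.1 m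
  refine ⟨C.f, fun a => m2 (by rw [a]; simp), fun p hp c => ?_⟩
  have k : (⟨p, hp⟩ : PrimeSpectrum R) ∈ S.toSet := mem_iUnion₂.2 ⟨C, hC, fun a ha => by
    rw [show a = 0 from inj ((show φ a = 0 from m1 ha).trans (map_zero φ).symm)]
    exact zero_mem _, fun a => c (a rfl)⟩
  rw [hS] at k
  obtain ⟨q, hq⟩ := k
  exact ⟨q.asIdeal, fun a => (congrArg PrimeSpectrum.asIdeal hq ▸ Iff.rfl :
    a ∈ (PrimeSpectrum.comap φ q).asIdeal ↔ a ∈ p)⟩

variable {L K : Type} [Field L] [Algebra ℂ L] [Field K] [Algebra ℂ K] {c l : ℕ} {b : Ba L c}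
  {p : Pl L}

theorem cen (R : Subalgebra ℂ L) (h : ∀ a ∈ R, a ∈ p.ring) :
    ∃ q : Ideal R, q.IsPrime ∧ ∀ a, a ∈ q ↔ (a : L) = 0 ∨ 0 < p.ord a :=
  have cn : Cen R (RingHom.ker (Bm.rdh p R h)) p := fun a => ⟨h _ a.2, Iff.rfl⟩
  ⟨_, Hr.cen_prime cn, Hr.cen_iff cn⟩

theorem l1 (ok : b.Ok l) (hp : p ∈ b.T) (n : p ∉ b.S) : p.ord (b.lam p) = 1 := by
  simpa [ok.sup p hp n] using ok.lam p hp p hp

theorem lm (ok : b.Ok l) (hp : p ∈ b.T) : b.lam p ∈ Algebra.adjoin ℂ (range b.σ) :=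
  M39.sp_le (b.dg p) ((ok.cox.sec _ _ (ok.l0 p)).2 fun P h => by
    rw [ok.lam p hp P h]; split_ifs <;> simp)

theorem rg (ok : b.Ok l) (hp : p ∈ b.T) (n : p ∉ b.S) :
    ∀ a ∈ Algebra.adjoin ℂ (range b.σ), a ∈ p.ring := fun _ h =>
  (Algebra.adjoin_le (S := { p.ring.toSubring with algebraMap_mem' := p.con }) (by
    rintro _ ⟨j, rfl⟩
    have := (ok.cox.sec (dg b.a (Pi.single j 1)) _ (ok.cox.ne j)).1 (by
      simpa [Pi.single_apply, pow_ite] using mon_mem b.σ b.a (Pi.single j 1)) p hp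
    rw [ok.sup p hp n, dotProduct_zero, add_zero] at this
    exact (Pl.ord_nonneg_iff p.toPlace (ok.cox.ne j)).1 this)) h

theorem units (ok : b.Ok l) (i : L →ₐ[ℂ] K) (S : Finset K) :
    {p | p ∈ b.T ∧ (p ∉ b.S → ∃ a ∈ Algebra.adjoin ℂ (range b.σ), a ≠ 0 ∧ p.ord a = 0 ∧
      i a / i (b.lam p) ∈ Algebra.adjoin ℂ (S : Set K))}.Finite := by
  classical
  let R : Subalgebra ℂ L := Algebra.adjoin ℂ (range b.σ)
  let B : Subalgebra ℂ K := Algebra.adjoin ℂ ((S ∪ Finset.univ.image (i ∘ b.σ) : Finset K) : Set K)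
  have le : Algebra.adjoin ℂ (S : Set K) ≤ B := Algebra.adjoin_mono (by simp)
  have mp : ∀ a : R, i a ∈ B := fun a =>
    (Algebra.adjoin_le (S := B.comap i) (by
      rintro _ ⟨j, rfl⟩
      exact Algebra.subset_adjoin (by simp))) a.2
  let φ : R →ₐ[ℂ] B := (i.comp R.val).codRestrict B mp
  have inj : Function.Injective φ := fun a b h =>
    Subtype.ext (i.injective (congrArg Subtype.val h))
  have : Algebra.FiniteType ℂ B := (Subalgebra.fg_iff_finiteType B).1 ⟨_, rfl⟩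
  have : Algebra.FiniteType ℂ R := (Subalgebra.fg_iff_finiteType R).1
    ⟨Finset.univ.image b.σ, by simp [R]⟩
  have : IsNoetherianRing R := Algebra.FiniteType.isNoetherianRing ℂ R
  obtain ⟨h, h0, hh⟩ := gen (φ := φ.toRingHom) (RingHom.FiniteType.of_comp_finiteType
    (f := algebraMap ℂ _) (by
      rw [show φ.toRingHom.comp (algebraMap ℂ _) = algebraMap ℂ B from φ.comp_algebraMap]
      exact RingHom.finiteType_algebraMap.2 ‹_›)) inj
  refine ((ok.cox.fin h 0).union b.S.finite_toSet).subset fun p ⟨hp, u⟩ =>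
    or_iff_not_imp_right.2 fun n => ⟨hp, fun z => ?_⟩
  obtain ⟨a, aR, a0, a1, a2⟩ := u n
  rw [zero_dotProduct, add_zero] at z
  obtain ⟨r, r1, r2⟩ := cen R (rg ok hp n)
  obtain ⟨q, hq⟩ := hh r r1 fun w => ((r2 h).1 w).elim (fun e => h0 (Subtype.ext e)) z.not_gt
  have m := q.mul_mem_left ⟨_, le a2⟩ ((hq ⟨_, lm ok hp⟩).2 ((r2 _).2 (.inr
    (lt_of_lt_of_eq one_pos (l1 ok hp n).symm))))
  have e : (⟨_, le a2⟩ : B) * φ.toRingHom ⟨_, lm ok hp⟩ = φ.toRingHom ⟨a, aR⟩ :=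
    Subtype.ext (div_mul_cancel₀ (i a) ((map_ne_zero i).2 (ok.l0 p)))
  rw [e] at m
  exact ((r2 ⟨a, aR⟩).1 ((hq _).1 m)).elim a0 a1.not_gt

theorem lies (ok : b.Ok l) (hp : p ∈ b.T) (n : p ∉ b.S) (i : L →+* K) {P : Pl K}
    (m : 0 < P.ord (i (b.lam p)))
    (h : ∀ a ∈ Algebra.adjoin ℂ (range b.σ), a ≠ 0 → p.ord a = 0 → P.ord (i a) = 0) :
    Lies i P p := by
  have l0 := ok.l0 p
  have k : ∀ e, ∀ a ∈ Sp b.σ b.a e, a ≠ 0 → P.ord (i a) = p.ord a * P.ord (i (b.lam p)) :=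
    fun e a ha a0 => by
      have z : b.lam p ^ p.ord a ≠ 0 := zpow_ne_zero _ l0
      have := h (a / b.lam p ^ p.ord a) (M39.sp_le (e - p.ord a • b.dg p)
        ((ok.cox.sec _ _ (div_ne_zero a0 z)).2 fun Q hQ => by
          have u := (ok.cox.sec _ _ a0).1 ha Q hQ
          have v := ok.lam p hp Q hQ
          rw [Pl.ord_div _ a0 z, Pl.ord_zpow, sub_dotProduct, smul_dotProduct, smul_eq_mul]
          split_ifs at v with w
          · subst w
            rw [ok.sup _ hp n, l1 ok hp n]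
            simp
          · rw [eq_neg_of_add_eq_zero_left v]
            linarith)) (div_ne_zero a0 z) (by
        rw [Pl.ord_div _ a0 z, Pl.ord_zpow, l1 ok hp n, mul_one, sub_self])
      rw [map_div₀, map_zpow₀, Pl.ord_div _ ((map_ne_zero i).2 a0)
        (zpow_ne_zero _ ((map_ne_zero i).2 l0)), Pl.ord_zpow] at this
      exact sub_eq_zero.1 this
  intro f
  obtain ⟨e, x, hx, z, hz, z0, rfl⟩ := ok.cox.fr0 f
  by_cases x0 : x = 0
  · simp [x0]
  rw [← Pl.ord_nonneg_iff _ (div_ne_zero x0 z0),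
    ← Pl.ord_nonneg_iff _ ((map_ne_zero i).2 (div_ne_zero x0 z0)), map_div₀, Pl.ord_div _ x0 z0,
    Pl.ord_div _ ((map_ne_zero i).2 x0) ((map_ne_zero i).2 z0), k e x hx x0, k e z hz z0, ← sub_mul]
  exact (mul_nonneg_iff_of_pos_right m).symm

end M29

open Vale.Agent.P283M.Stm Vale.Agent.P283M.Stm.Var Vale.Agent.P283M.Br Vale.Agent.P283R.Gl M29

/-- **MIS** -/
theorem mis29 : MIS := fun X L _ _ _ _ c ρ W y x _ hx _ _ b l ok => by
  let i := IsScalarTower.toAlgHom ℂ L X.K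
  obtain ⟨U, hU, xU, a⟩ := Tb.off29 hx (finite_iUnion fun j => fin X (i (b.σ j)))
  obtain ⟨T, -, hT⟩ := Am.Str.fg (Am.str X) hU xU
  have nn : ∀ E : X.PrimeDiv, E.1 ∈ U → ∀ u ∈ Algebra.adjoin ℂ (range b.σ),
      0 ≤ (pq E).ord (i u) := fun E hE u hu => Pl.ord_nonneg_of_mem _
    ((Algebra.adjoin_le (S := Subalgebra.comap i
      { (pq E).ring.toSubring with algebraMap_mem' := (pq E).con }) (by
      rintro _ ⟨j, rfl⟩
      refine (Pl.ord_nonneg_iff (pq E).toPlace ((map_ne_zero i).2 (ok.cox.ne j))).1 ?_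
      rw [← pq_ord]
      exact (by_contra fun z => (a E hE).2 (mem_iUnion.2 ⟨j, z⟩) : ord (i (b.σ j)) E = 0).ge)) hu)
  refine (units ok i T).subset fun p ⟨hp, n⟩ => ⟨hp, fun s => ?_⟩
  have l0 := (map_ne_zero i).2 (ok.l0 p)
  have k : ∀ F : Set X.PrimeDiv, F.Finite → ∃ u ∈ Algebra.adjoin ℂ (range b.σ), u ≠ 0 ∧
      p.ord u = 0 ∧ ∀ E ∈ F, E.1 ∈ U → (pq E).ord (i (b.lam p)) ≤ (pq E).ord (i u) :=
    fun F hF => by
      induction F, hF using Set.Finite.induction_on with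
      | empty => exact ⟨1, one_mem _, one_ne_zero, Pl.ord_one _, fun _ h => h.elim⟩
      | @insert E F _ _ ih =>
        obtain ⟨u, u1, u0, u2, u3⟩ := ih
        by_cases w : E.1 ∈ U ∧ 0 < (pq E).ord (i (b.lam p))
        · obtain ⟨v, v1, v0, v2, v3⟩ : ∃ v ∈ Algebra.adjoin ℂ (range b.σ), v ≠ 0 ∧ p.ord v = 0 ∧
              (pq E).ord (i v) ≠ 0 := by_contra fun z => n ⟨_, ⟨E, (a E w.1).1, rfl⟩,
            lies ok hp s _ w.2 fun v v1 v0 v2 => by_contra fun v3 => z ⟨v, v1, v0, v2, v3⟩⟩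
          obtain ⟨m, hm⟩ := Int.eq_ofNat_of_zero_le w.2.le
          refine ⟨u * v ^ m, mul_mem u1 (pow_mem v1 _), mul_ne_zero u0 (pow_ne_zero _ v0), by
            rw [Pl.ord_mul _ u0 (pow_ne_zero _ v0), Pl.ord_pow, u2, v2]; simp, fun E' h h' => ?_⟩
          rw [map_mul, map_pow, Pl.ord_mul _ ((map_ne_zero i).2 u0)
            (pow_ne_zero _ ((map_ne_zero i).2 v0)), Pl.ord_pow]
          have c1 := nn E' h' u u1
          have c2 := nn E' h' v v1
          rcases h with rfl | h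
          · rw [hm]
            nlinarith [Int.natCast_nonneg m, lt_of_le_of_ne c2 v3.symm]
          · nlinarith [Int.natCast_nonneg m, u3 E' h h']
        · refine ⟨u, u1, u0, u2, fun E' h h' => ?_⟩
          rcases h with rfl | h
          · exact (not_lt.1 fun z => w ⟨h', z⟩).trans (nn _ h' u u1)
          · exact u3 E' h h'
  obtain ⟨u, u1, u0, u2, u3⟩ := k _ (fin X (i (b.lam p)))
  refine ⟨u, u1, u0, u2, hT _ (Am.mem_reg.2 fun x' hx' => har X _ x' fun E hE => ?_)⟩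
  have m := hE.mem_open U.isOpen hx'
  rw [pq_ord, Pl.ord_div _ ((map_ne_zero i).2 u0) l0, sub_nonneg]
  by_cases z : ord (i (b.lam p)) E = 0
  · rw [← pq_ord, z]
    exact nn E m u u1
  · exact u3 E z m

end Vale.Agent.P283R.Cq
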