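import Vale.Agent.P283R.Cq.St
import Vale.Agent.P283R.Wc.Mor18
import Vale.Agent.P283R.Cx.Lar

/-!
# P283R, block CQ: few kept primes
-/

open Set

noncomputable section

namespace Vale.Agent.P283R.Cq

open Vale.Agent.P287D Vale.Agent.P283M Cx Cy
open Vale.Agent.P283R.To (mon)
open Wd (Wv Ps Gm)
open Wc (Dr Sec Av Lk AVT BKS OVQ RPR MNU)

namespace M18

variable {L K : Type} [Field L] [Field K] [Algebra L K] {r ρ : ℕ}

/-- the product of the small coordinates -/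
def eta (h : L) (y : Fin r → K) : Sm L y := algebraMap L (Sm L y) h * ∏ i, sm L y i

theorem eta_eq (h : L) (y : Fin r → K) (u : Fin ρ → K) :
    hm u (eta h y) 1 = algebraMap L K h * ∏ j, Fin.append y u j := by
  rw [Fin.prod_univ_add, hm, eta, map_mul, map_prod, mul_assoc]
  simp only [mon, sm, Fin.append_left, Fin.append_right, Pi.one_apply, zpow_one]
  rfl

end M18

open Wc.M18 M18 in
theorem mor18 : MOR := by
  intro czz car twr gen pdx w1 w2 mnu B q ε q0 e0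
  obtain ⟨W, m, W1, m2, H⟩ := mnu (6 * B + 2) q ε q0 e0
  refine ⟨W, m, m2, fun L K _ _ _ _ _ _ c r ρ b y u T l ψ κ Q ξ I J f b0 b1 b2 sc ef b3 => ?_⟩
  have fm := sc.pk.fm
  have ok := sc.pk.ok
  have : IsScalarTower ℂ L (Sm L y) := .of_algebraMap_eq fun x => Subtype.ext
    (IsScalarTower.algebraMap_apply ℂ L K x)
  have : IsScalarTower ℂ (Sm L y) K := .of_algebraMap_eq fun x => rfl
  obtain ⟨e, ei, er⟩ := enum (car L K c _ b _ T J fm).1
  obtain ⟨x0, x1, kz, cmp⟩ := twr L K c r ρ b y u T fm.ext ok.fr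
  obtain ⟨γ, g1, -, -, g2⟩ := cmp ψ
  obtain ⟨E, s', a', eb, gn⟩ := gen L K c r ρ b y u T l J f _ e ok fm sc.od.co sc.y1 ef ei er
  obtain ⟨π, pd, wid⟩ := pdx L K c r ρ b y u T W I J _ e fm sc.wi
  have f1 := zt_frm x0 ok.fr
  have ke : ∀ i, e i ∈ Kt (Fin.append y u) T J := fun i => er ▸ mem_range_self i
  have y0 : ∀ j, Fin.append y u j ≠ 0 := fun j => fm.ext.ind.ne_zero j
  have a0 : algebraMap L K b.h ≠ 0 := (map_ne_zero _).2 ok.can.1
  have p0 : ∏ j, Fin.append y u j ≠ 0 := Finset.prod_ne_zero_iff.2 fun j _ => y0 j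
  have h0 : hm u (M18.eta b.h y) 1 ≠ 0 := by
    rw [M18.eta_eq]
    exact mul_ne_zero a0 p0
  have kq : ∀ P, kap (zt (zt b.s (sm L y)) u) P =
      cz b (Fin.append y u) P + P.ord (hm u (M18.eta b.h y) 1) := fun P => by
    have := (czz L K c _ b.s _ fm.ext ok.fr).1 P
    rw [kz, M18.eta_eq, P297Z.Pl.ord_mul _ a0 p0, To.ord_prod P y0, cz]
    push_cast
    rw [this, lt]
    ring
  have o1 : ∀ P : Pl K, P.ord 1 = 0 := fun P => by simp
  obtain ⟨N, l', σ, α, f', dx⟩ := sc.pk.av 1 _ ∅ _ e _ one_ne_zero h0 finite_empty ei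
    (fun i => ⟨(ke i).1, notMem_empty _⟩) (fun P p n => by
      rw [er] at n
      rw [o1, add_zero]
      by_cases t : Hz L (Fin.append y u) P
      · exact ⟨fm.kt P p.1 t, (sc.pk.reg P p.1 t).2⟩
      · by_contra z
        exact n ⟨p.1, t, fun p' a b => z (sc.od.od P p.1 p' a b).2⟩) (zt_frm x1 f1) kq
  rw [sdiff_empty, div_one, ← g1] at dx
  obtain ⟨n, n1, n2⟩ := H _ _ ρ E _ K N l' _ (zt b.s (sm L y)) u T _ σ α f' _ γ _ _ π s' a' Q
    (by omega) (by omega) (by omega) ⟨fun i => cz b (Fin.append y u) (e i), funext fun i => by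
      simp⟩ x1 ⟨f1, g2 sc.g0, dx, wid,
      w1 L K c r ρ b y u T W l q ε ψ κ Q ξ I J f _ N E e π σ α s' a' sc ei er pd dx.cox gn,
      w2 L K c r ρ b y u T W l q ε ψ κ Q ξ I J _ N e π σ α W1 sc ei er pd wid dx.cox⟩
  have z0 : ∏ j, s' j ^ n j ≠ 0 := Finset.prod_ne_zero_iff.2 fun j _ => pow_ne_zero _ (gn.ne j)
  have ez : ((∏ j, s' j ^ n j : Sm L y) : K) = ∏ j, (s' j : K) ^ n j := by push_cast; rfl
  have z1 : ∏ j, (s' j : K) ^ n j ≠ 0 := by
    rw [← ez]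
    exact fun a => z0 (Subtype.ext a)
  refine ⟨_, gn.mo n, fun P p => ?_, ?_⟩
  · obtain ⟨i, rfl⟩ : P ∈ range e := er.ge p
    have := (gn.sec _ _ z0).1 (Submodule.subset_span ⟨n, n1, rfl⟩) _ p.1
    rw [dot ei, ez] at this
    simp only [Pi.neg_apply, Pi.smul_apply, smul_eq_mul, o1, add_zero] at this
    omega
  · have g0 := sc.pk.g0
    have qm : (0 : ℝ) < (q * m : ℕ) := by
      have : 0 < q * m := Nat.mul_pos q0 (by omega)
      exact_mod_cast this
    have e1 : (hm u (M18.eta b.h y) 1 ^ q * lv u γ) ^ m *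
        ∏ j, algebraMap (Sm L y) K (s' j) ^ n j = hm u (M18.eta b.h y) 1 ^ (q * m) *
          (lv (Fin.append y u) ψ ^ m * ∏ j, (s' j : K) ^ n j) := by
      rw [g1, mul_pow, ← pow_mul, mul_assoc]
      rfl
    rw [ld, kq, e1, P297Z.Pl.ord_mul _ (pow_ne_zero _ h0)
      (mul_ne_zero (pow_ne_zero _ g0) z1), P297Z.Pl.ord_pow, sub_pos, div_lt_iff₀ qm] at n2
    have : ((Q.ord (lv (Fin.append y u) ψ ^ m * ∏ j, (s' j : K) ^ n j) : ℤ) : ℝ) <
        (q * m * (cz b (Fin.append y u) Q + 1) : ℤ) := by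
      push_cast at n2 ⊢
      linarith
    exact_mod_cast this

end Vale.Agent.P283R.Cq
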