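import Vale.Agent.P283R.Cq.St

/-!
# P283R, block CQ: division by a term (row NRM)
-/

open Set

noncomputable section

namespace Vale.Agent.P283R.Cq

open Vale.Agent.P287D Vale.Agent.P297Z Cx
open Vale.Agent.P283R.To (mon)

/-- the components of a Laurent polynomial divided by a term -/
theorem N40.shift {L K : Type} [Field L] [Field K] [Algebra L K] {ρ : ℕ} {y : Fin ρ → K}
    (y0 : ∀ j, y j ≠ 0) (ψ : (Fin ρ → ℤ) →₀ L) {u : Fin ρ → ℤ} (a0 : ψ u ≠ 0) :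
    ∃ ψ' : (Fin ρ → ℤ) →₀ L, ψ' 0 ≠ 0 ∧ lv y ψ' = (hm y (ψ u) u)⁻¹ * lv y ψ := by
  refine ⟨Finsupp.equivMapDomain (Equiv.subRight u) ((ψ u)⁻¹ • ψ), ?_, ?_⟩
  · rw [Finsupp.equivMapDomain_apply, Equiv.subRight_symm_apply, zero_add, Finsupp.smul_apply,
      smul_eq_mul]
    exact mul_ne_zero (inv_ne_zero a0) a0
  · rw [lv, lv, Finsupp.sum_equivMapDomain,
      Finsupp.sum_smul_index' (h := fun e φ => hm y φ (Equiv.subRight u e))
        fun e => by rw [hm, map_zero, zero_mul],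
      Finsupp.mul_sum]
    refine Finsupp.sum_congr fun e _ => ?_
    have h : mon y e = mon y (e - u) * mon y u := by rw [← To.mon_add y0, sub_add_cancel]
    have m0 := To.mon_ne y0 u
    rw [smul_eq_mul, Equiv.subRight_apply, hm, hm, hm, map_mul, map_inv₀, h, mul_inv]
    field_simp

/-- **NRM** -/
theorem nrm40 : NRM := by
  intro L K _ _ _ _ _ _ c ρ b y T l d q ε ψ κ u pk b0
  have y0 : ∀ j, y j ≠ 0 := pk.fm.ext.ind.ne_zero
  obtain ⟨ψ', hψ, e⟩ := N40.shift y0 ψ b0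
  have a0 : hm y (ψ u) u ≠ 0 := mul_ne_zero ((map_ne_zero _).2 b0) (To.mon_ne y0 u)
  have t0 : ∀ P : Pl K, Hz L y P → P.ord (hm y (ψ u) u) = 0 := fun P t => t _ _ b0
  have r0 : ∀ Q ξ, Rep L y T Q ξ → ∑ᶠ P, ξ P * P.ord (hm y (ψ u) u) = Q.ord (hm y (ψ u) u) :=
    fun Q ξ r => r.eq _ _ b0
  generalize hm y (ψ u) u = w at e a0 t0 r0 ⊢
  generalize lv y ψ = g at e pk ⊢
  have g0 := pk.g0
  have eo : ∀ P : Pl K, P.ord (lv y ψ') = P.ord g - P.ord w := fun P => by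
    rw [e, Pl.ord_mul _ (inv_ne_zero a0) g0, Pl.ord_inv]
    ring
  have ed : ∀ a : K, lv y ψ' / a = g / (w * a) := fun a => by
    rw [e, div_mul_eq_div_div, div_eq_inv_mul g]
  have ea : ∀ (P : Pl K) (a : K), a ≠ 0 →
      κ P + P.ord w + P.ord a = κ P + P.ord (w * a) := fun P a h => by
    rw [Pl.ord_mul _ a0 h, add_assoc]
  refine ⟨ψ', hψ, ⟨pk.ok, pk.dim, pk.fm, e ▸ mul_ne_zero (inv_ne_zero a0) g0, fun P p t => ?_,
    (pk.fin.union (pk.fm.fin w)).subset fun P h => ?_, fun P p => ?_, fun Q ξ rp => ?_,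
    fun a h₀ X k r t ha h0 fX inj m z fr kp => ?_⟩, fun m z Q ⟨φ, φ0, h1, h2⟩ => ?_⟩
  · rw [eo, t0 P t, (pk.reg P p t).2, sub_zero]
    exact ⟨(pk.reg P p t).1, rfl⟩
  · by_contra v
    rw [mem_union, not_or] at v
    exact h.2 (by rw [not_not.1 fun x => v.1 ⟨h.1, x⟩, zero_add]
                  exact not_not.1 fun x => v.2 ⟨h.1, x⟩)
  · have := pk.eff P p
    rw [eo]
    omega
  · have a := pk.hw Q ξ rp
    have b := r0 Q ξ rp
    have f : ∑ᶠ E, ξ E * ((κ E + E.ord w : ℤ) : ℝ) =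
        ∑ᶠ E, ξ E * (κ E : ℝ) + ∑ᶠ E, ξ E * (E.ord w : ℝ) := by
      rw [← finsum_add_distrib
        (pk.fin.subset fun E h => ⟨(rp.sup E (left_ne_zero_of_mul h)).1,
          Int.cast_ne_zero.1 (right_ne_zero_of_mul h)⟩)
        ((pk.fm.fin w).subset fun E h => ⟨(rp.sup E (left_ne_zero_of_mul h)).1,
          Int.cast_ne_zero.1 (right_ne_zero_of_mul h)⟩)]
      exact finsum_congr fun E => by rw [Int.cast_add, mul_add]
    rw [f, eo, Int.cast_sub]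
    linarith
  · simp only [ed, ea _ _ ha]
    exact pk.av (w * a) h₀ X k r t (mul_ne_zero a0 ha) h0 fX inj m
      (fun P p n => ⟨(z P p n).1, (ea P a ha).symm.trans (z P p n).2⟩) fr kp
  · refine ⟨w⁻¹ ^ m * φ, mul_ne_zero (pow_ne_zero _ (inv_ne_zero a0)) φ0, fun P p => ?_, ?_⟩
    · have := h1 P p
      rw [Pl.ord_mul _ (pow_ne_zero _ (inv_ne_zero a0)) φ0, Pl.ord_pow, Pl.ord_inv]
      linarith
    · rwa [← mul_assoc, ← mul_pow, mul_comm g, ← e]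

end Vale.Agent.P283R.Cq
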