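import Vale.Agent.P283R.Pq.Su10
import Vale.Agent.P283R.Cq.Inv12
import Vale.Agent.P283R.Cq.Eqn60

/-!
# P283R, block CQ: translations, an invariant affine neighbourhood in the base
-/

open Set CategoryTheory AlgebraicGeometry

noncomputable section

namespace Vale.Agent.P283R.Cq.S42

open Vale.Agent.P289 (Pt)
open Vale.Agent.P283M.Stm Vale.Agent.P283M.Stm.Var Vale.Agent.P283M Vale.Agent.P283M.Br
open Vale.Agent.P283R.To Vale.Agent.P283R.Sch Vale.Agent.P283R.Gl Vale.Agent.P283R.Tor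
open Vale.Agent.P283R.C3.S10 Cx MvPolynomial

section

variable {L K : Type} [Field L] [Field K] [Algebra L K] {r : ℕ} {y : Fin r → K}

theorem eqv (ind : AlgebraicIndependent L y) (gen : IntermediateField.adjoin L (range y) = ⊤) :
    ∃ e : FractionRing (MvPolynomial (Fin r) L) ≃ₐ[L] K, ∀ j, e (algebraMap _ _ (X j :
      MvPolynomial (Fin r) L)) = y j :=
  ⟨ind.aevalEquivField.trans ((IntermediateField.equivOfEq gen).trans IntermediateField.topEquiv),
    fun j => (ind.aevalEquivField_algebraMap_apply_coe (X j)).trans (aeval_X _ _)⟩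

/-- the variables are scaled -/
theorem scale (ind : AlgebraicIndependent L y) (gen : IntermediateField.adjoin L (range y) = ⊤)
    (t : Fin r → Lˣ) : ∃ e : K ≃ₐ[L] K, ∀ j, e (y j) = (t j : L) • y j := by
  have i' : AlgebraicIndependent L fun i => (t i : L) • y i := by
    refine algebraicIndependent_iff.2 fun p hp => ?_
    have e : aeval y (aeval (fun i => (t i : L) • (X i : MvPolynomial (Fin r) L)) p) =
        aeval (fun i => (t i : L) • y i) p := by
      rw [← AlgHom.comp_apply, comp_aeval]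
      simp
    have e1 := algebraicIndependent_iff.1 ind _ (e.trans hp)
    have e2 := congrArg (aeval fun i => ((t i)⁻¹ : Lˣ).1 • (X i : MvPolynomial (Fin r) L)) e1
    rw [← AlgHom.comp_apply, comp_aeval, map_zero] at e2
    simpa [smul_smul] using e2
  have g' : IntermediateField.adjoin L (range fun i => (t i : L) • y i) = ⊤ := by
    refine top_unique (gen ▸ IntermediateField.adjoin_le_iff.2 ?_)
    rintro _ ⟨i, rfl⟩
    have := IntermediateField.smul_mem _ (x := ((t i)⁻¹ : Lˣ).1)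
      (IntermediateField.subset_adjoin L (range fun i => (t i : L) • y i) (mem_range_self i))
    simpa [smul_smul] using this
  obtain ⟨a, ha⟩ := eqv ind gen
  obtain ⟨b, hb⟩ := eqv i' g'
  exact ⟨a.symm.trans b, fun j => by rw [← ha, AlgEquiv.trans_apply, a.symm_apply_apply, hb, ha]⟩

variable (L) in
/-- the homogeneous functions of the degree `u` -/
def HL (y : Fin r → K) (u : Fin r → ℤ) : Set K := {a | ∃ φ : L, a = hm y φ u}

/-- the components as coefficients -/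
theorem co_of {G : (Fin r → ℤ) →₀ K} (h : ∀ u, G u ∈ HL L y u) :
    ∃ ψ : (Fin r → ℤ) →₀ L, (∀ u, G u = hm y (ψ u) u) ∧ ψ.support = G.support ∧ tt G = lv y ψ := by
  classical
  choose φ e using h
  have s : ∀ u, (if G u = 0 then 0 else φ u) ≠ 0 ↔ G u ≠ 0 := fun u => by
    by_cases c : G u = 0
    · simp [c]
    · simp only [c, if_false, ne_eq, not_false_eq_true, iff_true]
      exact fun z => c (by rw [e, z, hm_zero])
  have k : ∀ u, G u = hm y (if G u = 0 then 0 else φ u) u := fun u => by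
    split_ifs with c
    · rw [c, hm_zero]
    · exact e u
  exact ⟨⟨G.support, fun u => if G u = 0 then 0 else φ u, fun u => by
    rw [s, Finsupp.mem_support_iff]⟩, k, rfl, Finset.sum_congr rfl fun u _ => k u⟩

/-- the coefficients as components -/
theorem of_co (ψ : (Fin r → ℤ) →₀ L) :
    ∃ G : (Fin r → ℤ) →₀ K, (∀ u, G u = hm y (ψ u) u) ∧ tt G = lv y ψ := by
  refine ⟨Finsupp.onFinset ψ.support (fun u => hm y (ψ u) u) fun u h =>
    Finsupp.mem_support_iff.2 fun z => h (by simp only [z, hm_zero]), fun _ => rfl, ?_⟩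
  exact Finsupp.onFinset_sum _ fun _ => rfl

variable [Algebra ℂ L] [Algebra ℂ K] [IsScalarTower ℂ L K]

theorem gr (y0 : ∀ j, y j ≠ 0) : C3.S10.Gr (HL L y) where
  zero u := ⟨0, (hm_zero y u).symm⟩
  one := ⟨1, (hm_one y).symm⟩
  add u := by
    rintro _ ⟨a, rfl⟩ _ ⟨b, rfl⟩
    exact ⟨a + b, (hm_add y a b u).symm⟩
  smul u c := by
    rintro _ ⟨a, rfl⟩
    exact ⟨c • a, (hm_smul y c a u).symm⟩
  mul u v := by
    rintro _ ⟨a, rfl⟩ _ ⟨b, rfl⟩
    exact ⟨a * b, (hm_mul y0 a b u v).symm⟩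
  inv u := by
    rintro _ ⟨a, rfl⟩
    exact ⟨a⁻¹, (hm_inv y0 a u).symm⟩

/-- the translations -/
theorem tr (ind : AlgebraicIndependent L y) (gen : IntermediateField.adjoin L (range y) = ⊤)
    (t : Fin r → ℂˣ) : ∃ θ : K ≃ₐ[ℂ] K, ∀ u, ∀ a ∈ HL L y u, θ a = chi u t • a := by
  obtain ⟨e, he⟩ := scale ind gen fun i => Units.map (algebraMap ℂ L : ℂ →* L) (t i)
  refine ⟨e.restrictScalars ℂ, ?_⟩
  rintro u _ ⟨φ, rfl⟩
  change e _ = ((∏ i, t i ^ u i : ℂˣ) : ℂ) • _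
  have he' : ∀ j, e (y j) = algebraMap ℂ K (t j) * y j := fun j => by
    rw [he, Algebra.smul_def, IsScalarTower.algebraMap_apply ℂ L K]
    rfl
  simp only [hm, map_mul, e.commutes, mon, map_prod, map_zpow₀, he', Algebra.smul_def, mul_zpow,
    Finset.prod_mul_distrib, Units.coe_prod, Units.val_zpow_eq_zpow_val]
  ring

omit [Algebra ℂ L] [IsScalarTower ℂ L K] in
theorem tw_iff (y0 : ∀ j, y j ≠ 0) {P : P287D.Pl K} : Tw (HL L y) P ↔ Cx.Hz L y P :=
  ⟨fun h φ e φ0 => h e _ ⟨φ, rfl⟩ (hm_ne y0 φ0 e),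
    fun h u _ ⟨φ, e⟩ c => e ▸ h φ u fun z => c (by rw [e, z, hm_zero])⟩

end

variable {X Z : Var} {L : Type} [Field L] [Algebra ℂ L] [Algebra L X.K] [IsScalarTower ℂ L X.K]
  {c r : ℕ} {y : Fin r → X.K} {f : X.X ⟶ Z.X}

open I12 (CoL)

omit [Algebra ℂ L] [IsScalarTower ℂ L X.K] in
theorem co_iff {W : X.X.Opens} : CoL L W y ↔ AlgebraicIndependent L y ∧ Co (HL L y) W := by
  refine and_congr_right fun _ => forall₂_congr fun x _ => exists_congr fun U =>
    and_congr_right fun _ => and_congr_right fun _ => and_congr_right fun _ =>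
      forall₂_congr fun g _ => ?_
  refine ⟨fun k => Submodule.span_mono ?_ k, fun k => Submodule.span_mono ?_ k⟩
  · rintro _ ⟨i, φ, m, l⟩
    exact ⟨i, m, φ, l⟩
  · rintro _ ⟨i, m, φ, l⟩
    exact ⟨i, φ, m, l⟩

/-- the equation of a divisor of the torus -/
theorem eqn {W : X.X.Opens} (h : CoL L W y) (k : X.PrimeDiv → ℤ) (hk : {E | k E ≠ 0}.Finite) :
    ∃ φ : X.K, φ ≠ 0 ∧ ∀ E : X.PrimeDiv, E.1 ∈ W → Hz L y (pq E) → (pq E).ord φ = k E := by
  classical
  have tp : ∀ E : X.PrimeDiv, E.1 ∈ W → Hz L y (pq E) → E60.Tpl L y (pq E) := fun E a b =>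
    ⟨b, I12.tpl h E a⟩
  have fT : (pq '' {E : X.PrimeDiv | k E ≠ 0 ∧ E.1 ∈ W ∧ Hz L y (pq E)}).Finite :=
    (hk.subset fun _ a => a.1).image _
  obtain ⟨G, G0, hG⟩ := E60.eqn h.1 (Function.extend pq k 0) fT.toFinset fun P hP => by
    obtain ⟨E, a, rfl⟩ := fT.mem_toFinset.1 hP
    exact tp E a.2.1 a.2.2
  refine ⟨G, G0, fun E a b => ?_⟩
  by_cases q : pq E ∈ fT.toFinset
  · rw [(hG _ (tp E a b)).1 q, Pq.S10.pq_inj.extend_apply]
  · rw [(hG _ (tp E a b)).2 q]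
    exact (by_contra fun z => q (fT.mem_toFinset.2 ⟨E, ⟨z, a, b⟩, rfl⟩) : k E = 0).symm

/-- the prime divisors of a graded open set -/
theorem fa {W : X.X.Opens} {x : Pt X.X} (e : Ext L c y) (h : CoL L W y) (hx : x ∈ W) :
    Fa (HL L y) W := by
  refine ⟨fun E a n G hG u hu => ?_, fun φ φ0 k => ?_, fun k hk => ?_⟩
  · obtain ⟨ψ, p1, -, p2⟩ := co_of hG
    rw [p2, p1]
    exact I12.inv h e E a (mt (tw_iff h.1.ne_zero).2 n) ψ u fun z => hu (by rw [p1, z, hm_zero])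
  · obtain ⟨ψ, rfl⟩ := I12.lau h hx φ φ0 fun E a b => k E a ((tw_iff h.1.ne_zero).2 b)
    obtain ⟨G, p1, p2⟩ := of_co (y := y) ψ
    exact ⟨G, fun u => ⟨_, p1 u⟩, p2.symm⟩
  · obtain ⟨φ, φ0, p⟩ := eqn h k hk
    exact ⟨φ, φ0, fun E a b => p E a ((tw_iff h.1.ne_zero).1 b)⟩

/-- **an invariant affine neighbourhood** -/
theorem sum {W : Z.X.Opens} {z : Pt Z.X} (e : Ext L c y) (hf : Contraction f) (zW : z ∈ W)
    (h : CoL L (f ⁻¹ᵁ W) y) : ∃ V ≤ W, IsAffineOpen V ∧ z ∈ V ∧ CoL L (f ⁻¹ᵁ V) y := by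
  obtain ⟨V, v0, v1, v2, v3⟩ := Pq.S10.sumi_le (gr e.ind.ne_zero) (tr e.ind e.gen)
    (fun U x k a => fa e (co_iff.2 ⟨h.1, k⟩) a) hf zW (co_iff.1 h).2
  exact ⟨V, v0, v1, v2, co_iff.2 ⟨h.1, v3⟩⟩

end Vale.Agent.P283R.Cq.S42
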