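import Vale.Agent.P283R.Cq.St
import Vale.Agent.P283R.Cq.Hw42
import Vale.Agent.P283R.Cq.Su42

/-!
# P283R, block CQ: the scheme side, any neighbourhood in the base
-/

set_option linter.all false

open Set CategoryTheory AlgebraicGeometry

noncomputable section

namespace Vale.Agent.P283R.Cq

open Vale.Agent.P287D Vale.Agent.P283M Vale.Agent.P283M.Br Vale.Agent.P283R.Gl

open Sl Sl.Var

/-- **ONR** -/
theorem onr10 : ONR := by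
  intro t h m d hd ε hε R hR
  obtain ⟨n, rfl⟩ : ∃ n, d = n + 1 := ⟨d - 1, by omega⟩
  obtain ⟨M, M1, H⟩ := h (m (n + 1)) n (∏ r ∈ R, r.den) ε
    (Finset.prod_pos fun r _ => r.den_pos) hε
  refine ⟨M, M1, fun X Z f ω B z a b c e s u ⟨u1, u2, V, hV, zV, w⟩ => (has_iff f ω B M z).2 ?_⟩
  obtain ⟨x, hx⟩ := s.2.2.1.surj z
  obtain ⟨L, i1, i2, i3, i4, c', ρ, bs, y, ok, fm⟩ := t _ X _ x (show f x ∈ V from hx ▸ zV) w
  exact H42.sch (X := X.o) (Z := Z.o) M1 (fun v Λ Γ Γ' hK da T co lc nf =>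
    @H L X.K i1 i2 _ _ i3 i4 c' ρ v Λ Γ Γ' bs y ok (Nat.cast_injective (fm.ext.ff'.trdeg.symm.trans hK.trdeg)) da
      ((Set.ext T : Cx.Tt n v Λ = {P | ∃ E : X.o.PrimeDiv, E.1 ∈ pre f V ∧ Gl.pq E = P}) ▸ fm)
      co lc nf) a b ((pair_iff _ _ ω B).1 c) (C3.den e) s
    ((fanoType_iff f ω).1 u1) ((nefOver_iff f _).1 u2) u hV zV

open Stm Stm.Var in
theorem sum_co {X Y Z : Stm.Var} {f : X.X ⟶ Z.X} {z : P289.Pt Z.X} {W : Z.X.Opens} {r : ℕ}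
    [Algebra Y.K X.K] [IsScalarTower ℂ Y.K X.K] {y : Fin r → X.K} (hf : Stm.Contraction f)
    (zW : z ∈ W) (co : I12.CoL Y.K (f ⁻¹ᵁ W) y) :
    ∃ V ≤ W, IsAffineOpen V ∧ z ∈ V ∧ I12.CoL Y.K (f ⁻¹ᵁ V) y := by
  obtain ⟨c, hL⟩ := Md.exists_ff Y
  obtain ⟨n, hK⟩ := Md.exists_ff X
  obtain ⟨x, hx⟩ := hf.2.2.1.surj z
  exact S42.sum (I12.ext co (x := x) (show f x ∈ W from hx ▸ zW) hL hK).2 hf zW co

/-- an invariant affine neighbourhood -/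
theorem sum_cq {l : ℕ} {X Z : Sl.Var} {f : X.X ⟶ Z.X} {z : Pt Z.X} {W : Z.X.Opens}
    (hf : Contraction f) (zW : z.In W) (h : CoxQuotient l (pre f W)) :
    ∃ V ≤ W, IsAffineOpen V ∧ z.In V ∧ CoxQuotient l (pre f V) := by
  obtain ⟨Y, φ, r, k, y, D, a, b, v, g⟩ := h
  obtain ⟨V, v0, v1, v2, v3⟩ := @sum_co X.o Y.o Z.o f z W r (φ : Y.K →+* X.K).toAlgebra
    (@IsScalarTower.of_algebraMap_eq _ _ _ _ _ _ _ (φ : Y.K →+* X.K).toAlgebra _ fun c =>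
      (φ.commutes c).symm) y hf zW
    ⟨(@algebraicIndependent_iff _ _ _ _ _ _ (φ : Y.K →+* X.K).toAlgebra).2 a, b⟩
  exact ⟨V, v0, v1, v2, Y, φ, r, k, y, D, a, v3.2, fun E e => v E (v0 e), g⟩

/-- **ONW**: the class over any neighbourhood -/
theorem onw10 (h : ON) (m : ℕ → ℕ) : On fun d _ Z f ω B z => FanoType f ω ∧
    NefOver f (-logCan ω B) ∧ ∃ W : Z.X.Opens, z.In W ∧ CoxQuotient (m d) (pre f W) :=
  fun d hd ε hε R hR => (h m d hd ε hε R hR).imp fun _ H => ⟨H.1, fun X Z f ω B z a b c e s v u =>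
    let ⟨_, i, j⟩ := u.2.2
    let ⟨V, _, p⟩ := sum_cq s i j
    H.2 X Z f ω B z a b c e s v ⟨u.1, u.2.1, V, p⟩⟩

end Vale.Agent.P283R.Cq
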