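import Vale.Agent.P283R.Cq.St

/-!
# P283R, block CQ: the ordinary pages
-/

open Set

noncomputable section

namespace Vale.Agent.P283R.Cq

open Vale.Agent.P287D Vale.Agent.P283M Cx

theorem orr24 : ORR := by
  classical
  intro hcz L K _ _ _ _ _ _ c ρ b y T l d q ε g κ x
  obtain ⟨ψ, e⟩ := x.fm.lau g x.g0 fun P a h => (x.reg P a h).1
  obtain ⟨z1, z2, -⟩ := hcz L K c ρ b.s y x.fm.ext x.ok.fr
  let B : Set (Pl K) := ({P | P ∈ T ∧ cz b y P ≠ 0} ∪ {P | P ∈ T ∧ κ P ≠ 0}) ∪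
    ((⋃ i, {P | P ∈ T ∧ P.ord (y i) ≠ 0}) ∪
      ⋃ u ∈ ψ.support, {P | P ∈ T ∧ P.ord (hm y (ψ u) u) ≠ 0})
  have f2 : B.Finite := (x.fm.finc.union x.fin).union ((finite_iUnion fun i => x.fm.fin _).union
    (ψ.support.finite_toSet.biUnion fun u _ => x.fm.fin _))
  have f3 : (⋃ P ∈ B, {p : Pl L | At P p}).Finite := f2.biUnion fun P _ =>
    Set.Subsingleton.finite fun p a p' a' => Lies.uniq a a'
  have f1 : (⋃ j, {p | p ∈ b.T ∧ p.ord (b.σ j) + (0 : Fin b.k → ℤ) ⬝ᵥ b.D p ≠ 0}).Finite :=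
    finite_iUnion fun j => x.ok.cox.fin _ _
  have f4 := (x.fm.mis.union b.S.finite_toSet).union (f1.union f3)
  have nb : ∀ P p, p ∉ f4.toFinset → At P p → P ∉ B := fun P p n a h =>
    n (f4.mem_toFinset.2 (.inr (.inr (mem_biUnion h a))))
  have co : b.S ⊆ f4.toFinset := fun p h => f4.mem_toFinset.2 (.inl (.inr h))
  refine ⟨ψ, f4.toFinset, e.symm,
    fun p t n => by_contra fun z => n (f4.mem_toFinset.2 (.inl (.inl ⟨t, z⟩))),
    ⟨co, fun P t p n a => ?_⟩,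
    fun P t p n a i _ => by_contra fun z => nb P p n a (.inr (.inl (mem_iUnion.2 ⟨i, t, z⟩))),
    fun P t p n a u u0 => by_contra fun z => nb P p n a (.inr (.inr (mem_biUnion
      (Finsupp.mem_support_iff.2 fun w => u0 (by simp [hm, w])) ⟨t, z⟩))),
    fun j p t n => by_contra fun z => n (f4.mem_toFinset.2 (.inr (.inl
      (mem_iUnion.2 ⟨j, t, by simpa using z⟩))))⟩
  have c0 : cz b y P = 0 := by_contra fun z => nb P p n a (.inl (.inl ⟨t, z⟩))
  refine ⟨?_, c0, by_contra fun z => nb P p n a (.inl (.inr ⟨t, z⟩))⟩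
  obtain ⟨p', t', a'⟩ := (x.fm.pg P t).resolve_left a.not_trv
  obtain rfl := Lies.uniq a a'
  have k1 := x.ok.can.2 p t'
  rw [x.ok.sup p t' fun h => n (co h), dotProduct_zero, Int.cast_zero, add_zero] at k1
  have k2 := z2 P p a
  have k3 : P.ord (algebraMap L K b.h) = mu P p * p.ord b.h := a.ord _
  have k4 : 0 < mu P p := a.e_pos
  rw [k1, ← z1 P] at k2
  have k5 : mu P p * (1 + p.ord b.h) ≤ ⌊lt b.s y P⌋ := by exact_mod_cast k2
  unfold cz at c0
  have : mu P p ≤ 1 := by linarith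
  omega

end Vale.Agent.P283R.Cq
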