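import Vale.Agent.P283R.Cq.St
import Vale.Agent.P283R.Cq.Hem67

/-!
# P283R, block CQ: few special pages
-/

open Set

noncomputable section

namespace Vale.Agent.P283R.Cq

open Vale.Agent.P287D Vale.Agent.P283M Cx Cy Vale.Agent.P297Z
open Vale.Agent.P283R.To (mon)

namespace P67

variable {L K : Type} [Field L] [Algebra ℂ L] [Field K] [Algebra ℂ K] [Algebra L K]

omit [Algebra L K] in
open Classical in
/-- masses of pages -/
theorem push {A : Pl K → Pl L → Prop} (un : ∀ E r r', A E r → A E r' → r = r')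
    (fin : ∀ r, {E | A E r}.Finite) {μ : Pl K → ℤ} {m : Pl L → ℕ} {B : Set (Pl L)}
    (hA : ∀ E r, A E r → r ∈ B) (hm : ∀ r ∉ B, m r = 0) {η : Pl K → ℝ} {t : ℕ}
    (h1 : ∀ E, η E ≠ 0 → ∃ r, A E r)
    (h2 : ∀ r, ∑ᶠ E, η E * (if A E r then μ E else 0 : ℤ) = t * m r) (F : Pl L → ℤ)
    (hF : {r | r ∈ B ∧ F r ≠ 0}.Finite) (G : Pl K → ℤ) (hG : ∀ E r, A E r → G E = μ E * F r) :
    ∑ᶠ E, η E * G E = t * (∑ᶠ r, m r * F r : ℤ) := by
  rw [finsum_eq_sum_of_support_subset (fun r => (m r : ℤ) * F r) (s := hF.toFinset) fun r z => by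
    rw [Finite.coe_toFinset]
    exact ⟨by_contra fun n => left_ne_zero_of_mul z (by simp [hm r n]), right_ne_zero_of_mul z⟩,
    Int.cast_sum, Finset.mul_sum]
  simp only [Int.cast_mul, Int.cast_natCast, ← mul_assoc, ← h2, finsum_mul]
  rw [← finsum_sum_comm _ _ fun r _ => (fin r).subset fun E z => by
    by_contra n
    simp [show ¬ A E r from n] at z]
  refine finsum_congr fun E => ?_
  by_cases z : η E = 0
  · simp [z]
  obtain ⟨r, a⟩ := h1 E z
  rw [Finset.sum_eq_single r (fun r' _ n => by simp [show ¬ A E r' from fun k => n (un _ _ _ k a)])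
    (fun n => by
      rw [show F r = 0 from by_contra fun k => n (hF.mem_toFinset.2 ⟨hA _ _ a, k⟩)]
      simp), if_pos a, hG E r a]
  push_cast
  ring

end P67

open P67

/-- **PGR** -/
theorem pgr67 : PGR := fun cZ gp cnt l d q hq => ⟨q * (d + l) * (d + 2) + l,
  fun L K _ _ _ _ _ _ c ρ b y T ε ψ κ I Q ξ ε0 pk od rp ps => by
  classical
  have X := pk.fm
  have o := pk.ok
  obtain ⟨c1, c2, -⟩ := cZ L K c ρ b.s y X.ext o.fr
  have y0 : ∀ i, y i ≠ 0 := X.ext.ind.ne_zero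
  obtain ⟨μ, δ, h1, h2⟩ : ∃ (μ : Pl K → ℤ) (δ : Pl K → Fin b.k → ℤ),
      (∀ P p, At P p → μ P = mu P p ∧ δ P = b.D p) ∧
        ∀ P, Trv (algebraMap L K) P → δ P = 0 :=
    ⟨fun P => if h : ∃ p : Pl L, At P p then mu P h.choose else 0,
      fun P => if h : ∃ p : Pl L, At P p then b.D h.choose else 0, fun P p a => by
        have e : ∃ p : Pl L, At P p := ⟨p, a⟩
        simp only [dif_pos e, e.choose_spec.uniq a, and_self], fun P a => dif_neg a.not_lies⟩
  have pT : ∀ P ∈ T, ∀ p, At P p → p ∈ b.T := fun P a p k => by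
    obtain n | ⟨p', n, e⟩ := X.pg P a
    exacts [absurd n k.not_trv, e.uniq k ▸ n]
  have fA : ∀ p : Pl L, {P | P ∈ T ∧ At P p}.Finite := fun p =>
    (X.fin (algebraMap L K p.t)).subset fun P a => ⟨a.1, a.2.e_pos.ne'⟩
  have fD : ∀ a : Fin b.k → ℤ, {P | P ∈ T ∧ μ P * (a ⬝ᵥ δ P) ≠ 0}.Finite := fun a =>
    (b.S.finite_toSet.biUnion fun p _ => fA p).subset fun P ⟨k, z⟩ => by
      obtain n | ⟨p, n, e⟩ := X.pg P k
      · simp [h2 P n] at z
      · exact mem_biUnion (show p ∈ b.S from by_contra fun j => by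
          simp [(h1 P p e).2, o.sup p n j] at z) ⟨k, e⟩
  have nz : ∀ P (p : Pl L), At P p → ¬ Hz L y P := fun P p a k => by
    have := k p.t 0 p.t_ne
    simp only [hm, mon, Pi.zero_apply, zpow_zero, Finset.prod_const_one, mul_one] at this
    exact a.e_pos.ne' this
  have fs : ∀ {η : Pl K → ℝ}, (∀ P, η P ≠ 0 → P ∈ T) → ∀ {F : Pl K → ℤ},
      {P | P ∈ T ∧ F P ≠ 0}.Finite → (Function.support fun P => η P * (F P : ℝ)).Finite :=
    fun h _ hF => hF.subset fun P z => ⟨h P (left_ne_zero_of_mul z),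
      Int.cast_ne_zero.1 (right_ne_zero_of_mul z)⟩
  have ξT : ∀ P, ξ P ≠ 0 → P ∈ T := fun P z => (rp.sup P z).1
  have val : ∀ (φ : L) (a : Fin b.k → ℤ), φ ≠ 0 → (Q.ord (algebraMap L K φ) : ℝ) +
      pa a (fun i => ∑ᶠ P, ξ P * (μ P * δ P i : ℤ)) =
      ∑ᶠ P, ξ P * (P.ord (algebraMap L K φ) + μ P * (a ⬝ᵥ δ P) : ℤ) := fun φ a φ0 => by
    have e := rp.eq φ 0 φ0
    simp only [hm, mon, Pi.zero_apply, zpow_zero, Finset.prod_const_one, mul_one] at e
    simp only [Int.cast_add, mul_add]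
    rw [finsum_add_distrib (fs ξT (X.fin _)) (fs ξT (fD a)), e, pa]
    simp only [mul_finsum]
    rw [← finsum_sum_comm _ _ fun i _ => (fs ξT (fD (Pi.single i 1))).subset fun P z => by
      simpa using right_ne_zero_of_mul z]
    refine congrArg _ (finsum_congr fun P => ?_)
    simp only [dotProduct, Finset.mul_sum]
    push_cast
    simp only [Finset.mul_sum]
    exact Finset.sum_congr rfl fun i _ => by ring
  have vl : ∀ (φ : L) (a : Fin b.k → ℤ) P p, At P p →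
      P.ord (algebraMap L K φ) + μ P * (a ⬝ᵥ δ P) = mu P p * (p.ord φ + a ⬝ᵥ b.D p) :=
    fun φ a P p k => by rw [(h1 P p k).1, (h1 P p k).2, k.ord, mul_add, mu]
  have nn : ∀ (φ : L) (a : Fin b.k → ℤ), (∀ p ∈ b.T, 0 ≤ p.ord φ + a ⬝ᵥ b.D p) → ∀ P,
      0 ≤ ξ P * (P.ord (algebraMap L K φ) + μ P * (a ⬝ᵥ δ P) : ℤ) := fun φ a h P => by
    by_cases z : ξ P = 0
    · simp [z]
    refine mul_nonneg (rp.nn P) (Int.cast_nonneg_iff.2 ?_)
    obtain n | ⟨p, n, e⟩ := X.pg P (ξT P z)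
    · simp [n.ord, h2 P n]
    · exact vl φ a P p e ▸ mul_nonneg e.e_pos.le (h p n)
  obtain ⟨m, e, e0, m1, m2, m3, m4⟩ := gp L K c ρ b y T l Q
    (fun i => ∑ᶠ P, ξ P * (μ P * δ P i : ℤ)) {p | p ∈ b.T ∧ ¬ ∃ P ∈ T, At P p} o
    (fun j => by
      rw [val _ _ (o.cox.ne j)]
      exact finsum_nonneg (nn _ _ ((o.cox.sec _ _ (o.cox.ne j)).1 (An.gen_sp j)))) X.mis
    fun p hp => ⟨hp.1, by
      rw [val _ _ (o.l0 p)]
      refine finsum_eq_zero_of_forall_eq_zero fun P => ?_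
      by_cases z : ξ P = 0
      · simp [z]
      obtain n | ⟨p', n, e⟩ := X.pg P (ξT P z)
      · simp [n.ord, h2 P n]
      · rw [vl _ _ P p' e, o.lam p hp.1 p' n, if_neg fun (k : p' = p) => hp.2 ⟨P, ξT P z, k ▸ e⟩]
        simp⟩
  have cz1 : ∀ P p, P ∈ T → At P p → mu P p * (1 + b.e ⬝ᵥ b.D p) - 1 ≤ cz b y P := fun P p a k => by
    have a1 := c2 P p k
    rw [o.can.2 p (pT P a p k), ← c1 P] at a1
    have a2 : mu P p * (1 + (p.ord b.h + b.e ⬝ᵥ b.D p)) ≤ ⌊lt b.s y P⌋ := by exact_mod_cast a1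
    rw [cz, k.ord, ← mu]
    linarith
  have n0 : ∀ u ∈ ψ.support, ∀ P p, P ∈ T → At P p →
      q * cz b y P ≤ P.ord (hm y (ψ u) u) + κ P := fun u hu P p a k => by
    linarith [X.inv P a (nz P p k) ψ u hu, pk.eff P a]
  obtain ⟨u, hu, J, k1, k2⟩ := C67.hel' (At := fun P p => P ∈ T ∧ At P p) (μ := μ)
    (n := fun P j => P.ord (y j)) (m := m) (S := ψ.support)
    (Z := fun u P => P.ord (hm y (ψ u) u) + κ P - q * (μ P * (b.e ⬝ᵥ δ P))) (A := q * (c + l))
    (Pos := fun p => ∃ P, ξ P ≠ 0 ∧ At P p) e0 hq (fun _ _ _ a k => a.2.uniq k.2)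
    (fun P p a => (h1 P p a.2).1 ▸ a.2.e_pos) fA
    (fun p ⟨P, z, a⟩ => m3 p (pT P (ξT P z) p a) (by
      have pt := pT P (ξT P z) p a
      rw [val _ _ (o.l0 p)]
      refine lt_of_lt_of_le ?_ (C67.le_fs (fs ξT (((X.fin (algebraMap L K (b.lam p))).union
        (fD (b.dg p))).subset fun P ⟨k, z⟩ => by
          by_contra n
          simp only [mem_union, mem_ofPred_eq, k, true_and, not_or, not_not] at n
          exact z (by rw [n.1, n.2, add_zero])))
        (nn _ _ fun p' n => by rw [o.lam p pt p' n]; positivity) {P})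
      rw [Finset.sum_singleton, vl _ _ P p a, o.lam p pt p pt, if_pos rfl, mul_one]
      exact mul_pos ((rp.nn P).lt_of_ne' z) (Int.cast_pos.2 a.e_pos)))
    (fun p n => by
      by_cases z : p ∈ b.T
      exacts [m1 p ⟨z, n⟩, m2 p z])
    (Finsupp.support_nonempty_iff.2 fun z => pk.g0 (by simp [z, lv]))
    (fun u hu P p a => by
      have := mul_le_mul_of_nonneg_left (cz1 P p a.1 a.2) (Int.natCast_nonneg q)
      rw [(h1 P p a.2).1, (h1 P p a.2).2]
      linarith [n0 u hu P p a.1 a.2])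
    (fun u _ => (((X.fin (hm y (ψ u) u)).union pk.fin).union (fD b.e)).subset
      fun P ⟨⟨_, k, _⟩, z⟩ => by
        by_contra n
        simp only [mem_union, mem_ofPred_eq, k, true_and, not_or, not_not] at n
        exact z (by simp only [n.1.1, n.1.2, n.2, mul_zero, add_zero, sub_zero]))
    id (fun P => κ P - q * (μ P * (b.e ⬝ᵥ δ P))) (fun u p => p.ord (ψ u))
    (fun u hu P p a z => by
      have : (fun j => P.ord (y j)) ⬝ᵥ u = ∑ i, u i * P.ord (y i) := by
        simp [dotProduct, mul_comm]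
      rw [ord_hm y0 P (Finsupp.mem_support_iff.1 hu), a.2.ord, ← mu, ← (h1 P p a.2).1, z]
      simp only [id, this]
      ring)
    fun t v η t0 η0 η1 η2 η3 => by
      have ηT : ∀ P, η P ≠ 0 → P ∈ T := fun P z => (η1 P z).elim fun _ a => a.1
      have pu := push (A := fun P (p : Pl L) => P ∈ T ∧ At P p) (fun _ _ _ a k => a.2.uniq k.2) fA
        (fun P p a => pT P a.1 p a.2) m2 η1 η2
      have p1 : ∀ φ : L, ∑ᶠ P, η P * P.ord (algebraMap L K φ) =
          t * (∑ᶠ p, m p * p.ord φ : ℤ) := fun φ =>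
        pu (fun p => p.ord φ) (by simpa using o.cox.fin φ 0) _ fun P p a => by
          rw [a.2.ord, (h1 P p a.2).1, mu]
      have p2 := pu (fun p => b.e ⬝ᵥ b.D p) (b.S.finite_toSet.subset fun p ⟨a, z⟩ =>
        by_contra fun n => z (by simp [o.sup p a n])) (fun P => μ P * (b.e ⬝ᵥ δ P))
        fun P p a => by rw [(h1 P p a.2).2]
      rw [finsum_eq_sum_of_support_subset (fun p => (m p : ℤ) * (b.e ⬝ᵥ b.D p)) (s := b.S)
        fun p z => by_contra fun n => by
          by_cases a : p ∈ b.T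
          · simp [o.sup p a n] at z
          · simp [m2 p a] at z] at p2
      obtain ⟨u, hu, k⟩ := cnt L K c ρ b y T l d q ε ψ κ Q ξ η v
        (t * (((c + l) * e : ℤ) + ∑ p ∈ b.S, m p * (b.e ⬝ᵥ b.D p) : ℤ)) ε0 pk rp η0
        (fun P z => (η1 P z).elim fun p a => ⟨a.1, nz P p a.2⟩) η3
        (m4.imp (fun a => ⟨fun φ φ0 => by simp [p1, a.1 φ φ0],
          mul_nonneg (Nat.cast_nonneg t) (Int.cast_nonneg_iff.2 a.2)⟩)
          fun ⟨R, a, a0, a1, a2⟩ => ⟨R, t * a, mul_pos t0 a0, fun φ φ0 => by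
            rw [p1, a1 φ φ0]
            push_cast
            ring, by
            rw [Nat.cast_mul, mul_assoc]
            exact mul_le_mul_of_nonneg_left a2 (Nat.cast_nonneg t)⟩)
      refine ⟨u, Finsupp.mem_support_iff.2 hu, ?_⟩
      have s1 := fs ηT (X.fin (hm y (ψ u) u))
      have s2 := fs ηT pk.fin
      have e1 : ∀ P, η P * (P.ord (hm y (ψ u) u) + κ P - q * (μ P * (b.e ⬝ᵥ δ P)) : ℤ) =
          η P * P.ord (hm y (ψ u) u) + η P * κ P - q * (η P * (μ P * (b.e ⬝ᵥ δ P) : ℤ)) :=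
        fun P => by
          push_cast
          ring
      simp only [e1]
      rw [finsum_sub_distrib ((s1.union s2).subset (Function.support_add _ _))
        ((fs ηT (fD b.e)).subset fun P z => right_ne_zero_of_mul z), finsum_add_distrib s1 s2,
        ← mul_finsum, p2]
      generalize ∑ p ∈ b.S, (m p : ℤ) * (b.e ⬝ᵥ b.D p) = a at k ⊢
      push_cast at k ⊢
      linarith
  have dm := pk.dim
  refine ⟨u, J ∪ b.S, Finsupp.mem_support_iff.1 hu, (Finset.card_union_le _ _).trans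
    (Nat.add_le_add (k1.trans (Nat.mul_le_mul (Nat.mul_le_mul_left _ (by omega)) (by omega))) o.bS),
    Finset.subset_union_right, fun P a p n k => ?_⟩
  rw [Finset.mem_union, not_or] at n
  by_cases z : p ∈ I
  · obtain ⟨j1, j2⟩ := k2 P p ⟨a, k⟩ ⟨P, (ps P ⟨a, nz P p k, fun p' i j =>
      i (k.uniq j ▸ z)⟩).ne', k⟩ n.1
    have a1 := cz1 P p a k
    have a2 := n0 u hu P p a k
    rw [(h1 P p k).1] at j1
    rw [(h1 P p k).2, o.sup p (pT P a p k) n.2] at j2
    rw [o.sup p (pT P a p k) n.2, j1] at a1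
    simp only [dotProduct_zero, mul_zero, sub_zero, add_zero] at j2 a1
    exact ⟨j1, le_antisymm (by nlinarith) (by omega), by omega⟩
  · obtain ⟨j1, j2, j3⟩ := od.od.od P a p z k
    exact ⟨j1, j2, by
      rw [j3, od.g0 P a p z k u (hm_ne y0 (Finsupp.mem_support_iff.1 hu) u), add_zero]⟩⟩

end Vale.Agent.P283R.Cq
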