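import Vale.Agent.P283R.Cq.St
import Vale.Agent.P283R.Cq.Inv12
import Vale.Agent.P283R.Cq.Cz60
import Vale.Agent.P283R.Pq.Mis29
import Vale.Agent.P283M.Br.Mod

/-!
# P283R, block CQ: the rows RAT, INV and LAU
-/

set_option linter.all false

open Set

noncomputable section

namespace Vale.Agent.P283R.Cq

open Vale.Agent.P287D Vale.Agent.P283M Cx
open Vale.Agent.P283M.Stm Vale.Agent.P283M.Stm.Var Vale.Agent.P283M.Br Vale.Agent.P283R.Gl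

theorem I12.fo (X : Var) (W : X.X.Opens) (a : X.K) :
    {P | P ∈ {P | ∃ E : X.PrimeDiv, E.1 ∈ W ∧ pq E = P} ∧ P.ord a ≠ 0}.Finite :=
  ((fin X a).image pq).subset fun _ ⟨⟨E, _, e⟩, h⟩ =>
    ⟨E, by rw [mem_ofPred, pq_ord, e]; exact h, e⟩

/-- **RAT** -/
theorem rat12 : RAT := fun X L _ _ _ _ c ρ W y x hL hx hy h => by
  obtain ⟨n, hK⟩ := Md.exists_ff X
  have e := (I12.ext (W := W) ⟨hy, h⟩ hx hL hK).2
  refine ⟨e, I12.fo X W, fun s hs => ?_⟩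
  obtain ⟨j, -, hj⟩ := Z60.cn_eq e hs
  refine (((Pq.M29.fin_cn e.ff').image pq).union (I12.fo X W j)).subset ?_
  rintro _ ⟨⟨E, m, rfl⟩, k⟩
  by_contra z
  rw [mem_union, not_or] at z
  have z1 : cn X.K (c + ρ) (pq E) = 0 := by_contra fun w => z.1 ⟨E, w, rfl⟩
  have z2 : (pq E).ord j = 0 := by_contra fun w => z.2 ⟨⟨E, m, rfl⟩, w⟩
  have := hj (pq E)
  rw [z1, z2] at this
  exact k (by push_cast at this; linarith)

/-- **INV** -/
theorem inv12 : INV := fun X L _ _ _ _ c ρ W y x hL hx hy h => by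
  obtain ⟨n, hK⟩ := Md.exists_ff X
  rintro _ ⟨E, m, rfl⟩ z ψ e he
  exact I12.inv ⟨hy, h⟩ (I12.ext (W := W) ⟨hy, h⟩ hx hL hK).2 E m z ψ e
    (Finsupp.mem_support_iff.1 he)

/-- **LAU** -/
theorem lau12 : LAU := fun X L _ _ _ _ c ρ W y x _ hx hy h φ φ0 k =>
  let ⟨G, e⟩ := I12.lau (W := W) ⟨hy, h⟩ hx φ φ0 fun E m => k _ ⟨E, m, rfl⟩
  ⟨G, e.symm⟩

end Vale.Agent.P283R.Cq
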