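import Vale.Agent.P283R.Cq.St
import Vale.Agent.P283R.Wd.Gq95

/-!
# P283R, block CQ: regular functions at the place
-/

open Set

noncomputable section

namespace Vale.Agent.P283R.Cq

open Vale.Agent.P287D Vale.Agent.P283M Cx

theorem reg21 : REG := by
  intro L K _ _ _ _ _ _ c ρ b y T Q ξ φ fm rp φ0 h
  obtain ⟨ψ, rfl⟩ := fm.lau φ φ0 fun E w _ => h E w
  obtain ⟨u, u0, -, le⟩ := Wd.ord_sum_ge ψ.support (fun m => hm y (ψ m) m) φ0 Q
  have e := rp.eq (ψ u) u (Finsupp.mem_support_iff.1 u0)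
  have o : ∀ P, ξ P ≠ 0 → P.ord (lv y ψ) ≤ P.ord (hm y (ψ u) u) := fun P z =>
    fm.inv P (rp.sup P z).1 (rp.sup P z).2 ψ u u0
  have nn : ∀ P, 0 ≤ ξ P * (P.ord (hm y (ψ u) u) : ℝ) := fun P => by
    by_cases z : ξ P = 0
    · rw [z, zero_mul]
    · exact mul_nonneg (rp.nn P) (Int.cast_nonneg ((h P (rp.sup P z).1).trans (o P z)))
  have fi : (Function.support fun P => ξ P * (P.ord (hm y (ψ u) u) : ℝ)).Finite :=
    (fm.fin (hm y (ψ u) u)).subset fun P a => ⟨(rp.sup P (left_ne_zero_of_mul a)).1,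
      Int.cast_ne_zero.1 (right_ne_zero_of_mul a)⟩
  refine ⟨le_trans (by exact_mod_cast (finsum_nonneg nn).trans_eq e) le, fun P x0 p0 => ?_⟩
  have k : 0 < ξ P * (P.ord (hm y (ψ u) u) : ℝ) :=
    mul_pos x0 (Int.cast_pos.2 (p0.trans_le (o P x0.ne')))
  exact lt_of_lt_of_le (by exact_mod_cast (k.trans_le (single_le_finsum P fi nn)).trans_eq e) le

end Vale.Agent.P283R.Cq
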