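import Vale.Agent.P283R.Cq.St
import Vale.Agent.P283R.Cq.Cz60
import Vale.Agent.P283R.Wd.Gap25

/-!
# P283R, block CQ: the gap and the adapted frame
-/

open Set Matrix

noncomputable section

namespace Vale.Agent.P283R.Cq

open Vale.Agent.P287D Vale.Agent.P297Z Cx
open Vale.Agent.P283R.To (mon ord_prod ord_mon)

namespace S25

variable {L K : Type} [Field L] [Algebra ℂ L] [Field K] [Algebra ℂ K] [Algebra L K] {c ρ l : ℕ}
  {b : Ba L c} {y : Fin ρ → K} {T : Set (Pl K)}

theorem mem_T (fm : Fm b y T) {P : Pl K} (hP : P ∈ T) {p : Pl L} (a : At P p) : p ∈ b.T := by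
  rcases fm.pg P hP with h | ⟨p', h, a'⟩
  · exact absurd (Z60.of_trv h p.t) a.e_pos.ne'
  · rwa [a.uniq a']

open Classical in
theorem ord_lam (ok : b.Ok l) {P : Pl K} {p : Pl L} (a : At P p) (m : mu P p = 1) (h : p ∈ b.T)
    (s : p ∉ b.S) {p' : Pl L} (h' : p' ∈ b.T) :
    P.ord (algebraMap L K (b.lam p')) = if p = p' then 1 else 0 := by
  have := ok.lam p' h' p h
  rw [ok.sup p h s, dotProduct_zero, add_zero] at this
  rw [a.ord, ← this]
  exact (congrArg (· * _) m).trans (one_mul _)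

/-- the lattice of the degrees which are constant on the pages -/
def lq {ι : Type} (F : Finset ι) (E : ι → Set (Fin ρ → ℤ)) : Submodule ℤ (Fin ρ → ℤ) where
  carrier := {m | ∀ p ∈ F, ∀ e ∈ E p, e ⬝ᵥ m = 0}
  add_mem' := fun {a b} ha hb p hp e he => by
    rw [dotProduct_add, ha p hp e he, hb p hp e he, add_zero]
  zero_mem' := fun _ _ _ _ => dotProduct_zero _
  smul_mem' := fun n a ha p hp e he => by rw [dotProduct_smul, ha p hp e he, smul_zero]

end S25

open S25 in
theorem spr25 : SPR := by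
  classical
  intro bas W d C₀
  choose C hC using fun ρ => Wd.gap W ρ C₀
  refine ⟨(Finset.range (d + 1)).sup C, fun L K _ _ _ _ _ _ c ρ b y T l κ I J₀ hd ok fm h0 od _ un =>
    ?_⟩
  let o : Pl K → Fin ρ → ℤ := fun P j => P.ord (y j)
  let E : Pl L → Set (Fin ρ → ℤ) := fun p =>
    {e | ∃ P ∈ T, ∃ P' ∈ T, At P p ∧ At P' p ∧ e = o P - o P'}
  obtain ⟨J, j1, -, j3, j4⟩ := hC ρ I E J₀ h0
  have j5 : J.card ≤ (Finset.range (d + 1)).sup C :=
    j3.trans (Finset.le_sup (f := C) (Finset.mem_range.2 (by omega)))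
  obtain ⟨r, ρ', rfl, A, B, hA, hB, hL⟩ := Wd.lat (lq (I \ J) E) fun n m n0 h p hp e he => by
    have := h p hp e he
    rw [dotProduct_smul, smul_eq_mul] at this
    exact (mul_eq_zero.1 this).resolve_left n0
  have k : ∀ m : Fin (r + ρ') → ℤ, m ᵥ* A ∈ lq (I \ J) E ↔ ∀ j, m (Fin.natAdd r j) = 0 := fun m => by
    rw [hL, Matrix.vecMul_vecMul, hA, Matrix.vecMul_one]
    rfl
  have y0 := fm.ext.ind.ne_zero
  have om : ∀ (P : Pl K) i, P.ord (mon y (A i)) = o P ⬝ᵥ A i := fun P i => by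
    rw [ord_mon P y0, dotProduct_comm, dotProduct]
  have oz : ∀ P ∈ T, ∀ p ∉ I, At P p → ∀ i, P.ord (mon y (A i)) = 0 := fun P hP p hp a i => by
    rw [om, show o P = 0 from funext fun j => un P hP p hp a j (y0 j), zero_dotProduct]
  let F := (I \ J).filter fun p => ∃ P ∈ T, At P p
  have ex : ∀ p, ∃ P : Option (Pl K), p ∈ F → ∃ P', P = some P' ∧ P' ∈ T ∧ At P' p :=
    fun p => by
      by_cases h : p ∈ F
      · obtain ⟨P, a, b⟩ := (Finset.mem_filter.1 h).2
        exact ⟨some P, fun _ => ⟨P, rfl, a, b⟩⟩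
      · exact ⟨none, fun a => (h a).elim⟩
  choose R hR using ex
  let w : Pl L → Fin r → ℤ := fun p i => (R p).elim 0 fun P => o P ⬝ᵥ A (Fin.castAdd ρ' i)
  let φ : Fin r → L := fun i => ∏ p ∈ F, b.lam p ^ (-w p i)
  have φ0 : ∀ i, φ i ≠ 0 := fun i => Finset.prod_ne_zero_iff.2 fun p _ => zpow_ne_zero _ (ok.l0 p)
  refine ⟨J, r, ρ', fun i => hm y (φ i) (A (Fin.castAdd ρ' i)), fun i => mon y (A (Fin.natAdd r i)),
    j1, j5, bas L K c _ b y T r ρ' rfl A B (Fin.append φ fun _ => 1) _ _ fm.ext ok.fr hB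
      (fun i => ?_) fun i => ?_, fun P hP p hp a i _ => ?_,
    fun P hP p hp a i _ => oz P hP p hp a _, fun ν ν0 => ?_⟩
  · refine Fin.addCases (fun i => ?_) (fun i => ?_) i
    · rw [Fin.append_left]
      exact φ0 i
    · rw [Fin.append_right]
      exact one_ne_zero
  · refine Fin.addCases (fun i => ?_) (fun i => ?_) i <;> simp [hm]
  · have m1 := (od.od P hP p (fun h => hp (j1 h)) a).1
    have pT := mem_T fm hP a
    have pS : p ∉ b.S := fun h => hp (j1 (od.co h))
    have oφ : P.ord (algebraMap L K (φ i)) = if p ∈ F then -w p i else 0 := by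
      simp only [φ, map_prod, map_zpow₀]
      rw [P.ord_prod _ fun p _ => zpow_ne_zero _ ((map_ne_zero _).2 (ok.l0 p)),
        ← Finset.sum_ite_eq F p fun p => -w p i]
      refine Finset.sum_congr rfl fun p' hp' => ?_
      obtain ⟨P', -, e2, e3⟩ := hR p' hp'
      rw [Pl.ord_zpow, ord_lam ok a m1 pT pS (mem_T fm e2 e3), mul_ite, mul_one, mul_zero]
    change P.ord (algebraMap L K (φ i) * mon y (A (Fin.castAdd ρ' i))) = 0
    rw [Pl.ord_mul _ ((map_ne_zero _).2 (φ0 i)) (To.mon_ne y0 _), oφ]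
    by_cases hI : p ∈ I
    · have hF : p ∈ F := Finset.mem_filter.2 ⟨Finset.mem_sdiff.2 ⟨hI, hp⟩, P, hP, a⟩
      obtain ⟨P', e1, e2, e3⟩ := hR p hF
      have mem := (k (Pi.single (Fin.castAdd ρ' i) 1)).2 fun j => Pi.single_eq_of_ne (fun h => by
        have := congrArg Fin.val h
        rw [Fin.val_natAdd, Fin.val_castAdd] at this
        omega) _
      rw [Matrix.single_one_vecMul] at mem
      have := mem p (Finset.mem_sdiff.2 ⟨hI, hp⟩) _ ⟨P, hP, P', e2, a, e3, rfl⟩
      rw [sub_dotProduct] at this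
      rw [if_pos hF, om]
      simp only [w, e1, Option.elim_some]
      change o P ⬝ᵥ A (Fin.castAdd ρ' i) - o P' ⬝ᵥ A (Fin.castAdd ρ' i) = 0 at this
      linarith
    · rw [if_neg fun h => hI (Finset.mem_sdiff.1 (Finset.mem_filter.1 h).1).1, oz P hP p hI a,
        add_zero]
  · have ou : ∀ P : Pl K, (fun i => P.ord (mon y (A (Fin.natAdd r i)))) ⬝ᵥ ν =
        o P ⬝ᵥ (Fin.append 0 ν ᵥ* A) := fun P => by
      rw [dotProduct_comm (o P), ← Matrix.dotProduct_mulVec, dotProduct, dotProduct,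
        Fin.sum_univ_add]
      simp only [Fin.append_left, Fin.append_right, Pi.zero_apply, zero_mul, Finset.sum_const_zero,
        zero_add, om]
      exact Finset.sum_congr rfl fun i _ => by rw [mul_comm, dotProduct_comm]; rfl
    refine ((j4 (Fin.append 0 ν ᵥ* A)).resolve_left fun h => ν0 (funext fun j => ?_)).trans
      (le_of_eq ?_)
    · simpa using (k _).1 h j
    · rw [← Set.ncard_coe_finset]
      congr 1
      ext p
      simp only [Finset.coe_filter, Finset.mem_sdiff, mem_ofPred_eq, ou, and_assoc]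
      refine and_congr_right fun _ => and_congr_right fun _ => ⟨?_, ?_⟩
      · rintro ⟨_, ⟨P, hP, P', hP', a, a', rfl⟩, h⟩
        exact ⟨P, hP, P', hP', a, a', fun e => h (by rw [sub_dotProduct, e, sub_self])⟩
      · rintro ⟨P, hP, P', hP', a, a', h⟩
        exact ⟨_, ⟨P, hP, P', hP', a, a', rfl⟩, fun e => h (by rwa [sub_dotProduct, sub_eq_zero] at e)⟩

end Vale.Agent.P283R.Cq
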