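import Vale.Agent.P283R.Cq.St
import Vale.Agent.P283R.Cq.Tow30

/-!
# P283R, block CQ: the tower and the components over the small field
-/

open Set

noncomputable section

namespace Vale.Agent.P283R.Cq

open Vale.Agent.P287D Cx
open Vale.Agent.P283R.To (mon mon_ne)

theorem twr9 : TWR := by
  classical
  intro L K _ _ _ _ _ _ c r ρ b y u T x _
  refine ⟨(T30.tower x).1, (T30.tower x).2, fun P => congrFun (T30.kap_zt b.s y u) P, fun ψ => ?_⟩
  obtain ⟨γ, a, e, d⟩ := T30.cmp0 x.ind ψ
  refine ⟨γ, a, fun m => ?_, fun m => ?_, d 0⟩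
  · rw [e]
    exact Submodule.sum_mem _ fun w _ => Submodule.subset_span ⟨w, rfl⟩
  have inj : Function.Injective fun v : Fin r → ℤ => (Fin.append v m : Fin (r + ρ) → ℤ) :=
    fun v v' h => funext fun i => by
      simpa only [Fin.append_left] using congrFun h (Fin.castAdd ρ i)
  refine ⟨ψ.comapDomain _ inj.injOn, ?_, fun v => rfl⟩
  have u0 : mon u m ≠ 0 := mon_ne (fun j => by
    simpa only [Fin.append_right] using x.ind.ne_zero (Fin.natAdd r j)) m
  refine (algebraMap (T30.Sb L y) K).injective (mul_right_cancel₀ u0 ((e m).trans ?_))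
  rw [lv, Finsupp.sum, map_sum, Finset.sum_mul]
  symm
  refine Finset.sum_bij (fun v _ => Fin.append v m) (fun v hv => ?_) (fun v _ v' _ h => inj h)
    (fun w hw => ?_) fun v _ => T30.hm_hm' (L := L) y u (ψ (Fin.append v m)) v m
  · have := Finsupp.mem_support_iff.1 hv
    exact Finset.mem_filter.2 ⟨Finsupp.mem_support_iff.2 this,
      funext fun j => Fin.append_right _ _ j⟩
  · obtain ⟨h1, rfl⟩ := Finset.mem_filter.1 hw
    have k : (Fin.append (fun i => w (Fin.castAdd ρ i)) fun j => w (Fin.natAdd r j)) = w :=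
      Fin.append_castAdd_natAdd
    exact ⟨fun i => w (Fin.castAdd ρ i), Finsupp.mem_support_iff.2 fun z =>
      Finsupp.mem_support_iff.1 h1 (k ▸ z), k⟩

end Vale.Agent.P283R.Cq
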