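import Vale.Agent.P283R.Cq.St
import Vale.Agent.P283R.Wc.W1r45

/-!
# P283R, block CQ: the sections are free over the small ring
-/

open Set

noncomputable section

namespace Vale.Agent.P283R.Cq

open Vale.Agent.P287D Vale.Agent.P283M Vale.Agent.P297Z Cx Cy
open Vale.Agent.P283R.To (mon)
open Wd (Wv)
open Wc (Dr)
open Wc.W45 (dr_self dr_not)

namespace W45

variable {L K : Type} [Field L] [Algebra ℂ L] [Field K] [Algebra ℂ K] [Algebra L K]
  {c r ρ k l : ℕ} {b : Ba L c} {T : Set (Pl K)}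

/-- the page of a prime is a page of the base -/
theorem at_mem {y : Fin ρ → K} (fm : Fm b y T) {P : Pl K} (hP : P ∈ T) {p : Pl L} (h : At P p) :
    p ∈ b.T := by
  obtain t | ⟨p', a, h'⟩ := fm.pg P hP
  · have := h.e_pos
    rw [Trv.ord t] at this
    exact (lt_irrefl _ this).elim
  · exact h'.uniq h ▸ a

open Classical in
/-- the order of the equation of a page at a reduced prime over an ordinary page -/
theorem at_ord (ok : b.Ok l) {P : Pl K} {p p' : Pl L} (h : At P p) (h1 : mu P p = 1) (m : p ∈ b.T)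
    (n : p ∉ b.S) (m' : p' ∈ b.T) :
    P.ord (algebraMap L K (b.lam p')) = if p = p' then 1 else 0 := by
  have := ok.lam p' m' p m
  rw [ok.sup p m n, dotProduct_zero, add_zero] at this
  rw [h.ord, show P.ord (algebraMap L K p.t) = 1 from h1, one_mul, this]

omit [Algebra ℂ L] in
theorem hz_alg {y : Fin ρ → K} {P : Pl K} (h : Hz L y P) {φ : L} (φ0 : φ ≠ 0) :
    P.ord (algebraMap L K φ) = 0 := hm_deg0 y φ ▸ h φ 0 φ0

omit [Algebra ℂ L] in
theorem hz_y {y : Fin ρ → K} {P : Pl K} (h : Hz L y P) (i : Fin ρ) : P.ord (y i) = 0 :=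
  hm_single (K := L) y i ▸ h 1 _ one_ne_zero

/-- the orders of the generators -/
theorem ord_th {y : Fin r → K} {u : Fin ρ → K} {π : Wd.Pg (Pl L) (Sm L y) k ρ}
    (u0 : ∀ i, u i ≠ 0) (l0 : ∀ p, b.lam p ≠ 0)
    (hl : ∀ p, π.l p = algebraMap L (Sm L y) (b.lam p)) (P : Pl K) (m : Fin ρ → ℤ) :
    P.ord (hm u (π.cc m) m) =
      ∑ p ∈ π.I, π.κ p m * P.ord (algebraMap L K (b.lam p)) + ∑ i, m i * P.ord (u i) := by
  have e : algebraMap (Sm L y) K (π.cc m) = ∏ p ∈ π.I, algebraMap L K (b.lam p) ^ π.κ p m := by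
    rw [Wd.Pg.cc, map_prod]
    exact Finset.prod_congr rfl fun p _ => by rw [map_zpow₀, hl]; rfl
  have p0 : ∀ p ∈ π.I, algebraMap L K (b.lam p) ^ π.κ p m ≠ 0 := fun p _ =>
    zpow_ne_zero _ ((map_ne_zero _).2 (l0 p))
  rw [hm, e, Pl.ord_mul _ (Finset.prod_ne_zero_iff.2 p0) (To.mon_ne u0 _), To.ord_mon P u0,
    P.ord_prod _ p0]
  simp only [Pl.ord_zpow]

end W45

open W45

/-- **W1R** -/
theorem w1r45 : W1R := by
  classical
  intro twr ind L K _ _ _ _ _ _ c r ρ b y u T W l q ε ψ κ Q ξ I J f k N E e π σ α s' a' sc he re pd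
    cx gn
  have fm := sc.pk.fm
  have ok := sc.pk.ok
  have Y0 := fm.ext.ind.ne_zero
  have u0 : ∀ i, u i ≠ 0 := fun i => by simpa using Y0 (Fin.natAdd r i)
  have cl : ∀ P ∈ T, (∃ i, e i = P) ∨ (∀ δ, δ ⬝ᵥ Dr e P = 0) ∧
      (Hz L (Fin.append y u) P ∨ ∃ p ∉ J, At P p) := fun P hP => by
    refine or_iff_not_imp_left.2 fun h => ⟨dr_not h, or_iff_not_imp_left.2 fun t => ?_⟩
    by_contra! n
    exact h (show P ∈ range e from re ▸ ⟨hP, t, n⟩)
  have nk : ∀ P p, p ∉ J → At P p → ∀ δ, δ ⬝ᵥ Dr e P = 0 := fun P p t z =>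
    dr_not fun h => (re ▸ h : P ∈ Kt _ T J).2.2 p t z
  have tv : ∀ P, Hz L (Fin.append y u) P → ∀ δ, δ ⬝ᵥ Dr e P = 0 := fun P t =>
    dr_not fun h => (re ▸ h : P ∈ Kt _ T J).2.1 t
  have lz : ∀ p, π.l p ≠ 0 := fun p => (pd.hl p).symm ▸ (map_ne_zero _).2 (ok.l0 p)
  have th := ord_th u0 ok.l0 pd.hl
  have ol : ∀ P ∈ T, ∀ p ∉ J, At P p → ∀ p' ∈ π.I,
      P.ord (algebraMap L K (b.lam p')) = if p = p' then 1 else 0 := fun P hP p t z p' h => by
    obtain ⟨-, -, P', hP', z'⟩ := (pd.hI p').1 h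
    exact at_ord ok z (sc.od.od P hP p t z).1 (at_mem fm hP z) (fun n => t (sc.od.co n))
      (at_mem fm hP' z')
  have k1 : ∀ m i, (e i).ord (hm u (π.cc m) m) + π.al m i = 0 := fun m i => by
    simp only [th, Wd.Pg.al, Pi.add_apply, Finset.sum_apply, Pi.smul_apply, smul_eq_mul, pd.hb,
      pd.ha, mul_neg, Finset.sum_neg_distrib]
    ring
  have k2 : ∀ m P, Hz L (Fin.append y u) P → P.ord (hm u (π.cc m) m) = 0 := fun m P t => by
    have b' : ∀ i, P.ord (u i) = 0 := fun i => by simpa using hz_y t (Fin.natAdd r i)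
    simp only [th, fun p => hz_alg t (ok.l0 p), b', mul_zero, Finset.sum_const_zero, add_zero]
  have k4 : ∀ m, ∀ P ∈ T, ∀ p ∉ J, At P p → P.ord (hm u (π.cc m) m) =
      (if p ∈ π.I then π.κ p m else 0) + (fun i => P.ord (u i)) ⬝ᵥ m := fun m P hP p t z => by
    rw [th, dotProduct_comm, ← Finset.sum_ite_eq π.I p fun p => π.κ p m]
    refine congrArg₂ _ (Finset.sum_congr rfl fun p' h => ?_) rfl
    rw [ol P hP p t z p' h, mul_ite, mul_one, mul_zero]
  have k3 : ∀ m, ∀ P ∈ T, ∀ p ∉ J, At P p → 0 ≤ P.ord (hm u (π.cc m) m) ∧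
      ∃ P' ∈ T, At P' p ∧ P'.ord (hm u (π.cc m) m) = 0 := fun m P hP p t z => by
    by_cases a : p ∈ π.I
    · obtain ⟨a1, v, hv, a2⟩ := pd.hk p a m
      obtain ⟨P', hP', z', rfl⟩ := (pd.hV p v).1 hv
      refine ⟨?_, P', hP', z', ?_⟩
      · rw [k4 m P hP p t z, if_pos a, add_comm]
        exact a1 _ ((pd.hV p _).2 ⟨P, hP, z, rfl⟩)
      · rw [k4 m P' hP' p t z', if_pos a, add_comm, a2]
    · have : P.ord (hm u (π.cc m) m) = 0 := by
        rw [k4 m P hP p t z, if_neg a, zero_add]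
        exact Finset.sum_eq_zero fun i _ => mul_eq_zero_of_left
          (sc.u0 P hP p (fun h => a ((pd.hI p).2 ⟨h, t, P, hP, z⟩)) z i (u0 i)) _
      exact ⟨this.ge, P, hP, z, this⟩
  refine ⟨gn.ne, fun p hp => ⟨lz p, (gn.sec _ _ (lz p)).2 fun P hP => ?_⟩, fun δ φ hφ => ?_,
    fun δ m z => ?_⟩
  · rw [show (π.l p : K) = algebraMap L K (b.lam p) by rw [pd.hl]; rfl]
    obtain ⟨i, rfl⟩ | ⟨v, t | ⟨p', t, z⟩⟩ := cl P hP
    · rw [dr_self he, pd.hb, add_neg_cancel]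
    · rw [v, hz_alg t (ok.l0 p), add_zero]
    · rw [v, add_zero, ol P hP p' t z p hp]
      split_ifs <;> omega
  · rcases eq_or_ne φ 0 with rfl | φ0
    · exact ⟨0, lv_zero _, fun m => by rw [Finsupp.zero_apply, hm_zero]; exact hφ⟩
    have H := (cx.sec δ φ φ0).1 hφ
    obtain ⟨χ, rfl⟩ := fm.lau φ φ0 fun P hP t => by simpa only [tv P t, add_zero] using H P hP
    obtain ⟨γ, g1, g2, -⟩ := (twr L K c r ρ b y u T fm.ext ok.fr).2.2.2 χ
    refine ⟨γ, g1, fun m => Submodule.span_le.2 ?_ (g2 m)⟩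
    rintro _ ⟨w, rfl⟩
    rcases eq_or_ne (χ w) 0 with z | z
    · beta_reduce
      rw [z, hm_zero]
      exact zero_mem _
    refine (cx.sec δ _ (hm_ne Y0 z w)).2 fun P hP => ?_
    by_cases t : Hz L (Fin.append y u) P
    · rw [t _ _ z, tv P t, add_zero]
    · exact (H P hP).trans
        (add_le_add_left (fm.inv P hP t χ w (Finsupp.mem_support_iff.2 z)) _)
  rcases eq_or_ne z 0 with rfl | z0
  · rw [hm_zero, zero_div]
    exact iff_of_true (zero_mem _) (zero_mem _)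
  have c0 : π.cc m ≠ 0 := Finset.prod_ne_zero_iff.2 fun p _ => zpow_ne_zero _ (lz p)
  have z1 : z / π.cc m ≠ 0 := div_ne_zero z0 c0
  have eo : ∀ P : Pl K, P.ord (hm u z m) =
      P.ord ((z / π.cc m : Sm L y) : K) + P.ord (hm u (π.cc m) m) := fun P => by
    change _ = P.ord (algebraMap (Sm L y) K (z / π.cc m)) + _
    rw [← Pl.ord_mul _ ((map_ne_zero _).2 z1) (hm_ne u0 c0 _), hm, hm,
      ← mul_assoc, ← map_mul, div_mul_cancel₀ _ c0]
  rw [cx.sec _ _ (hm_ne u0 z0 _), gn.sec _ _ z1]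
  simp only [eo]
  refine ⟨fun H P hP => ?_, fun H P hP => ?_⟩
  · have a1 := H P hP
    obtain ⟨i, rfl⟩ | ⟨v, t | ⟨p, t, z⟩⟩ := cl P hP
    · have a2 := k1 m i
      rw [dr_self he] at a1 ⊢
      rw [Pi.sub_apply]
      omega
    · rw [v, k2 m P t, add_zero] at a1
      rwa [v]
    · obtain ⟨P', hP', z', o⟩ := (k3 m P hP p t z).2
      have a2 := H P' hP'
      rw [nk P' p t z', o, add_zero] at a2
      rwa [v, ind L K c r ρ b y u T J κ fm sc.od sc.y1 p t P hP P' hP' z z' _ z1]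
  · have a1 := H P hP
    obtain ⟨i, rfl⟩ | ⟨v, t | ⟨p, t, z⟩⟩ := cl P hP
    · have a2 := k1 m i
      rw [dr_self he] at a1 ⊢
      rw [Pi.sub_apply] at a1
      omega
    · rw [v] at a1 ⊢
      rwa [k2 m P t, add_zero]
    · rw [v, add_zero] at a1 ⊢
      exact add_nonneg a1 (k3 m P hP p t z).1

end Vale.Agent.P283R.Cq
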