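import Vale.Agent.P283R.Cq.St
import Vale.Agent.P283R.Wc.W2r63

/-!
# P283R, block CQ: positivity along the closed orbit
-/

open Set

noncomputable section

namespace Vale.Agent.P283R.Cq

open Vale.Agent.P287D Vale.Agent.P283M Cx Cy Vale.Agent.P297Z
open Vale.Agent.P283R.To (mon)
open Wd (Wv Ps Gm)
open Wc (Dr)
open Wc.W63

/-- **W2R** -/
theorem w2r63 : W2R := by
  classical
  intro reg L K _ _ _ _ _ _ c r ρ b y u T W l q ε ψ κ Q ξ I J k N e π σ α W1 sc he rg pd wid cx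
  have fm := sc.pk.fm
  have ok := sc.pk.ok
  have rq := fun φ => reg L K c (r + ρ) b (Fin.append y u) T Q ξ φ fm sc.rep
  have l0 : ∀ p, algebraMap L K (b.lam p) ≠ 0 := fun p => (map_ne_zero _).2 (ok.l0 p)
  have y0 : ∀ j, Fin.append y u j ≠ 0 := fun j => fm.ext.ind.ne_zero j
  have u0 : ∀ j, u j ≠ 0 := fun j => by simpa using y0 (Fin.natAdd r j)
  have out : ∀ P ∈ T, P ∉ range e → Hz L (Fin.append y u) P ∨ ∃ p ∉ J, At P p :=
    fun P hP z => by
      by_contra! h
      exact z (rg ▸ ⟨hP, h.1, h.2⟩)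
  have nin : ∀ P p, p ∉ J → At P p → P ∉ range e := fun P p a d z =>
    (rg ▸ z : P ∈ Kt (Fin.append y u) T J).2.2 p a d
  have bT : ∀ P ∈ T, ∀ p : Pl L, At P p → p ∈ b.T := fun P hP p d => by
    rcases fm.pg P hP with h | ⟨p', h, d'⟩
    · exact (d.not_trv h).elim
    · exact d'.uniq d ▸ h
  have ol : ∀ P ∈ T, ∀ p ∉ J, At P p → ∀ p' ∈ b.T,
      P.ord (algebraMap L K (b.lam p')) = if p' = p then 1 else 0 := fun P hP p a d p' t => by
    have h1 := ok.lam p' t p (bT P hP p d)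
    rw [ok.sup p (bT P hP p d) fun z => a (sc.od.co z), dotProduct_zero, add_zero] at h1
    rw [d.ord, show P.ord (algebraMap L K p.t) = 1 from (sc.od.od P hP p a d).1, one_mul, h1]
    simp only [eq_comm]
  have hz : ∀ P : Pl K, Hz L (Fin.append y u) P →
      (∀ p, P.ord (algebraMap L K (b.lam p)) = 0) ∧ ∀ j, P.ord (u j) = 0 := fun P h =>
    ⟨fun p => by simpa [hm, To.mon] using h _ 0 (ok.l0 p), fun j => by
      have := h 1 (Pi.single (Fin.natAdd r j) 1) one_ne_zero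
      rw [hm, map_one, one_mul, To.ord_mon P y0, Finset.sum_eq_single (Fin.natAdd r j)
        (fun i _ n => by rw [Pi.single_eq_of_ne n, zero_mul]) (by simp)] at this
      simpa using this⟩
  have el : ∀ p, algebraMap (Sm L y) K (π.l p) = algebraMap L K (b.lam p) := fun p => by
    rw [pd.hl, ← IsScalarTower.algebraMap_apply]
  have iT : ∀ p ∈ π.I, p ∈ b.T := fun p hp =>
    have ⟨_, _, P, t, d⟩ := (pd.hI p).1 hp
    bT P t p d
  refine ⟨fun n hn => ?_, fun p hp => ?_, fun m m0 => ?_⟩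
  · have n0 : ∏ j, σ j ^ n j ≠ 0 := Finset.prod_ne_zero_iff.2 fun j _ => pow_ne_zero _ (cx.ne j)
    refine (rq _ n0 fun P hP => ?_).1
    simpa using (cx.sec 0 _ n0).1 (Submodule.subset_span ⟨n, hn, rfl⟩) P hP
  · obtain ⟨a, b', P₀, t, d⟩ := (pd.hI p).1 hp
    rw [el]
    refine pos_of he cx (fun φ f0 h => (rq φ f0 h).2) (l0 p) (pd.hb p) (fun P hP z => ?_) t
      (nin P₀ p b' d) (sc.pos P₀ t p a b' d)
      (by rw [ol P₀ t p b' d p (iT p hp), if_pos rfl]; exact one_pos)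
    rcases out P hP z with h | ⟨p', a', d'⟩
    · exact ((hz P h).1 p).ge
    · rw [ol P hP p' a' d' p (iT p hp)]
      split_ifs <;> omega
  · have ew : hm u (π.cc m) m = (∏ p ∈ π.I, algebraMap L K (b.lam p) ^ π.κ p m) * mon u m := by
      rw [hm, Wd.Pg.cc, map_prod]
      congr 1
      exact Finset.prod_congr rfl fun p _ => by rw [map_zpow₀, el]
    have p0 : ∏ p ∈ π.I, algebraMap L K (b.lam p) ^ π.κ p m ≠ 0 :=
      Finset.prod_ne_zero_iff.2 fun p _ => zpow_ne_zero _ (l0 p)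
    have ow : ∀ P : Pl K, P.ord (hm u (π.cc m) m) =
        ∑ p ∈ π.I, π.κ p m * P.ord (algebraMap L K (b.lam p)) + ∑ j, m j * P.ord (u j) :=
      fun P => by
        rw [ew, Pl.ord_mul _ p0 (To.mon_ne u0 m), To.ord_mon P u0,
          P.ord_prod _ fun p _ => zpow_ne_zero _ (l0 p)]
        simp only [Pl.ord_zpow]
    have oi : ∀ P ∈ T, ∀ p ∈ π.I, At P p → P.ord (hm u (π.cc m) m) =
        (fun i => P.ord (u i)) ⬝ᵥ m + π.κ p m := fun P hP p hp d => by
      rw [ow, Finset.sum_congr rfl fun p' h' => by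
        rw [ol P hP p ((pd.hI p).1 hp).2.1 d p' (iT p' h')]]
      simp only [mul_ite, mul_one, mul_zero, Finset.sum_ite_eq', if_pos hp, dotProduct]
      rw [add_comm, Finset.sum_congr rfl fun j _ => mul_comm _ _]
    obtain ⟨p, hp, v, hv, v', hv', ne⟩ := nonempty_of_ncard_ne_zero
      (Nat.one_le_iff_ne_zero.1 (W1.trans (wid.wid m m0)))
    obtain ⟨a, b', -⟩ := (pd.hI p).1 hp
    obtain ⟨P₀, t, d, o⟩ : ∃ P₀ ∈ T, At P₀ p ∧ 0 < P₀.ord (hm u (π.cc m) m) := by
      have k1 := wid.vk p hp v hv m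
      have k2 := wid.vk p hp v' hv' m
      obtain ⟨P, t, d, rfl⟩ := (pd.hV p v).1 hv
      obtain ⟨P', t', d', rfl⟩ := (pd.hV p v').1 hv'
      by_cases z : 0 < (fun i => P.ord (u i)) ⬝ᵥ m + π.κ p m
      · exact ⟨P, t, d, by rw [oi P t p hp d]; exact z⟩
      · exact ⟨P', t', d', by rw [oi P' t' p hp d']; omega⟩
    refine pos_of he cx (fun φ f0 h => (rq φ f0 h).2) (ew ▸ mul_ne_zero p0 (To.mon_ne u0 m))
      (fun i => ?_) (fun P hP z => ?_) t (nin P₀ p b' d) (sc.pos P₀ t p a b' d) o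
    · rw [ow, Wd.Pg.al, Pi.add_apply, Finset.sum_apply, Finset.sum_apply, neg_add, add_comm,
        ← Finset.sum_neg_distrib, ← Finset.sum_neg_distrib]
      congr 1
      · exact Finset.sum_congr rfl fun p _ => by simp [pd.hb]
      · exact Finset.sum_congr rfl fun j _ => by simp [pd.ha]
    · rcases out P hP z with h | ⟨p', a', d'⟩
      · obtain ⟨h1, h3⟩ := hz P h
        rw [ow]
        simp [h1 _, h3]
      · by_cases z' : p' ∈ π.I
        · rw [oi P hP p' z' d']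
          exact wid.vk p' z' _ ((pd.hV p' _).2 ⟨P, hP, d', rfl⟩) m
        · have nI : p' ∉ I := fun h => z' ((pd.hI p').2 ⟨h, a', P, hP, d'⟩)
          rw [ow, Finset.sum_eq_zero fun p hp => by
            rw [ol P hP p' a' d' p (iT p hp), if_neg (ne_of_mem_of_not_mem hp z'), mul_zero],
            Finset.sum_eq_zero fun j _ => by rw [sc.u0 P hP p' nI d' j (u0 j), mul_zero]]
          rfl

end Vale.Agent.P283R.Cq
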