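import Vale.Agent.P283R.Wc.All
import Vale.Agent.P283R.Cq.Base20
import Vale.Agent.P283R.Cq.Bas90
import Vale.Agent.P283R.Cq.Car13
import Vale.Agent.P283R.Cq.Cdr42
import Vale.Agent.P283R.Cq.Cnr68
import Vale.Agent.P283R.Cq.Czr60
import Vale.Agent.P283R.Cq.Drp47
import Vale.Agent.P283R.Cq.Eqf78
import Vale.Agent.P283R.Cq.Eqk60
import Vale.Agent.P283R.Cq.Gnr38
import Vale.Agent.P283R.Cq.Gpr36
import Vale.Agent.P283R.Cq.Gtw85
import Vale.Agent.P283R.Cq.Hlr62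
import Vale.Agent.P283R.Cq.Ind88
import Vale.Agent.P283R.Cq.Mis29
import Vale.Agent.P283R.Cq.Mor18
import Vale.Agent.P283R.Cq.Nrm40
import Vale.Agent.P283R.Cq.Onr10
import Vale.Agent.P283R.Cq.Orr24
import Vale.Agent.P283R.Cq.Pdx31
import Vale.Agent.P283R.Cq.Pgr67
import Vale.Agent.P283R.Cq.Pqr96
import Vale.Agent.P283R.Cq.Rat12
import Vale.Agent.P283R.Cq.Reg21
import Vale.Agent.P283R.Cq.Spr25
import Vale.Agent.P283R.Cq.Twr9
import Vale.Agent.P283R.Cq.Txr96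
import Vale.Agent.P283R.Cq.W1r45
import Vale.Agent.P283R.Cq.W2r63
import Vale.Agent.P283R.Cq.Wtr59

/-!
# P283R, block CQ: the closed statements
-/

namespace Vale.Agent.P283R.Cq

/-- **WID** -/
theorem wid : WID :=
  hlr62 drp47 car13 (mor18 cz60 car13 twr9 (gnr38 twr9) pdx31 (w1r45 twr9 ind88) (w2r63 reg21)
    (Wc.mur60 Wd.mnw))

/-- **TXT** -/
theorem txt : TXT := txr96 cz60 rat12 inv12 lau12 eqk60 mis29 base20

/-- **PQ** -/
theorem pq : PQ :=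
  pqr96 (orr24 cz60) gt85 drp47 Wc.rpr65 (pgr67 cz60 (gpr36 cz60) (cnr68 cz60)) nrm40 (spr25 bas90)
    eqf78 wid

/-- **WT** -/
theorem wt : WT :=
  wtr59 (cdr42 cz60 (Wc.avr95 Wc.cox36 Wc.loc24)) (Wc.bkr64 Wc.cox36) Wc.ovq22 pq

/-- **ON** -/
theorem on : ON := onr10 txt wt

end Vale.Agent.P283R.Cq

namespace Vale.Agent.P283R.Sl

open Var

/-- torus actions whose orbit space has a Cox ring with few generators -/
theorem on_cxq (M : ℕ → ℕ) : On fun d _ Z f ω B z => FanoType f ω ∧ NefOver f (-logCan ω B) ∧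
    ∃ W : Z.X.Opens, z.In W ∧ CoxQuotient (M d) (pre f W) :=
  Cq.onw10 Cq.on M

end Vale.Agent.P283R.Sl
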