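import Vale.Agent.P283R.Cq.Pd36
import Vale.Agent.P283R.Cq.Gta68
import Vale.Agent.P283R.Cx.Gu
import Vale.Agent.P283R.Pq.Su10
import Vale.Agent.P283R.Sl.Cq
import Vale.Agent.P283R.Wd.Spl25

/-!
# P283R: a projective space as the orbit space has a Cox ring with `c + 1` generators
-/

open Set CategoryTheory AlgebraicGeometry MvPolynomial

noncomputable section

namespace Vale.Agent.P283R.Cq

open Vale.Agent.P287D Vale.Agent.P283M Vale.Agent.P297Z Pq
open Vale.Agent.P283R.Gl (pq pq_ord)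
open Vale.Agent.P283R.To (mon)

namespace P36

variable {K K' : Type} [Field K] [Algebra ℂ K] [Field K'] [Algebra ℂ K'] {c ρ : ℕ} {s : Fin c → K}

theorem exists_hom (r : D.Rat (fr s ![])) {s' : Fin c → K'} (h : AlgebraicIndependent ℂ s') :
    ∃ φ : K →ₐ[ℂ] Wd.Sb s', Function.Surjective φ ∧
      ∀ g : MvPolynomial (Fin c) ℂ, (φ (aeval s g) : K') = aeval s' g := by
  have e : fr s ![] = s := funext (Fin.append_left s ![])
  rw [e] at r
  let ε : K ≃ₐ[ℂ] Wd.Sb s :=
    (IntermediateField.topEquiv.symm.trans (IntermediateField.equivOfEq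
      (eq_top_iff.2 fun a _ => r.gen a).symm))
  refine ⟨(ε.trans (r.ind.aevalEquivField.symm.trans h.aevalEquivField) : K ≃ₐ[ℂ] _),
    AlgEquiv.surjective _, fun g => ?_⟩
  have : ε (aeval s g) = r.ind.aevalEquivField (algebraMap _ _ g) :=
    Subtype.ext (r.ind.aevalEquivField_algebraMap_apply_coe g).symm
  change (h.aevalEquivField (r.ind.aevalEquivField.symm (ε (aeval s g))) : K') = _
  rw [this, AlgEquiv.symm_apply_apply]
  exact h.aevalEquivField_algebraMap_apply_coe g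

theorem ind2 {y : Fin ρ → K} (r : D.Rat (fr s y)) : AlgebraicIndependent (Wd.Sb s) y :=
  (Wd.tower r).2.ind

theorem fac0 (r : D.Rat (fr s ![])) {a : K} (a0 : a ≠ 0) :
    ∃ (b : ℂ) (n : Pg c →₀ ℤ), b ≠ 0 ∧ a = b • hm s ![] n 0 := by
  have e : fr s ![] = s := funext (Fin.append_left s ![])
  exact (fac c 0 K s ![] r).1 0 a ⟨a, e ▸ r.gen a, by simp [mon]⟩ a0

theorem ord0 (r : D.Rat (fr s ![])) {P : Pl K} {x : Option (Pg c)}
    (h : At s P x ∧ mu s P x = 1) (n : Pg c →₀ ℤ) : P.ord (hm s ![] n 0) = od n x := by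
  simpa [h.2] using (fac c 0 K s ![] r).2.2.2.2.2.1 P x n 0 h.1

open Sl Sl.Var

/-- the Cox ring of the projective space -/
theorem cox (c : ℕ) : ∃ (Y : Sl.Var) (s : Fin c → Y.K) (k : ℕ) (A : Fin k → Y.PrimeDiv),
    D.Rat (fr s ![]) ∧ (∀ x, (x = none → 0 < c) → ∃ F : Y.PrimeDiv, ∀ n,
      ord (hm s ![] n 0) F = od n x) ∧
    GradedGen (c + 1) (fun m => sections (all Y.X) (comb (fun i => .single (A i) 1) m)) ∧
    ∀ G : Y.Div, InSpan (all Y.X) (fun i => .single (A i) 1) fun F => G F := by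
  classical
  obtain ⟨Y, s, r, cls, e1, e2⟩ := primes c
  have ex : ∀ x, (x = none → 0 < c) → ∃ F : Y.PrimeDiv, At s (pq F) x ∧ mu s (pq F) x = 1 :=
    fun x h => by
      cases x
      exacts [e2 (h rfl), e1 _]
  have ex' : ∀ x, (x = none → 0 < c) → ∃ F : Y.PrimeDiv, ∀ n,
      Stm.Var.ord (hm s ![] n 0) F = od n x := fun x h =>
    (ex x h).imp fun F a n => (pq_ord F _).trans (ord0 r a n)
  rcases Nat.eq_zero_or_pos c with rfl | c0
  · have em : ∀ _ : Y.PrimeDiv, False := fun F => Bm.no_pl r.ff (pq F)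
    refine ⟨nw Y, s, 0, ![], r, ex', ?_, fun G => ⟨0, 1, one_ne_zero, fun F => (em F).elim⟩⟩
    refine (congrArg (GradedGen 1) (funext fun m => eq_of_subset_of_subset
      (fun φ _ _ F => (em F).elim) fun φ _ => ?_)).mp (Cx.gen_of_sp (fun _ => (1 : Y.K)) 0)
    have := r.gen φ
    have i0 : IsEmpty (Fin (0 + 0)) := inferInstanceAs (IsEmpty (Fin 0))
    rw [range_eq_empty, IntermediateField.adjoin_empty, IntermediateField.mem_bot] at this
    obtain ⟨b, rfl⟩ := this
    rw [Algebra.algebraMap_eq_smul_one]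
    exact Submodule.smul_mem _ _ (Submodule.subset_span ⟨0, Subsingleton.elim _ _, by simp⟩)
  obtain ⟨H, hH⟩ := e2 c0
  choose F hF using e1
  obtain ⟨-, f2, -, f4, -, -, -, -, -, -, f11⟩ := fac c 0 _ s ![] r
  obtain ⟨-, -, -, c4, c5, -⟩ := czr c 0 _ s ![] r
  have un : ∀ (E E' : Y.PrimeDiv) x, At s (pq E) x ∧ mu s (pq E) x = 1 →
      At s (pq E') x ∧ mu s (pq E') x = 1 → E = E' := fun E E' x a b =>
    H45.pq_inj (P287D.Pl.ext' (congrArg _ (P297Z.Pl.eq_of_le' (v := (pq E).toPlace)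
      (w := (pq E').toPlace) fun g hg => by
        by_cases z : g = 0
        · exact z ▸ zero_mem _
        obtain ⟨t, n, t0, rfl⟩ := fac0 r z
        rw [← Pl.ord_nonneg_iff _ z] at hg ⊢
        have h1 := (P287D.Pl.ord_smul (pq E) t0 _).trans (ord0 r a n)
        have h2 := (P287D.Pl.ord_smul (pq E') t0 _).trans (ord0 r b n)
        exact hg.trans_eq (h1.trans h2.symm))))
  have cs : ∀ E : Y.PrimeDiv, E = H ∨ ∃ p, E = F p := fun E => by
    obtain ⟨_ | p, a⟩ := cls E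
    exacts [.inl (un _ _ _ a hH), .inr ⟨p, un _ _ _ a (hF p)⟩]
  have ne : ∀ p, H ≠ F p := fun p e => by
    have := f4 (pq (F p)) _ _ (e ▸ hH.1) (hF p).1
    cases this
  have c1 : ∀ m : Fin 1 → ℤ, comb (X := nw Y) (fun _ => .single H 1) m H = m 0 := fun m =>
    (Fin.sum_univ_one _).trans ((congrArg (m 0 * ·) Finsupp.single_eq_same).trans (mul_one _))
  have c2 : ∀ (m : Fin 1 → ℤ) p, comb (X := nw Y) (fun _ => .single H 1) m (F p) = 0 := fun m p =>
    (Fin.sum_univ_one _).trans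
      ((congrArg (m 0 * ·) (Finsupp.single_eq_of_ne (ne p).symm)).trans (mul_zero _))
  refine ⟨nw Y, s, 1, fun _ => H, r, ex', ?_, fun G => ?_⟩
  · refine (congrArg (GradedGen (c + 1)) (funext fun m => eq_of_subset_of_subset
      (fun φ h φ0 E _ => ?_) fun φ h => ?_)).mp
      (Cx.gen_of_sp (Fin.cons 1 s : Fin (c + 1) → Y.K) fun _ _ => 1)
    · obtain ⟨_, ⟨w, rfl, rfl⟩, -, k⟩ := G68.ex_span (pq E) h φ0
      refine le_trans ?_ (add_le_add_left ((k.trans (pq_ord E φ).ge)) _)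
      rw [(pq E).ord_prod _ fun j _ => pow_ne_zero _ (x_ne (ind_left96 r.ind) j),
        Fin.sum_univ_succ]
      simp only [Pl.ord_pow, Fin.cons_zero, Fin.cons_succ, Pl.ord_one, mul_zero, zero_add]
      obtain rfl | ⟨p, rfl⟩ := cs E
      · erw [c1]
        simp [c4 _ hH.1, hH.2, Cx.dg, Fin.sum_univ_succ]
      · erw [c2]
        rw [add_zero]
        exact Finset.sum_nonneg fun i _ =>
          mul_nonneg (Int.natCast_nonneg _) (c5 _ (.inr ⟨p, (hF p).1⟩) i)
    · by_cases z : φ = 0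
      · exact z ▸ zero_mem _
      obtain ⟨t, n, t0, rfl⟩ := fac0 r z
      have k : ∀ E x, At s (pq E) x ∧ mu s (pq E) x = 1 →
          0 ≤ od n x + comb (X := nw Y) (fun _ => .single H 1) m E := fun E x a =>
        (h z E trivial).trans_eq (congrArg (· + _) ((pq_ord E _).trans
          ((P287D.Pl.ord_smul (pq E) t0 _).trans (ord0 r a n))))
      have n0 : 0 ≤ n := fun p => by simpa [c2, od] using k _ _ (hF p)
      have k0 := k _ _ hH
      rw [c1] at k0
      have d0 : 0 ≤ -od n none := by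
        rw [od, neg_neg]
        exact Finset.sum_nonneg fun p _ => mul_nonneg (n0 p) (Int.natCast_nonneg _)
      obtain ⟨N, hN⟩ := Int.eq_ofNat_of_zero_le (show 0 ≤ m 0 by omega)
      refine Submodule.smul_mem _ _ (Submodule.span_mono ?_ (f11 n N n0 (by omega)))
      rintro _ ⟨w, a, rfl⟩
      refine ⟨Fin.cons (N - ∑ i, w i) w, funext fun i => ?_, by simp [Fin.prod_univ_succ]⟩
      rw [Subsingleton.elim i 0, hN, Cx.dg, Fin.sum_univ_succ]
      simp only [Fin.cons_zero, Fin.cons_succ, mul_one, Nat.cast_sub a, Nat.cast_sum]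
      ring
  · have fi : Function.Injective F := fun p p' e =>
      Option.some.inj (f4 _ _ _ (hF p).1 (e ▸ (hF p').1))
    let n : Pg c →₀ ℤ := Finsupp.comapDomain F G fi.injOn
    refine ⟨fun _ => G H - od n none, hm s ![] n 0, (f2 n 0).1, fun E _ => ?_⟩
    refine congrArg Int.cast ?_
    obtain rfl | ⟨p, rfl⟩ := cs E
    · refine Eq.trans ?_ (congrArg₂ (· + ·) ((pq_ord E _).trans (ord0 r hH n)) (c1 _)).symm
      exact (add_sub_cancel _ _).symm
    · exact ((congrArg₂ (· + ·) ((pq_ord (F p) _).trans (ord0 r (hF p) n)) (c2 _ p)).trans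
        (add_zero _)).symm

end P36

open P36 Sl Sl.Var

/-- **a projective space as the orbit space**: the class of block PQ lies in that of block CQ -/
theorem pq_cq {X : Sl.Var} {W : X.X.Opens} {x : Pt X.X} (hx : x.In W) (h : ProjectiveQuotient W) :
    ∃ c : ℕ, c ≤ dimension X.str ∧ CoxQuotient (c + 1) W := by
  obtain ⟨c, ρ, s', y, a, b, v⟩ := h
  have r' := (rat80 c ρ X.o W s' y x (S10.co_iff.2 ⟨a, b⟩) hx).1
  have hs := ind_left96 a
  obtain ⟨Y, s, k, A, r, ex, g, sp⟩ := cox c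
  obtain ⟨φ, su, e⟩ := exists_hom r hs
  obtain ⟨-, -, -, -, -, f6, f7, -⟩ := fac c ρ _ s' y r'
  have eh : ∀ n, (φ (hm s ![] n 0) : X.K) = hm s' y n 0 := fun n => by
    have : ∀ p, ((Wd.Sb s').val.comp φ) (lam s p) = lam s' p := fun p => e p.l
    change ((Wd.Sb s').val.comp φ) _ = _
    simp only [hm, mon, Pi.zero_apply, zpow_zero, Finset.prod_const_one, mul_one, Finsupp.prod,
      map_prod, map_zpow₀, this]
  have eo : ∀ (E : X.PrimeDiv) (t : ℂ) n, t ≠ 0 →
      ord (((Wd.Sb s').val.comp φ) (t • hm s ![] n 0)) E = (pq (X := X.o) E).ord (hm s' y n 0) :=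
    fun E t n t0 => by
      rw [map_smul, ← eh]
      exact (pq_ord (X := X.o) E _).trans (P287D.Pl.ord_smul _ t0 _)
  refine ⟨c, ?_, Y, (Wd.Sb s').val.comp φ, ρ, k, y, A, fun p hp => ?_, fun x hx => ?_,
    fun E hE => ?_, g, sp⟩
  · exact (Nat.cast_le.2 (Nat.le_add_right c ρ)).trans r'.ff.trdeg.ge
  · have i2 : AlgebraicIndependent (Wd.Sb s') y := ind2 r'
    refine map_injective φ.toRingHom φ.toRingHom.injective (i2 ?_)
    rw [map_zero, map_zero, aeval_def, eval₂_map]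
    exact hp
  · obtain ⟨U, u1, u2, u3, u4⟩ := b x hx
    refine ⟨U, u1, u2, u3, fun g hg => Submodule.span_mono ?_ (u4 g hg)⟩
    rintro _ ⟨i, ψ, j, m, rfl⟩
    obtain ⟨z, hz⟩ := su ⟨ψ, j⟩
    exact ⟨i, z, m, congrArg (· * _) (congrArg Subtype.val hz).symm⟩
  obtain ⟨l, l1, l2⟩ := v E hE
  have z0 : ord (((Wd.Sb s').val.comp φ) 0) E = 0 := by
    rw [map_zero]
    exact (pq_ord (X := X.o) E _).trans (Pl.ord_zero _)
  obtain q | ⟨t, q⟩ := ovhr24 pol c _ s' (pq (X := X.o) E) l hs l1 fun n g h i j k m =>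
    (pq_ord (X := X.o) E _).symm.trans ((l2 n g h i j k m).trans (pq_ord (X := X.o) E _))
  · refine .inl fun z => ?_
    by_cases z1 : z = 0
    · exact z1 ▸ z0
    obtain ⟨t, n, t0, rfl⟩ := fac0 r z1
    exact (eo E t n t0).trans ((f7 _ n 0 q).trans (by simp))
  · obtain ⟨F, hF⟩ := ex t fun w => Nat.pos_of_ne_zero fun c0 => by
      subst w c0
      simpa [mu] using q.1
    refine .inr ⟨F, mu s' (pq (X := X.o) E) t, fun z => ?_⟩
    by_cases z1 : z = 0
    · rw [z1, z0, show ord (0 : Y.K) F = 0 from (pq_ord (X := Y.o) F _).trans (Pl.ord_zero _),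
        mul_zero]
    obtain ⟨u, n, t0, rfl⟩ := fac0 r z1
    rw [eo E u n t0, show ord (u • hm s ![] n 0) F = od n t from (pq_ord (X := Y.o) F _).trans
      ((P287D.Pl.ord_smul _ t0 _).trans ((pq_ord (X := Y.o) F _).symm.trans (hF n)))]
    exact (f6 _ t n 0 q).trans (by
      rw [Finset.sum_eq_zero fun j _ => zero_mul _, zero_add])

end Vale.Agent.P283R.Cq
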