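import Vale.Agent.P283R.Cq.St
import Vale.Agent.P283R.Cq.Hw42
import Vale.Agent.P283R.Cq.Reg21

/-!
# P283R, block CQ: the package of a pair
-/

open Set

noncomputable section

namespace Vale.Agent.P283R.Cq

open Vale.Agent.P287D Vale.Agent.P283M Cx

theorem cdr46 : CDR := by
  intro cz' _ n K _ _ u Λ Γ Γ' a L _ _ _ _ l q c ρ ε b y hq hε ok hn fm co lc nf
  obtain ⟨e1, -, -, -, ⟨j, j0, ec⟩, -⟩ := cz' L K c ρ b.s y fm.ext ok.fr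
  have h0 : algebraMap L K b.h ≠ 0 := (map_ne_zero _).2 ok.can.1
  obtain ⟨g, κ, lk, r, ef, hw, av⟩ := H42.cd0 (Tv := Hz L y) (z := cz b y)
    (Ho := fun x => ∃ φ m, φ ≠ 0 ∧ x = hm y (φ : L) m) hq hε a
    ⟨⟨j * algebraMap L K b.h, mul_ne_zero j0 h0, fun P => by
      rw [← hn, ec, P297Z.Pl.ord_mul _ j0 h0, cz]
      push_cast
      linarith [e1 P]⟩, fm.fin, fm.finc, fm.eqn, fm.kt, fun φ φ0 h Q => by
      obtain ⟨ψ, rfl⟩ := fm.lau φ φ0 h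
      obtain ⟨m, m0, -, le⟩ := Wd.ord_sum_ge ψ.support (fun m => hm y (ψ m) m) φ0 Q
      exact ⟨_, ⟨_, m, Finsupp.mem_support_iff.1 m0, rfl⟩, le, fun P t v => fm.inv P t v ψ m m0⟩⟩
    co lc nf
  exact ⟨g, κ, lk, ok, hn, fm, lk.g0, r, lk.fk, ef,
    fun Q ξ rp => hw Q ξ rp.nn rp.sup fun _ ⟨φ, m, φ0, e⟩ => e ▸ (rp.eq φ m φ0).le, av⟩

end Vale.Agent.P283R.Cq
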