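import Vale.Agent.P283R.Cq.St
import Vale.Agent.P283R.Cq.Cz60
import Vale.Agent.P283R.Lx.Ld33
import Vale.Agent.P283R.To.Bas

/-!
# P283R, block CQ: the invariant form, the horizontal monomial places
-/

open Set

namespace Vale.Agent.P283R.Cq

open Vale.Agent.P287D Vale.Agent.P297Z Vale.Agent.P283R.Cx Vale.Agent.P283R.To

variable {L K : Type} [Field L] [Field K] [Algebra ℂ L] [Algebra ℂ K] [Algebra L K]
  [IsScalarTower ℂ L K] {c r : ℕ} {s : Fin c → L}

/-- the place `t 0 = 0` -/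
theorem pl80 {t : Fin (r + 1) → K} (hK : FF K (c + r + 1)) (hb : IsTranscendenceBasis L t)
    (hg : IntermediateField.adjoin L (range t) = ⊤) (hz : AlgebraicIndependent ℂ (Gp.fm s t)) :
    ∃ R : Pl K, Trv (algebraMap L K) R ∧ R.ord (t 0) = 1 ∧ (∀ i : Fin r, R.ord (t i.succ) = 0) ∧
      Gp.lg s t R = 0 := by
  let C := (IntermediateField.adjoin L (t '' {0}ᶜ)).restrictScalars ℂ
  have h1 : Algebra.trdeg C K = 1 := On.trdeg_one hb 0
  have cL : ∀ a, algebraMap L K a ∈ C := (IntermediateField.adjoin L (t '' {0}ᶜ)).algebraMap_mem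
  have ct : ∀ i, i ≠ 0 → t i ∈ C := fun i n => IntermediateField.subset_adjoin L _ ⟨i, n, rfl⟩
  have co : Ru.Co C (t 0) := eq_top_iff.2 fun x _ => by
    have m : ∀ a ∈ C, a ∈ IntermediateField.adjoin C {t 0} := fun a h =>
      (IntermediateField.adjoin C {t 0}).algebraMap_mem ⟨a, h⟩
    have : (IntermediateField.adjoin L (range t)).toSubfield ≤
        (IntermediateField.adjoin C {t 0}).toSubfield := by
      rw [IntermediateField.adjoin_toSubfield, Subfield.closure_le]
      rintro _ (⟨a, rfl⟩ | ⟨i, rfl⟩)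
      · exact m _ (cL a)
      · by_cases n : i = 0
        exacts [n ▸ IntermediateField.subset_adjoin _ _ rfl, m _ (ct i n)]
    exact this (hg ▸ trivial : x ∈ IntermediateField.adjoin L (range t))
  obtain ⟨R, a, k⟩ := Ru.liou hK h1 (co.trans h1)
  have o := co.ord_one a k
  have z : ∀ i : Fin r, R.ord (t i.succ) = 0 := fun i => Ru.hor_ord a (ct _ i.succ_ne_zero)
  refine ⟨R, fun f => a _ (cL f), o, z, ?_⟩
  let σ : Equiv.Perm (Fin (c + r + 1)) := Equiv.swap 0 (Fin.natAdd c (0 : Fin (r + 1)))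
  have mC : ∀ j : Fin (c + (r + 1)), j ≠ Fin.natAdd c 0 → Gp.fm s t j ∈ C := fun j => by
    refine Fin.addCases (fun j _ => ?_) (fun j n => ?_) j
    · simpa [Gp.fm] using cL _
    · simpa [Gp.fm] using ct j fun e => n (e ▸ rfl)
  have b := Ru.kap_pt hK (y := fun i => (Gp.fm s t ∘ σ) i.succ)
    ((hz.comp σ σ.injective).comp _ (Fin.succ_injective _)) (fun i => mC _ fun e =>
      i.succ_ne_zero (σ.injective (e.trans (Equiv.swap_apply_left _ _).symm))) a o
  have e : t 0 = (Gp.fm s t ∘ σ) 0 := by simp [σ, Gp.fm]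
  rw [e] at b
  have b' : kap (Gp.fm s t ∘ σ) R = 0 := (congrArg (kap · R) (Fin.cons_self_tail _).symm).trans b
  rw [Cb.kap_perm hK] at b'
  rw [Gp.lg, b', Fin.sum_univ_succ, o]
  simp [z]

/-- **CZ** -/
theorem cz80 : CZ := fun L K _ _ _ _ _ _ c ρ s y x hz => by
  refine ⟨fun P => ?_, fun _ _ l => Z60.cz_lies x hz l, fun _ => Gp.lg_hor x.ff' hz.ind x.ind,
    trv_or x.ff' Gp.hc, Z60.cn_eq x hz, fun v hv => ?_⟩
  · rw [Z60.lt_eq, ← Int.cast_one, ← Int.cast_add, Int.floor_intCast]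
  obtain _ | ρ := ρ
  · exact absurd (Subsingleton.elim _ _) hv
  obtain ⟨A, B, e, he, hAB, -, hv⟩ := exists_row hv
  have h : A.transpose * B.transpose = 1 := by
    rw [← Matrix.transpose_mul, mul_eq_one_comm.1 hAB, Matrix.transpose_one]
  have y0 := x.ind.ne_zero
  have hg : IntermediateField.adjoin L (range fun i => mon y (B.transpose i)) = ⊤ := by
    refine top_unique (x.gen.ge.trans (IntermediateField.adjoin_le_iff.2 ?_))
    rintro _ ⟨j, rfl⟩
    rw [← mon_row y0 h j]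
    exact prod_mem fun i _ => zpow_mem (IntermediateField.subset_adjoin _ _ (mem_range_self i)) _
  have al : Algebra.IsAlgebraic (Algebra.adjoin L (range fun i => mon y (B.transpose i))) K :=
    IntermediateField.isAlgebraic_adjoin_iff_top.1 ⟨fun a => isAlgebraic_algebraMap
      (⟨a, hg ▸ trivial⟩ : IntermediateField.adjoin L (range fun i => mon y (B.transpose i)))⟩
  obtain ⟨i1, i2⟩ := Lx.L33.lg_mon x.ff' (Gp.fm_ind hz.ind x.ind) (det_ne h)
  obtain ⟨R, a, o, z, k⟩ := pl80 x.ff' (Algebra.IsAlgebraic.isTranscendenceBasis_of_le_trdeg_of_finite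
    L _ (Gp.basis x.ind x.gen).cardinalMk_eq_trdeg.le) hg i1
  refine ⟨R, e, he, a, fun j => ?_, (i2 R).symm.trans k⟩
  rw [← mon_row y0 h j, ord_mon R (fun i => mon_ne y0 (B.transpose i)) (A.transpose j),
    Fin.sum_univ_succ, o, hv]
  simp [z]

end Vale.Agent.P283R.Cq
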