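import Vale.Agent.P283R.Cq.Rees79
import Vale.Agent.P283R.Cx.All
import Vale.Agent.P283R.Wd.Spl25

/-!
# P283R, block CQ: Gauss places over a point of the spectrum of the ring of sections
-/

open Set

noncomputable section

namespace Vale.Agent.P283R.Cq.G95

open Vale.Agent.P287D Vale.Agent.P283M Vale.Agent.P297Z Cx
open Vale.Agent.P283R.To (mon)

section dn

variable {L K : Type} [Field L] [Algebra ℂ L] [Field K] [Algebra ℂ K] [Algebra L K]
  [IsScalarTower ℂ L K] {c ρ : ℕ} {y : Fin ρ → K} {s : Fin c → L}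

/-- monomial places which are trivial on `L` -/
theorem mono (x : Ext L c y) (hs : Frm s) {v : Fin ρ → ℤ} (hv : v ≠ 0) :
    ∃ (R : Pl K) (a : ℝ), 0 < a ∧ (∀ j, (v j : ℝ) = a * R.ord (y j)) ∧
      (∀ φ : L, R.ord (algebraMap L K φ) = 0) ∧ lt s y R ≤ 0 := by
  classical
  have zi := zt_ind hs.ind x.ind
  have yi : AlgebraicIndependent ℂ y := by
    simpa [zt, Function.comp_def] using zi.comp _ (Fin.natAdd_injective ρ c)
  have r := Wd.sb_rat yi
  obtain ⟨P, e, e0, h1, h2⟩ := To.mon' _ _ _ v r hv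
  let V : Fin ρ → Fin (c + ρ) → ℤ := fun i => Pi.single (Fin.natAdd c i) 1
  have hV : LinearIndependent ℤ V :=
    (Pi.linearIndependent_single_one (Fin (c + ρ)) ℤ).comp _ (Fin.natAdd_injective ρ c)
  obtain ⟨U, l, k1, k2⟩ := To.upQ r.ff x.ff' (φ := algebraMap (Wd.Sb y) K) (fun c => rfl) zi hV
    (y := Wd.sb y) (fun i => by
      rw [mon, Finset.prod_eq_single (Fin.natAdd c i)]
      · simp [V, zt, Wd.sb]
      · intro j _ hj
        simp [V, hj]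
      · simp) P (w := Fin.append 0 fun i => (P.ord (Wd.sb y i) : ℚ)) (fun i => by
      rw [Finset.sum_eq_single (Fin.natAdd c i)]
      · simp [V]
      · intro j _ hj
        simp [V, hj]
      · simp)
  have g0 : (0 : ℝ) < U.ord (algebraMap (Wd.Sb y) K P.t) := by exact_mod_cast l.e_pos
  have s0 : ∀ i, U.ord (algebraMap L K (s i)) = 0 := fun i => by
    simpa [zt] using k1 (Fin.castAdd ρ i)
  have lt0 : lt s y U ≤ 0 := by
    have := mul_nonpos_of_nonneg_of_nonpos g0.le h2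
    rw [← k2, To.la, Fin.sum_univ_add] at this
    simp only [zt, Fin.append_left, Fin.append_right, s0] at this
    rw [lt, zt]
    simp only [Int.cast_zero, Finset.sum_const_zero, zero_add] at this
    linarith
  refine ⟨U, e / U.ord (algebraMap (Wd.Sb y) K P.t), by positivity, fun j => ?_, fun φ => ?_, lt0⟩
  · have : U.ord (y j) = _ := l.ord (Wd.sb y j)
    rw [this, h1 j]
    push_cast
    field_simp
  · rcases dwn L K c ρ s y x hs U with ⟨t, -⟩ | ⟨Q, q, k⟩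
    · have := Pl.ord_nonneg_of_mem _ (t φ)
      have := Pl.ord_nonneg_of_mem _ (t φ⁻¹)
      rw [map_inv₀, Pl.ord_inv] at this
      omega
    · have p : (0 : ℝ) < U.ord (algebraMap L K Q.t) := by exact_mod_cast q.e_pos
      have := Cb.kap_nonneg (P := Q) x.ff fun i => (q _).2 (Cb.mem_ord (s0 i).ge)
      nlinarith

/-- places of `L(y)` over a multiple of a place of `L` -/
theorem dn (x : Ext L c y) (hs : Frm s) {o : L → ℤ} {B : ℝ}
    (h : ((∀ φ, o φ = 0) ∧ 0 ≤ B) ∨ ∃ (Q : Pl L) (g : ℤ), 0 < g ∧ (∀ φ, o φ = g * Q.ord φ) ∧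
      g * (1 + kap s Q) ≤ B) (t : ℕ) (v : Fin ρ → ℤ) :
    (v = 0 ∧ (∀ φ, t * o φ = 0) ∧ 0 ≤ t * B) ∨ ∃ (R : Pl K) (a : ℝ), 0 < a ∧
      (∀ j, (v j : ℝ) = a * R.ord (y j)) ∧
      (∀ φ : L, a * R.ord (algebraMap L K φ) = t * o φ) ∧ a * lt s y R ≤ t * B := by
  by_cases z : (∀ φ, t * o φ = 0) ∧ 0 ≤ t * B
  · by_cases hv : v = 0
    · exact .inl ⟨hv, z⟩
    obtain ⟨R, a, a0, h1, h2, h3⟩ := mono x hs hv
    refine .inr ⟨R, a, a0, h1, fun φ => ?_, (mul_nonpos_of_nonneg_of_nonpos a0.le h3).trans z.2⟩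
    rw [h2]
    exact_mod_cast (mul_zero _).trans (Int.cast_eq_zero.2 (z.1 φ) : ((t * o φ : ℤ) : ℝ) = 0).symm
  have t0 : (0 : ℝ) < t := Nat.cast_pos.2 (Nat.pos_of_ne_zero fun e => z (by simp [e]))
  obtain h | ⟨Q, g, g0, h1, h2⟩ := h
  · exact (z ⟨fun φ => by simp [h.1], mul_nonneg t0.le h.2⟩).elim
  obtain ⟨U, l, k1, k2⟩ := Lif.lift x hs Q fun j => v j / (t * g)
  have p : (0 : ℝ) < U.ord (algebraMap L K Q.t) := by exact_mod_cast l.e_pos
  have g1 : (0 : ℝ) < g := by exact_mod_cast g0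
  refine .inr ⟨U, t * g / U.ord (algebraMap L K Q.t), by positivity, fun j => ?_, fun φ => ?_, ?_⟩
  · have : (U.ord (y j) : ℝ) = U.ord (algebraMap L K Q.t) * (v j / (t * g)) := by
      exact_mod_cast congrArg (Rat.cast : ℚ → ℝ) (k2 j)
    rw [this]
    field_simp
  · rw [l.ord φ, h1]
    push_cast
    field_simp
  · rw [k1, ← mul_assoc, div_mul_cancel₀ _ p.ne', mul_assoc]
    exact mul_le_mul_of_nonneg_left h2 t0.le

end dn

section pt

variable {L F : Type} [Field L] [Algebra ℂ L] [Field F] [Algebra ℂ F] [Algebra L F]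
  [IsScalarTower ℂ L F] {c k N : ℕ} {t : Fin k → F} {s : Fin c → L} {T : Set (Pl L)}
  {D : Pl L → Fin k → ℤ} {σ : Fin N → L} {α : Fin N → Fin k → ℤ}

/-- a weight of the homogeneous elements -/
structure Wt (w : L → (Fin k → ℤ) → ℝ) : Prop where
  mul : ∀ φ ψ e e', φ ≠ 0 → ψ ≠ 0 → w (φ * ψ) (e + e') = w φ e + w ψ e'
  add : ∀ φ ψ e, φ ≠ 0 → ψ ≠ 0 → φ + ψ ≠ 0 → 0 < w φ e → 0 < w ψ e → 0 < w (φ + ψ) e
  con : ∀ a : ℂ, a ≠ 0 → w (algebraMap ℂ L a) 0 = 0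

/-- a closed point on the homogeneous elements of positive weight, outside of `f` -/
theorem pt (x : Ext L c t) (hs : Frm s) (C : Cox T D σ α) {w : L → (Fin k → ℤ) → ℝ} (W : Wt w)
    (hw : ∀ j, 0 ≤ w (σ j) (α j)) {φ : L} {δ : Fin k → ℤ} (φ0 : φ ≠ 0) (hφ : φ ∈ Sp σ α δ)
    (w0 : w φ δ = 0) : ∃ p : Ideal (Rg σ α t), p.IsMaximal ∧
      (∀ b : Rg σ α t, ∀ ψ e, ψ ≠ 0 → (b : F) = hm t ψ e → 0 < w ψ e → b ∈ p) ∧
      ∀ b : Rg σ α t, (b : F) = hm t φ δ → b ∉ p := by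
  classical
  have t0 := x.ind.ne_zero
  let V : Set F := {b | ∃ ψ : (Fin k → ℤ) →₀ L, lv t ψ = b ∧ ∀ e, ψ e ≠ 0 → 0 < w (ψ e) e}
  have V0 : (0 : F) ∈ V := ⟨0, lv_zero t, fun _ h => (h rfl).elim⟩
  have Va : ∀ a ∈ V, ∀ b ∈ V, a + b ∈ V := by
    rintro _ ⟨ψ, rfl, h⟩ _ ⟨ψ', rfl, h'⟩
    refine ⟨ψ + ψ', lv_add t _ _, fun e n => ?_⟩
    rw [Finsupp.add_apply] at n ⊢
    by_cases a : ψ e = 0
    · rw [a, zero_add] at n ⊢; exact h' e n
    by_cases b : ψ' e = 0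
    · rw [b, add_zero]; exact h e a
    exact W.add _ _ _ a b n (h e a) (h' e b)
  have Vm : ∀ (χ : L) ε, (χ ≠ 0 → 0 ≤ w χ ε) → ∀ b ∈ V, hm t χ ε * b ∈ V := by
    rintro χ ε h _ ⟨ψ, rfl, k⟩
    obtain ⟨ψ', a, b⟩ := lv_shift t0 ψ χ ε
    refine ⟨ψ', b.trans (mul_comm _ _), fun e n => ?_⟩
    obtain ⟨e, rfl⟩ : ∃ e', e = e' + ε := ⟨e - ε, by simp⟩
    rw [a] at n ⊢
    rw [W.mul _ _ _ _ (left_ne_zero_of_mul n) (right_ne_zero_of_mul n)]
    exact add_pos_of_pos_of_nonneg (k e (left_ne_zero_of_mul n)) (h (right_ne_zero_of_mul n))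
  have Vs : ∀ a ∈ Rg σ α t, ∀ b ∈ V, a * b ∈ V := fun a ha => by
    induction ha using Algebra.adjoin_induction with
    | mem a h =>
      obtain ⟨j, rfl⟩ := h
      exact Vm _ _ fun _ => hw j
    | algebraMap r =>
      rw [IsScalarTower.algebraMap_apply ℂ L F, ← hm_deg0 t]
      exact Vm _ _ fun n => (W.con r fun e => n (by rw [e, map_zero])).ge
    | add a a' _ _ h h' => exact fun b hb => add_mul a a' b ▸ Va _ (h b hb) _ (h' b hb)
    | mul a a' _ _ h h' => exact fun b hb => mul_assoc a a' b ▸ h _ (h' b hb)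
  let I : Ideal (Rg σ α t) :=
    { carrier := {b | (b : F) ∈ V}
      add_mem' := fun {a b} ha hb => Va _ ha _ hb
      zero_mem' := V0
      smul_mem' := fun a b hb => Vs _ a.2 _ hb }
  have : Algebra.FiniteType ℂ (Rg σ α t) :=
    (Subalgebra.fg_iff_finiteType _).1 (aff L F c k s t x hs N T D σ α C).fg
  have : IsJacobsonRing (Rg σ α t) := isJacobsonRing_of_finiteType (A := ℂ)
  let f : Rg σ α t := ⟨hm t φ δ, mem_Rg t0 hφ⟩
  have nf : f ∉ I.radical := by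
    rintro ⟨n, ψ, a, b⟩
    have w1 : ∀ n : ℕ, w (φ ^ n) ((n : ℤ) • δ) = 0 := fun n => by
      induction n with
      | zero => simpa using W.con 1 one_ne_zero
      | succ n ih =>
        rw [pow_succ, Nat.cast_succ, add_smul, one_smul, W.mul _ _ _ _ (pow_ne_zero _ φ0) φ0, ih,
          w0, add_zero]
    have e : ψ - Finsupp.single ((n : ℤ) • δ) (φ ^ n) = 0 := lv_inj x.ind (by
      have := lv_add t (ψ - Finsupp.single ((n : ℤ) • δ) (φ ^ n))
        (Finsupp.single ((n : ℤ) • δ) (φ ^ n))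
      rw [sub_add_cancel, a, lv_single, hm_pow t0] at this
      exact left_eq_add.1 (this.trans (add_comm _ _)))
    rw [sub_eq_zero.1 e] at b
    have := b ((n : ℤ) • δ) (by simpa using fun z => (φ0 z).elim)
    rw [Finsupp.single_eq_same, w1] at this
    exact this.false
  rw [← IsJacobsonRing.out inferInstance I.radical_isRadical, Ideal.jacobson, Ideal.mem_sInf] at nf
  push Not at nf
  obtain ⟨p, ⟨p1, p2⟩, p3⟩ := nf
  refine ⟨p, p2, fun b ψ e n a h => p1 (Ideal.le_radical ⟨Finsupp.single e ψ,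
    (lv_single t e ψ).trans a.symm, fun e' z => ?_⟩), fun b a => (Subtype.ext a : b = f) ▸ p3⟩
  obtain rfl : e' = e := by_contra fun n => z (Finsupp.single_eq_of_ne n)
  rwa [Finsupp.single_eq_same]

theorem rl {m : ℕ} (n0 : 0 < m) {S : Subalgebra ℂ F} {p : Ideal S} (A : Aff m S)
    (N : IsIntegrallyClosed S) (hp : p.IsMaximal) {z : Fin m → F} (hz : Frm z) {h : F} (h0 : h ≠ 0)
    (bd : ∀ R, PDat S p R → ld z 1 h R ≤ 1) : ∃ (R : Pl F) (e : ℕ), 0 < e ∧ Cen S p R ∧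
      (∀ a ∈ p, (a : F) ≠ 0 → (e : ℤ) ≤ R.ord (a : F)) ∧ ld z 1 h R ≤ m * e := by
  obtain _ | m := m
  · exact n0.false.elim
  · exact rees_ld A N hp hz one_pos h0 bd

/-- the Rees place -/
theorem ree (x : Ext L c t) (hs : Frm s) (C : Cox T D σ α) {h : L} {e₀ : Fin k → ℤ}
    (hk : Eqv T D (kap s) h e₀) (n0 : 0 < c + k) {p : Ideal (Rg σ α t)} (hp : p.IsMaximal) :
    ∃ (R : Pl F) (e : ℕ), 0 < e ∧ Cen (Rg σ α t) p R ∧
      (∀ a ∈ p, (a : F) ≠ 0 → (e : ℤ) ≤ R.ord (a : F)) ∧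
      lt s t R - R.ord (hm t h e₀) ≤ (c + k : ℕ) * e := by
  have t0 := x.ind.ne_zero
  have p0 : ∏ i, t i ≠ 0 := Finset.prod_ne_zero_iff.2 fun i _ => t0 i
  have l : ∀ R : Pl F, ld (zt s t) 1 (hm t h e₀ * ∏ i, t i) R = lt s t R - R.ord (hm t h e₀) :=
    fun R => by
      rw [ld, lt, Pl.ord_mul _ (hm_ne t0 hk.1 _) p0, To.ord_prod R t0]
      push_cast
      ring
  have A := aff L F c k s t x hs N T D σ α C
  have Z := zt_frm x hs
  simp only [← l]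
  have b : ∀ R, PDat (Rg σ α t) p R → ld (zt s t) 1 (hm t h e₀ * ∏ i, t i) R ≤ 1 := by
    rintro R ⟨q, -, a⟩
    rw [l]
    rcases pdv L F c k s t x hs N T D σ α C R ⟨q, a⟩ with ⟨E, hE, g⟩ | z
    · rw [g.lt, g.ord _ _ hk.1, hk.2 E hE]
      push_cast
      linarith
    · rw [kah L F c k s t x hs N T D σ α C R ⟨q, a⟩ z, z _ _ hk.1]
      simp
  exact rl n0 A (nor L F c k s t x hs N T D σ α C) hp Z (mul_ne_zero (hm_ne t0 hk.1 _) p0) b

/-- the order of a homogeneous element from the masses of the pages -/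
theorem mass (x : Ext L c t) (C : Cox T D σ α) {R : Pl F} (hR : ∀ a ∈ Rg σ α t, a ∈ R.ring)
    {lam : Pl L → L} {g : Pl L → Fin k → ℤ} (l0 : ∀ p ∈ T, lam p ≠ 0)
    (l1 : ∀ p ∈ T, p.ord (lam p) + g p ⬝ᵥ D p = 1)
    (l2 : ∀ p ∈ T, ∀ p' ∈ T, p' ≠ p → p'.ord (lam p) + g p ⬝ᵥ D p' = 0) (S : Finset (Pl L)) :
    ∀ (φ : L) δ, φ ≠ 0 → ↑S ⊆ T → (∀ p ∈ T, p ∉ S → p.ord φ + δ ⬝ᵥ D p = 0) →
      R.ord (hm t φ δ) = ∑ p ∈ S, (p.ord φ + δ ⬝ᵥ D p) * R.ord (hm t (lam p) (g p)) := by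
  classical
  have t0 := x.ind.ne_zero
  induction S using Finset.induction_on with
  | empty =>
    intro φ δ φ0 _ h
    have a := Pl.ord_nonneg_of_mem _ (hR _ (mem_Rg t0 ((C.sec δ φ φ0).2 fun p hp =>
      (h p hp (by simp)).ge)))
    have b := Pl.ord_nonneg_of_mem _ (hR _ (mem_Rg t0 ((C.sec (-δ) φ⁻¹ (inv_ne_zero φ0)).2
      fun p hp => by
        have := h p hp (by simp)
        rw [Pl.ord_inv, neg_dotProduct]
        omega)))
    rw [hm_inv t0, Pl.ord_inv] at b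
    rw [Finset.sum_empty]
    omega
  | insert q S hq ih =>
    intro φ δ φ0 hS h
    rw [Finset.coe_insert, insert_subset_iff] at hS
    set n := q.ord φ + δ ⬝ᵥ D q with hn
    have z0 : lam q ^ (-n) ≠ 0 := zpow_ne_zero _ (l0 q hS.1)
    have o : ∀ p : Pl L, p.ord (φ * lam q ^ (-n)) + (δ + (-n) • g q) ⬝ᵥ D p =
        p.ord φ + δ ⬝ᵥ D p - n * (p.ord (lam q) + g q ⬝ᵥ D p) := fun p => by
      rw [Pl.ord_mul _ φ0 z0, Pl.ord_zpow, add_dotProduct, smul_dotProduct, smul_eq_mul]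
      ring
    have k := ih (φ * lam q ^ (-n)) (δ + (-n) • g q) (mul_ne_zero φ0 z0) hS.2 fun p hp m => by
      rw [o]
      by_cases e : p = q
      · rw [e, l1 q hS.1, mul_one, sub_self]
      · rw [l2 q hS.1 p hp e, h p hp (by simp [e, m]), mul_zero, sub_zero]
    rw [Finset.sum_congr rfl (g := fun p => (p.ord φ + δ ⬝ᵥ D p) * R.ord (hm t (lam p) (g p)))
      fun p m => by rw [o, l2 q hS.1 p (hS.2 m) fun e => hq (e ▸ m), mul_zero, sub_zero],
      ord_hm t0 _ (mul_ne_zero φ0 z0), map_mul, map_zpow₀,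
      Pl.ord_mul _ ((map_ne_zero _).2 φ0) (zpow_ne_zero _ ((map_ne_zero _).2 (l0 q hS.1))),
      Pl.ord_zpow] at k
    rw [Finset.sum_insert hq, ← k, ord_hm t0 _ φ0, ord_hm t0 _ (l0 q hS.1), ← hn]
    simp only [Pi.add_apply, Pi.smul_apply, smul_eq_mul, add_mul, Finset.sum_add_distrib,
      mul_assoc, ← Finset.mul_sum]
    ring

end pt

end Vale.Agent.P283R.Cq.G95
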