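import Vale.Agent.P283R.Cq.St
import Vale.Agent.P283R.Cq.Gp95
import Vale.Agent.P283R.Bh.Hel

/-!
# P283R, block CQ: the place over a point of the Cox space of the base
-/

open Set

noncomputable section

namespace Vale.Agent.P283R.Cq

open Vale.Agent.P287D Vale.Agent.P283M Vale.Agent.P297Z Cx Cy G95

/-- **GP** -/
theorem gp95 : GP := by
  intro L K _ _ _ _ _ _ c ρ b y T l Q x Em ok hx hE h0
  classical
  have kl : b.k ≤ l := (Bh.le_of_cox ok.cox).trans ok.bN
  by_cases n0 : c + b.k = 0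
  · have np : ∀ _ : Pl L, False := Cb.no_pl ((show c = 0 by omega) ▸ ok.ff)
    exact ⟨0, 1, one_pos, fun _ _ => rfl, fun _ _ => rfl, fun p => (np p).elim,
      .inl ⟨fun _ _ => by simp, by simp; positivity⟩⟩
  obtain ⟨F, _, _, _, _, t, X⟩ := Cx.ext L c b.k ok.ff
  have t0 := X.ind.ne_zero
  have C := ok.cox
  have i0 : ∀ {φ : L}, φ ≠ 0 → algebraMap L K φ ≠ 0 := fun h => (map_ne_zero _).2 h
  let w : L → (Fin b.k → ℤ) → ℝ := fun φ e => Q.ord (algebraMap L K φ) + pa e x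
  have W : Wt w := by
    refine ⟨fun φ ψ e e' a a' => ?_, fun φ ψ e a a' n p p' => ?_, fun a _ => ?_⟩
    · simp only [w, pa, map_mul, Pl.ord_mul _ (i0 a) (i0 a'), Pi.add_apply, Int.cast_add, add_mul,
        Finset.sum_add_distrib]
      ring
    · have : algebraMap L K (φ + ψ) ∈ Q.sub (pa e x + min (w φ e) (w ψ e) * (-1)) := by
        rw [map_add]
        exact add_mem (.inr (by simp only [w]; linarith [min_le_left (w φ e) (w ψ e)]))
          (.inr (by simp only [w]; linarith [min_le_right (w φ e) (w ψ e)]))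
      have := this.resolve_left (i0 n)
      simp only [w] at *
      linarith [lt_min p p']
    · simp [w, pa, ← IsScalarTower.algebraMap_apply, Q.ord_const]
  have sp : ∀ p ∈ b.T, b.lam p ∈ Sp b.σ b.a (b.dg p) := fun p hp =>
    (C.sec _ _ (ok.l0 p)).2 fun p' hp' => by
      rw [ok.lam p hp p' hp']
      split_ifs <;> simp
  have pr : ∀ E : Finset (Pl L), ↑E ⊆ Em → ∃ φ δ, φ ≠ 0 ∧ φ ∈ Sp b.σ b.a δ ∧ w φ δ = 0 ∧
      hm t φ δ = ∏ p ∈ E, hm t (b.lam p) (b.dg p) := fun E => by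
    induction E using Finset.induction_on with
    | empty => exact fun _ => ⟨1, 0, one_ne_zero, (C.sec _ _ one_ne_zero).2 fun _ _ => by simp,
        by simp [w, pa], by simp [hm_one]⟩
    | insert p E hp ih =>
      intro h
      rw [Finset.coe_insert, insert_subset_iff] at h
      obtain ⟨φ, δ, a1, a2, a3, a4⟩ := ih h.2
      exact ⟨_, _, mul_ne_zero (ok.l0 p) a1, sp_mul (sp p (h0 p h.1).1) a2,
        by rw [W.mul _ _ _ _ (ok.l0 p) a1, a3, add_zero]; exact (h0 p h.1).2,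
        by rw [hm_mul t0, a4, Finset.prod_insert hp]⟩
  obtain ⟨φ, δ, φ0, φ1, φ2, φ3⟩ := pr hE.toFinset (by simp)
  obtain ⟨p, pm, p1, p2⟩ := pt X ok.fr C W hx φ0 φ1 φ2
  obtain ⟨R, e, e0, cen, ge, bd⟩ := ree X ok.fr C ok.can (Nat.pos_of_ne_zero n0) pm
  have hR : ∀ a ∈ Rg b.σ b.a t, a ∈ R.ring := fun a h => (cen ⟨a, h⟩).1
  have nn : ∀ q ∈ b.T, 0 ≤ R.ord (hm t (b.lam q) (b.dg q)) := fun q h =>
    Pl.ord_nonneg_of_mem _ (hR _ (mem_Rg t0 (sp q h)))
  let m : Pl L → ℕ := fun q => if q ∈ b.T then (R.ord (hm t (b.lam q) (b.dg q))).toNat else 0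
  have m0 : ∀ q, q ∉ b.T → m q = 0 := fun q h => if_neg h
  have m1 : ∀ q ∈ b.T, (m q : ℤ) = R.ord (hm t (b.lam q) (b.dg q)) := fun q h => by
    simp only [m, if_pos h, Int.toNat_of_nonneg (nn q h)]
  have ms := mass X C hR (lam := b.lam) (g := b.dg) (fun q _ => ok.l0 q)
    (fun q h => by rw [ok.lam q h q h, if_pos rfl]) fun q h q' h' n => by
      rw [ok.lam q h q' h', if_neg n]
  have f1 : ∀ ψ : L, ψ ≠ 0 → ∑ᶠ q, (m q : ℤ) * q.ord ψ = R.ord (algebraMap L F ψ) := fun ψ n => by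
    rw [← hm_deg0 t, ms (C.fin ψ 0).toFinset ψ 0 n (fun q h => by simp at h; exact h.1)
      (fun q h k => by simpa [h] using k), finsum_eq_sum_of_support_subset _
        (s := (C.fin ψ 0).toFinset) fun q h => ?_]
    · refine Finset.sum_congr rfl fun q h => ?_
      rw [m1 q ((C.fin ψ 0).mem_toFinset.1 h).1, zero_dotProduct, add_zero, mul_comm]
    · have h' : (m q : ℤ) * q.ord ψ ≠ 0 := h
      refine (C.fin ψ 0).mem_toFinset.2 ⟨by_contra fun z => h' (by simp [m0 q z]), ?_⟩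
      simpa using right_ne_zero_of_mul h'
  have f2 : R.ord (hm t b.h b.e) =
      R.ord (algebraMap L F b.h) + ∑ q ∈ b.S, m q * (b.e ⬝ᵥ b.D q) := by
    have := ms (b.S.filter (· ∈ b.T)) 1 b.e one_ne_zero (fun q h => by simp at h; exact h.2)
      fun q h k => by rw [ok.sup q h (by simpa [h] using k)]; simp
    rw [ord_hm t0 _ one_ne_zero, map_one, Pl.ord_one, zero_add] at this
    rw [ord_hm t0 _ ok.can.1, this, Finset.sum_filter]
    refine congrArg _ (Finset.sum_congr rfl fun q _ => ?_)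
    split_ifs with h
    · rw [m1 q h, Pl.ord_one, zero_add, mul_comm]
    · simp [m0 q h]
  have kl' : ((c + b.k : ℕ) : ℝ) * e ≤ (((c + l) * e : ℤ) : ℝ) := by
    push_cast
    gcongr
  rw [f2] at bd
  refine ⟨m, e, e0, fun q h => ?_, m0, fun q h a => ?_, ?_⟩
  · have z : R.ord (hm t φ δ) = 0 := by
      have := (cen ⟨_, mem_Rg t0 φ1⟩).2.not.1 (p2 _ rfl)
      rw [Cb.rd_eq_zero (hR _ (mem_Rg t0 φ1)), Cb.mx_iff, not_or] at this
      exact le_antisymm (not_lt.1 this.2) (Pl.ord_nonneg_of_mem _ (hR _ (mem_Rg t0 φ1)))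
    have s : ∀ E : Finset (Pl L), R.ord (∏ p ∈ E, hm t (b.lam p) (b.dg p)) =
        ∑ p ∈ E, R.ord (hm t (b.lam p) (b.dg p)) := fun E => by
      induction E using Finset.induction_on with
      | empty => simp
      | insert p E hp ih =>
        rw [Finset.prod_insert hp, Finset.sum_insert hp, Pl.ord_mul _ (hm_ne t0 (ok.l0 p) _)
          (Finset.prod_ne_zero_iff.2 fun p _ => hm_ne t0 (ok.l0 p) _), ih]
    rw [φ3, s, Finset.sum_eq_zero_iff_of_nonneg fun p k =>
      nn p (h0 p (hE.mem_toFinset.1 k)).1] at z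
    exact_mod_cast (m1 q (h0 q h).1).trans (z q (hE.mem_toFinset.2 h))
  · have := ge _ (p1 ⟨_, mem_Rg t0 (sp q h)⟩ _ _ (ok.l0 q) rfl a) (hm_ne t0 (ok.l0 q) _)
    exact_mod_cast this.trans (m1 q h).ge
  · rcases dwn L F c b.k b.s t X ok.fr R with ⟨tr, k⟩ | ⟨P, q, k⟩
    · have z : ∀ ψ : L, R.ord (algebraMap L F ψ) = 0 := fun ψ => by
        have := Pl.ord_nonneg_of_mem _ (tr ψ)
        have := Pl.ord_nonneg_of_mem _ (tr ψ⁻¹)
        rw [map_inv₀, Pl.ord_inv] at this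
        omega
      refine .inl ⟨fun ψ n => (f1 ψ n).trans (z ψ), ?_⟩
      rw [z, zero_add] at bd
      rw [← Int.cast_le (R := ℝ), Int.cast_add, Int.cast_zero]
      linarith
    · obtain ⟨a, ha⟩ := Int.eq_ofNat_of_zero_le q.e_pos.le
      refine .inr ⟨P, a, by have := q.e_pos; omega, fun ψ n => by rw [f1 ψ n, q.ord, ha], ?_⟩
      rw [q.ord, ha] at bd
      rw [ha] at k
      rw [Int.cast_add]
      push_cast at bd k kl' ⊢
      linarith

/-- **GPR** -/
theorem gpr95 : GPR := fun _ => gp95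

end Vale.Agent.P283R.Cq
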