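import Vale.Agent.P283R.Cq.Exp38
import Vale.Agent.P283R.Pq.Gt68

/-!
# P283R, block CQ: the weights of Goldman and Tucker over a base with a Cox ring
-/

set_option linter.all false

open Set

noncomputable section

namespace Vale.Agent.P283R.Cq.T38

open Vale.Agent.P287D Vale.Agent.P297Z Vale.Agent.P283R.To
open Cx (Sp dg)

variable {K L : Type} [Field K] [Algebra ℂ K] [Field L] [Algebra ℂ L] {ι : Type} {k N ρ : ℕ}

theorem mon0 (y : Fin ρ → K) : mon y 0 = 1 := by simp [mon]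

theorem mon_add' {y : Fin ρ → K} (y0 : ∀ j, y j ≠ 0) (u v : Fin ρ → ℤ) :
    mon y (u + v) = mon y u * mon y v := by
  simp only [mon, Pi.add_apply, zpow_add₀ (y0 _), Finset.prod_mul_distrib]

/-- **the weights of Goldman and Tucker**: `Kp` the kept primes, `I` the special pages -/
theorem gtp [DecidableEq ι] (i : L →ₐ[ℂ] K) {y : Fin ρ → K} (y0 : ∀ j, y j ≠ 0)
    (T Kp : Set (Pl K)) (nt : Pl K → Prop) (pl : ι → Pl L) (w : ι → Prop) (D : ι → Fin k → ℤ)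
    {σ : Fin N → L} {α : Fin N → Fin k → ℤ} (s0 : ∀ j, σ j ≠ 0)
    (sec : ∀ e φ, φ ≠ 0 → (φ ∈ Sp σ α e ↔ ∀ p, w p → 0 ≤ (pl p).ord φ + e ⬝ᵥ D p))
    (I : Finset ι) (lam : ι → L) (g : ι → Fin k → ℤ) (l0 : ∀ p, w p → lam p ≠ 0)
    (hl : ∀ p, w p → ∀ p', w p' → (pl p').ord (lam p) + g p ⬝ᵥ D p' = if p' = p then 1 else 0)
    (hD : ∀ p, w p → p ∉ I → D p = 0 ∧ ∀ j, (pl p).ord (σ j) = 0)
    (finL : ∀ φ : L, {p | w p ∧ (pl p).ord φ ≠ 0}.Finite)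
    (finK : ∀ a : K, {P | P ∈ T ∧ P.ord a ≠ 0}.Finite) (kf : Kp.Finite)
    (kt : ∀ P ∈ Kp, P ∈ T ∧ nt P ∧ ((∀ φ, φ ≠ 0 → P.ord (i φ) = 0) ∨ ∃ p ∈ I, w p ∧ ∃ μ : ℤ,
      0 ≤ μ ∧ ∀ φ, φ ≠ 0 → P.ord (i φ) = μ * (pl p).ord φ))
    (ot : ∀ P ∈ T, P ∉ Kp → (∀ φ, φ ≠ 0 → ∀ u, P.ord (i φ * mon y u) = 0) ∨
      ∃ p ∉ I, w p ∧ ∀ φ, φ ≠ 0 → ∀ u, P.ord (i φ * mon y u) = (pl p).ord φ)
    (ex : ∀ p ∉ I, w p → ∃ P ∈ T, P ∉ Kp ∧ nt P ∧
      ∀ φ, φ ≠ 0 → ∀ u, P.ord (i φ * mon y u) = (pl p).ord φ)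
    (Q : Pl K) (ov : ∀ a : K, a ≠ 0 → (∀ P ∈ T, 0 ≤ P.ord a) → 0 ≤ Q.ord a) :
    ∃ (ζ : Pl K → ℝ) (χ : K), 0 ≤ ζ ∧ (∀ P, ζ P ≠ 0 → P ∈ T ∧ nt P) ∧
      (∀ φ, φ ≠ 0 → ∀ u, ∑ᶠ P, ζ P * P.ord (i φ * mon y u) = Q.ord (i φ * mon y u)) ∧ χ ≠ 0 ∧
      Q.ord χ = 0 ∧ (∀ P ∈ T, 0 ≤ P.ord χ) ∧ ∀ P ∈ Kp, (ζ P = 0 ↔ 0 < P.ord χ) := by
  classical
  have i0 : ∀ φ : L, φ ≠ 0 → i φ ≠ 0 := fun φ a => (map_ne_zero i).2 a
  have h0 : ∀ φ : L, φ ≠ 0 → ∀ u, i φ * mon y u ≠ 0 := fun φ a u =>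
    mul_ne_zero (i0 φ a) (mon_ne y0 u)
  obtain ⟨F, hF⟩ : ∃ F : Finset (Pl K), ∀ P, P ∈ F ↔ P ∈ Kp := ⟨kf.toFinset, fun _ => kf.mem_toFinset⟩
  let Λ : AddSubgroup (Additive Lˣ × (Fin ρ → ℤ)) :=
    { carrier := {l | ∀ p, w p → p ∉ I → (pl p).ord (l.1.toMul : L) = 0}
      zero_mem' := fun p _ _ => by simp
      add_mem' := fun {a b} ha hb p z z' => by
        rw [Prod.fst_add, toMul_add, Units.val_mul, Pl.ord_mul _ (Units.ne_zero _) (Units.ne_zero _),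
          ha p z z', hb p z z', add_zero]
      neg_mem' := fun {a} ha p z z' => by
        rw [Prod.fst_neg, toMul_neg, Units.val_inv_eq_inv_val, Pl.ord_inv, ha p z z', neg_zero] }
  let O : Pl K → Λ →+ ℤ := fun R => AddMonoidHom.mk'
    (fun l => R.ord (i (l.1.1.toMul : L) * mon y l.1.2)) fun a b => by
      simp only [AddSubgroup.coe_add, Prod.fst_add, Prod.snd_add, toMul_add, Units.val_mul, map_mul]
      rw [mon_add' y0, mul_mul_mul_comm,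
        Pl.ord_mul _ (h0 _ (Units.ne_zero _) _) (h0 _ (Units.ne_zero _) _)]
  have reg : ∀ l : Λ, (∀ E : F, 0 ≤ O E l) → ∀ P ∈ T,
      0 ≤ P.ord (i (l.1.1.toMul : L) * mon y l.1.2) := fun l a P t => by
    by_cases z : P ∈ Kp
    · exact a ⟨P, (hF P).2 z⟩
    obtain b | ⟨p, b, c, d⟩ := ot P t z
    · exact (b _ (Units.ne_zero _) _).ge
    · exact ((d _ (Units.ne_zero _) _).trans (l.2 p c b)).ge
  obtain ⟨ξ, l₀, ξ0, h1', h2⟩ := Pq.G68.gt' (AddMonoidHom.pi fun E : F => O E) (O Q) fun l a =>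
    ov _ (h0 _ (Units.ne_zero _) _) (reg l a)
  have h1 : ∀ φ, φ ≠ 0 → (∀ p, w p → p ∉ I → (pl p).ord φ = 0) → ∀ u,
      ∑ E : F, ξ E * E.1.ord (i φ * mon y u) = Q.ord (i φ * mon y u) := fun φ a b u =>
    h1' ⟨(Additive.ofMul (Units.mk0 φ a), u), b⟩
  have lo : ∀ p, w p → ∀ p', w p' → p' ∉ I → (pl p').ord (lam p) = if p' = p then 1 else 0 :=
    fun p a p' b c => by rw [← hl p a p' b, (hD p' b c).1, dotProduct_zero, add_zero]
  have nn : ∀ φ, φ ≠ 0 → (∀ p, w p → p ∉ I → 0 ≤ (pl p).ord φ) →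
      0 ≤ (Q.ord (i φ) : ℝ) - ∑ E : F, ξ E * E.1.ord (i φ) := fun φ a b => by
    have m : ∀ p, p ∈ I.filter w ↔ p ∈ I ∧ w p := fun p => Finset.mem_filter
    have sp := X38.exp38 pl w D s0 sec (I.filter w) lam g (fun p c => l0 p ((m p).1 c).2)
      (fun p c => hl p ((m p).1 c).2) a fun p c d => b p c fun e => d ((m p).2 ⟨e, c⟩)
    rw [sub_eq_add_neg]
    refine ((Q.mem_sub (r := -∑ E : F, ξ E * E.1.ord (i φ))).1 (Submodule.span_le.2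
      (?_ : _ ⊆ ((Q.sub _).comap i.toLinearMap : Set L)) sp)).resolve_left (i0 φ a)
    rintro x ⟨n, τ, ex, hx⟩
    have l1 : ∀ p : I.filter w, lam p ≠ 0 := fun p => l0 p ((m p).1 p.2).2
    have t1 : ∀ j ∈ Finset.univ, σ j ^ τ j ≠ 0 := fun j _ => pow_ne_zero _ (s0 j)
    have t0 := Finset.prod_ne_zero_iff.2 t1
    have x0 : x ≠ 0 := ex ▸ mul_ne_zero (mon_ne l1 n) t0
    have e := h1 x x0 (fun p c d => by
      rw [ex, Pl.ord_mul _ (mon_ne l1 n) t0, ord_mon _ l1, Pl.ord_prod _ _ t1,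
        Finset.sum_eq_zero fun p' _ => by
          rw [lo _ ((m _).1 p'.2).2 p c d, if_neg fun z : p = p'.1 => d (z ▸ ((m _).1 p'.2).1), mul_zero],
        Finset.sum_eq_zero fun j _ => by rw [Pl.ord_pow, (hD p c d).2, mul_zero], add_zero]) 0
    rw [mon0, mul_one] at e
    refine (Q.mem_sub).2 (Or.inr ?_)
    show 0 ≤ (Q.ord (i x) : ℝ) + _
    rw [← e, ← sub_eq_add_neg, sub_nonneg]
    refine Finset.sum_le_sum fun E _ => mul_le_mul_of_nonneg_left (Int.cast_le.2 ?_) (ξ0 E)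
    obtain c | ⟨p, c, d, μ, μ0, c'⟩ := (kt E ((hF E).1 E.2)).2.2
    · rw [c _ a, c _ x0]
    · rw [c' _ a, c' _ x0]
      exact mul_le_mul_of_nonneg_left (hx p ((m p).2 ⟨c, d⟩) d) μ0
  choose b bT bK bn bA using fun r : {r // w r ∧ r ∉ I} => ex r r.2.2 r.2.1
  have bi : Function.Injective b := fun r r' e => by
    have a := bA r _ (l0 _ r.2.1) 0
    rw [e, bA r' _ (l0 _ r.2.1) 0, lo _ r.2.1 _ r'.2.1 r'.2.2, lo _ r.2.1 _ r.2.1 r.2.2,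
      if_pos rfl] at a
    exact Subtype.ext (by_contra fun z => by rw [if_neg fun z' => z z'.symm] at a; omega)
  let hv : {r // w r ∧ r ∉ I} → ℝ := fun r =>
    (Q.ord (i (lam r)) : ℝ) - ∑ E : F, ξ E * E.1.ord (i (lam r))
  have v0 : ∀ r, 0 ≤ hv r := fun r => nn _ (l0 _ r.2.1) fun p c d => by
    rw [lo _ r.2.1 p c d]
    split_ifs <;> omega
  let ζ₁ : Pl K → ℝ := Function.extend Subtype.val ξ 0
  let ζ₂ : Pl K → ℝ := Function.extend b hv 0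
  have z1 : ∀ E, ζ₁ E ≠ 0 → E ∈ F := fun E z => by_contra fun e =>
    z (Function.extend_apply' _ _ _ fun ⟨E', e'⟩ => e (e' ▸ E'.2))
  have z2 : ∀ E, ζ₂ E ≠ 0 → ∃ r, b r = E := fun E z => by_contra fun e =>
    z (Function.extend_apply' _ _ _ e)
  have w1 : ∀ E, ζ₁ E ≠ 0 → E ∈ T ∧ nt E := fun E z =>
    ⟨(kt E ((hF E).1 (z1 E z))).1, (kt E ((hF E).1 (z1 E z))).2.1⟩
  have w2 : ∀ E, ζ₂ E ≠ 0 → E ∈ T ∧ nt E := fun E z => by
    obtain ⟨r, rfl⟩ := z2 E z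
    exact ⟨bT r, bn r⟩
  have ff : ∀ ζ : Pl K → ℝ, (∀ E, ζ E ≠ 0 → E ∈ T ∧ nt E) → ∀ a : K,
      (Function.support fun E => ζ E * (E.ord a : ℝ)).Finite := fun ζ h a =>
    (finK a).subset fun E c => ⟨(h E (left_ne_zero_of_mul c)).1,
      Int.cast_ne_zero.1 (right_ne_zero_of_mul c)⟩
  have sm : ∀ a : K, ∑ᶠ E, (ζ₁ E + ζ₂ E) * E.ord a =
      ∑ E : F, ξ E * E.1.ord a + ∑ᶠ r, hv r * (b r).ord a := fun a => by
    simp only [add_mul]
    rw [finsum_add_distrib (ff _ w1 a) (ff _ w2 a), Pq.H45.fs_ext Subtype.val_injective,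
      Pq.H45.fs_ext bi, finsum_eq_sum_of_fintype]
  refine ⟨fun E => ζ₁ E + ζ₂ E, i (l₀.1.1.toMul : L) * mon y l₀.1.2, fun E => add_nonneg ?_ ?_,
    fun E z => ?_, fun φ a u => ?_, h0 _ (Units.ne_zero _) _, ?_, reg l₀ fun E => (h2 E).1,
    fun E t => ?_⟩
  · by_cases e : ζ₁ E = 0
    · exact e.ge
    · exact (ξ0 ⟨E, z1 E e⟩).trans_eq (Subtype.val_injective.extend_apply ξ 0 ⟨E, z1 E e⟩).symm
  · by_cases e : ζ₂ E = 0
    · exact e.ge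
    · obtain ⟨r, rfl⟩ := z2 E e
      exact (v0 r).trans_eq (bi.extend_apply hv 0 r).symm
  · by_cases e : ζ₁ E = 0
    · exact w2 E fun e' => z (show ζ₁ E + ζ₂ E = 0 by rw [e, e', add_zero])
    · exact w1 E e
  · obtain ⟨Z, hZ⟩ : ∃ Z : Finset {r // w r ∧ r ∉ I}, ∀ r, r ∈ Z ↔ (pl r).ord φ ≠ 0 :=
      have f := ((finL φ).preimage (Subtype.val_injective (p := fun r => w r ∧ r ∉ I)).injOn)
      ⟨f.toFinset, fun r => f.mem_toFinset.trans ⟨And.right, fun c => ⟨r.2.1, c⟩⟩⟩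
    have l1 : ∀ r : Z, lam r ≠ 0 := fun r => l0 _ r.1.2.1
    let n : Z → ℤ := fun r => (pl r).ord φ
    have m0 := mon_ne l1 n
    have a' := div_ne_zero a m0
    have sp : ∀ R : Pl K, R.ord (i φ * mon y u) = R.ord (i (φ / mon (fun r : Z => lam r) n) *
        mon y u) + ∑ r : Z, n r * R.ord (i (lam r)) := fun R => by
      rw [← ord_mon R (fun r => i0 _ (l1 r)) n,
        ← Pl.ord_mul _ (h0 _ a' u) (mon_ne (fun r => i0 _ (l1 r)) n), mul_right_comm,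
        show mon (fun r : Z => i (lam r)) n = i (mon (fun r : Z => lam r) n) by
          simp only [mon, map_prod, map_zpow₀], ← map_mul, div_mul_cancel₀ _ m0]
    have e := h1 _ a' (fun p c d => by
      rw [Pl.ord_div _ a m0, ord_mon _ l1, Finset.sum_congr rfl fun (r : Z) _ =>
        show _ = n r * if (⟨p, c, d⟩ : {r // w r ∧ r ∉ I}) = r then 1 else 0 by
          rw [lo _ r.1.2.1 p c d]
          simp only [Subtype.ext_iff],
        Finset.sum_coe_sort Z fun r => (pl r).ord φ *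
          if (⟨p, c, d⟩ : {r // w r ∧ r ∉ I}) = r then 1 else 0]
      by_cases z : (pl p).ord φ = 0 <;> simp [hZ, z]) u
    rw [sm, finsum_eq_sum_of_support_subset (s := Z) _ fun r c => (hZ r).2 fun z =>
      c (by simp only [bA r φ a u, z, Int.cast_zero, mul_zero]), ← Finset.sum_coe_sort Z, sp Q]
    simp only [bA _ φ a u, fun E : F => sp E, hv]
    push_cast
    rw [← e]
    simp only [mul_add, Finset.sum_add_distrib, sub_mul, Finset.sum_sub_distrib, Finset.mul_sum,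
      Finset.sum_mul]
    rw [Finset.sum_comm (s := Finset.univ) (t := (Finset.univ : Finset Z))]
    simp only [n, mul_comm, mul_left_comm, mul_assoc]
    ring
  · rw [← Int.cast_inj (α := ℝ), ← h1 _ (Units.ne_zero _) l₀.2, Int.cast_zero]
    refine Finset.sum_eq_zero fun E _ => ?_
    obtain d | d := (h2 E).1.eq_or_lt
    · exact mul_eq_zero_of_right _ (Int.cast_eq_zero.2 d.symm)
    · exact mul_eq_zero_of_left ((h2 E).2.2 d) _
  · have m := (hF E).2 t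
    have d : ζ₂ E = 0 := by_contra fun d => by
      obtain ⟨r, rfl⟩ := z2 E d
      exact bK r t
    have d' : ζ₁ E = ξ ⟨E, m⟩ := Subtype.val_injective.extend_apply ξ 0 ⟨E, m⟩
    simp only [d, d', add_zero]
    exact (h2 ⟨E, m⟩).2

end Vale.Agent.P283R.Cq.T38
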