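import Vale.Agent.P283R.Cq.St
import Vale.Agent.P283R.Cq.Gt38
import Vale.Agent.P283R.Cq.Cz60

/-!
# P283R, block CQ: Goldman and Tucker
-/

open Set

noncomputable section

namespace Vale.Agent.P283R.Cq

open Vale.Agent.P287D Vale.Agent.P283M Cx
open Vale.Agent.P283R.To (mon mon_ne ord_mon)

namespace G4

variable {L K : Type} [Field L] [Algebra ℂ L] [Field K] [Algebra ℂ K] [Algebra L K] {c ρ : ℕ}
  {b : Ba L c} {y : Fin ρ → K} {T : Set (Pl K)} {P : Pl K} {p : Pl L}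

omit [Algebra ℂ L] in
theorem ord_hm (y0 : ∀ j, y j ≠ 0) (h : ∀ j, P.ord (y j) = 0) {φ : L} (φ0 : φ ≠ 0)
    (u : Fin ρ → ℤ) : P.ord (hm y φ u) = P.ord (algebraMap L K φ) := by
  rw [hm, P.ord_mul ((map_ne_zero _).2 φ0) (mon_ne y0 u), ord_mon _ y0]
  simp [h]

theorem page (X : Fm b y T) (hP : P ∈ T) (l : At P p) : p ∈ b.T := by
  obtain t | ⟨p', a, l'⟩ := X.pg P hP
  · exact absurd (Z60.of_trv t p.t) l.e_pos.ne'
  · exact l'.uniq l ▸ a

theorem kt_fin (X : Fm b y T) (I : Finset (Pl L)) : (Kt y T I).Finite := by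
  refine ((finite_iUnion fun j => X.fin (y j)).union
    (I.finite_toSet.biUnion fun p _ => X.fin (algebraMap L K p.t))).subset fun P h => ?_
  obtain t | ⟨p, -, l⟩ := X.pg P h.1
  · refine .inl (by_contra fun n => h.2.1 fun φ u φ0 => ?_)
    rw [ord_hm X.ext.ind.ne_zero (fun j => by_contra fun z => n (mem_iUnion.2 ⟨j, h.1, z⟩)) φ0,
      Z60.of_trv t]
  · exact .inr (mem_biUnion (by_contra fun n => h.2.2 p n l) ⟨h.1, l.e_pos.ne'⟩)

end G4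

open G4 in
/-- **GT** -/
theorem gt4 : GT := by
  intro L K _ _ _ _ _ _ c ρ b y T l ψ κ I Q ok X o ov
  classical
  have y0 := X.ext.ind.ne_zero
  have od : ∀ P ∈ T, ∀ p ∉ I, At P p → ∀ φ : L, φ ≠ 0 → ∀ u, P.ord (hm y φ u) = p.ord φ :=
    fun P hP p n a φ φ0 u => by
      rw [ord_hm y0 (fun j => o.y0 P hP p n a j (y0 j)) φ0, a.ord]
      exact (congrArg (· * _) (o.od.od P hP p n a).1).trans (one_mul _)
  obtain ⟨ζ, χ, ζ0, hζ, h1, χ0, h2, h3, h4⟩ := T38.gtp (IsScalarTower.toAlgHom ℂ L K) y0 T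
    (Kt y T I) (fun P => ¬ Hz L y P) id (· ∈ b.T) b.D ok.cox.ne ok.cox.sec I b.lam b.dg
    (fun p _ => ok.l0 p) (fun p a p' a' => ok.lam p a p' a')
    (fun p a n => ⟨ok.sup p a fun z => n (o.od.co z), fun j => o.s0 j p a n⟩)
    (fun φ => by simpa using ok.cox.fin φ 0) X.fin (kt_fin X I)
    (fun P h => ⟨h.1, h.2.1, (X.pg P h.1).imp (fun t φ _ => Z60.of_trv t φ) fun ⟨p, a, l⟩ =>
      ⟨p, by_contra fun n => h.2.2 p n l, a, _, l.e_pos.le, fun φ _ => l.ord φ⟩⟩)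
    (fun P hP n => by
      by_cases z : Hz L y P
      · exact .inl fun φ φ0 u => z φ u φ0
      · obtain ⟨p, a, l⟩ : ∃ p ∉ I, At P p := by_contra fun m =>
          n ⟨hP, z, fun p a l => m ⟨p, a, l⟩⟩
        exact .inr ⟨p, a, page X hP l, od P hP p a l⟩)
    (fun p n a => by
      obtain ⟨P, hP, l⟩ := o.ex p a n
      refine ⟨P, hP, fun h => h.2.2 p n l, fun z => ?_, od P hP p n l⟩
      have := z p.t 0 p.t_ne
      rw [od P hP p n l _ p.t_ne, p.ord_t] at this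
      exact one_ne_zero this) Q ov
  exact ⟨{P | P ∈ Kt y T I ∧ ζ P = 0}, χ, ζ, (kt_fin X I).subset fun _ h => h.1, fun _ h => h.1,
    χ0, h3, fun P h => (h4 P h.1).1 h.2, h2,
    ⟨ζ0, fun P h => ⟨⟨(hζ P h).1, fun z => h z.2⟩, (hζ P h).2⟩, fun φ u φ0 => h1 φ φ0 u⟩,
    fun P h => (ζ0 P).lt_of_ne' fun z => h.1.2 ⟨⟨h.1.1, h.2⟩, z⟩⟩

end Vale.Agent.P283R.Cq
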