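import Mathlib
import Vale.Agent.P283R.Wd.Gap25

/-!
# P283R, block CQ: the count of the pages, the abstract form
-/

open Set

noncomputable section

namespace Vale.Agent.P283R.Cq.C67

variable {ι Ω U : Type} {ρ q : ℕ}

theorem le_fs {f : ι → ℝ} (hf : (Function.support f).Finite) (f0 : ∀ E, 0 ≤ f E) (D : Finset ι) :
    ∑ E ∈ D, f E ≤ ∑ᶠ E, f E := by
  classical
  rw [finsum_eq_sum_of_support_subset f (s := D ∪ hf.toFinset) (by simp)]
  exact Finset.sum_le_sum_of_subset_of_nonneg Finset.subset_union_left fun E _ _ => f0 E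

theorem den (V : Fin ρ → ℚ) : ∃ (t : ℕ) (v : Fin ρ → ℤ), 0 < t ∧ ∀ j, t * V j = v j := by
  choose k hk using fun j => Finset.dvd_prod_of_mem (fun j => (V j).den) (Finset.mem_univ j)
  refine ⟨∏ j, (V j).den, fun j => k j * (V j).num, Finset.prod_pos fun j _ => (V j).den_pos,
    fun j => ?_⟩
  rw [hk j]
  push_cast
  rw [mul_right_comm, Rat.den_mul_eq_num, mul_comm]

open Classical in
/-- the inequality for the weights with the prescribed masses of the pages -/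
def Ct (At : ι → Ω → Prop) (μ : ι → ℤ) (n : ι → Fin ρ → ℤ) (m : Ω → ℕ) (S : Finset U)
    (Z : U → ι → ℤ) (A : ℕ) : Prop :=
  ∀ (t : ℕ) (v : Fin ρ → ℤ) (η : ι → ℝ), 0 < t → 0 ≤ η → (∀ E, η E ≠ 0 → ∃ r, At E r) →
    (∀ r, ∑ᶠ E, η E * (if At E r then μ E else 0 : ℤ) = t * m r) →
    (∀ j, ∑ᶠ E, η E * n E j = v j) → ∃ u ∈ S, ∑ᶠ E, η E * Z u E ≤ t * A

variable {At : ι → Ω → Prop} {μ : ι → ℤ} {n : ι → Fin ρ → ℤ} {m : Ω → ℕ} {S : Finset U}
  {Z : U → ι → ℤ} {A : ℕ}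

open Classical in
theorem cnt (μ1 : ∀ E r, At E r → 1 ≤ μ E)
    (m2 : ∀ r, (¬ ∃ E, At E r) → m r = 0) (Z0 : ∀ u ∈ S, ∀ E r, At E r → 0 ≤ Z u E)
    (Zf : ∀ u ∈ S, {E | (∃ r, At E r) ∧ Z u E ≠ 0}.Finite) (H : Ct At μ n m S Z A)
    (π : ι → Ω) (hπ : ∀ E r, At E r → π E = r) (I : Set Ω) (hI : ∀ r ∈ I, 1 ≤ m r) (D : Finset ι)
    (hD : ∀ E ∈ D, At E (π E) ∧ π E ∈ I) (ξ : ι → ℚ) (ξ0 : ∀ E, 0 ≤ ξ E)
    (h1 : ∀ r ∈ I, ∑ E ∈ D with π E = r, ξ E * μ E = 1) :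
    ∃ u ∈ S, ∑ E ∈ D, ξ E * Z u E ≤ A := by
  obtain ⟨θ, θ0, θ1, θ2, θ3⟩ : ∃ θ : Ω → ι → ℚ, (∀ r E, 0 ≤ θ r E) ∧
      (∀ r E, θ r E ≠ 0 → At E r) ∧
      (∀ r, m r ≠ 0 → ∑ᶠ E, (θ r E : ℝ) * μ E = 1) ∧ ∀ E ∈ D, θ (π E) E = ξ E := by
    have : ∀ r, ∃ θ : ι → ℚ, (∀ E, 0 ≤ θ E) ∧ (∀ E, θ E ≠ 0 → At E r) ∧
        (m r ≠ 0 → ∑ᶠ E, (θ E : ℝ) * μ E = 1) ∧ ∀ E ∈ D, π E = r → θ E = ξ E := fun r => by
      by_cases hr : r ∈ I
      · refine ⟨fun E => if E ∈ D ∧ π E = r then ξ E else 0, fun E => ?_, fun E z => ?_,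
          fun _ => ?_, fun E a b => if_pos ⟨a, b⟩⟩
        · exact ite_nonneg (ξ0 E) le_rfl
        · have k : E ∈ D ∧ π E = r := by_contra fun n => z (if_neg n)
          exact k.2 ▸ (hD E k.1).1
        · rw [finsum_eq_sum_of_support_subset _ (s := D.filter fun E => π E = r) fun E z => by
            by_contra n
            rw [Finset.mem_coe, Finset.mem_filter] at n
            simp [if_neg n] at z, Finset.sum_congr rfl
              (g := fun E => (ξ E : ℝ) * μ E) fun E n => by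
                simp only [if_pos (Finset.mem_filter.1 n)]]
          exact_mod_cast h1 r hr
      by_cases z : m r = 0
      · exact ⟨0, fun _ => le_rfl, fun _ n => absurd rfl n, fun n => absurd z n,
          fun E a b => absurd (b ▸ (hD E a).2) hr⟩
      obtain ⟨E₀, b⟩ : ∃ E, At E r := by_contra fun n => z (m2 r n)
      have p : (0 : ℤ) < μ E₀ := μ1 _ _ b
      refine ⟨Pi.single E₀ (μ E₀ : ℚ)⁻¹, fun E => ?_, fun E n => ?_, fun _ => ?_,
        fun E a b => absurd (b ▸ (hD E a).2) hr⟩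
      · rw [Pi.single_apply]
        split_ifs
        exacts [(inv_pos.2 (Int.cast_pos.2 p)).le, le_rfl]
      · obtain rfl : E = E₀ := by_contra fun k => n (Pi.single_eq_of_ne k _)
        exact b
      · rw [finsum_eq_single _ E₀ fun E n => by simp [n], Pi.single_eq_same]
        push_cast
        exact inv_mul_cancel₀ (Int.cast_ne_zero.2 p.ne')
    choose θ a b d e using this
    exact ⟨θ, a, b, d, fun E n => e _ E n rfl⟩
  obtain ⟨t, v, t0, hv⟩ := den fun j => ∑ᶠ E, m (π E) * θ (π E) E * n E j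
  obtain ⟨η, hη⟩ : ∃ η : ι → ℝ, ∀ E, η E = t * (m (π E) * θ (π E) E) := ⟨_, fun _ => rfl⟩
  have η0 : 0 ≤ η := fun E => by
    have : (0 : ℝ) ≤ θ (π E) E := Rat.cast_nonneg.2 (θ0 _ E)
    rw [hη]
    positivity
  have η1 : ∀ E, η E ≠ 0 → At E (π E) := fun E z => θ1 _ E fun n => z (by simp [hη, n])
  obtain ⟨u, hu, k⟩ := H t v η t0 η0 (fun E z => ⟨_, η1 E z⟩)
    (fun r => by
      have : ∀ E, η E * (if At E r then μ E else 0 : ℤ) = t * m r * (θ r E * μ E) := fun E => by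
        by_cases a : At E r
        · rw [hη, hπ E r a, if_pos a]
          ring
        · simp [if_neg a, show θ r E = 0 from by_contra fun n => a (θ1 r E n)]
      simp only [this]
      rw [← mul_finsum]
      by_cases z : m r = 0
      · simp [z]
      · rw [θ2 r z, mul_one])
    fun j => by
      have a := congrArg (Rat.castHom ℝ) (hv j)
      have b := (Rat.castHom ℝ).toAddMonoidHom.map_finsum_of_injective Rat.cast_injective
        fun E => m (π E) * θ (π E) E * n E j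
      simp only [hη, mul_assoc (t : ℝ)]
      rw [← mul_finsum]
      simp only [RingHom.toAddMonoidHom_eq_coe, AddMonoidHom.coe_coe, map_mul, map_natCast,
        map_intCast] at a b
      rw [← a, b]
      rfl
  refine ⟨u, hu, ?_⟩
  have s4 := le_fs (f := fun E => η E * Z u E) ((Zf u hu).subset fun E z =>
      ⟨⟨_, η1 E (left_ne_zero_of_mul z)⟩, Int.cast_ne_zero.1 (right_ne_zero_of_mul z)⟩)
    (fun E => by
      by_cases z : η E = 0
      · simp [z]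
      · exact mul_nonneg (η0 E) (Int.cast_nonneg_iff.2 (Z0 u hu E _ (η1 E z)))) D
  have t1 : (0 : ℝ) < t := Nat.cast_pos.2 t0
  have s5 : t * ∑ E ∈ D, (ξ E : ℝ) * Z u E ≤ t * A := by
    rw [Finset.mul_sum]
    refine (Finset.sum_le_sum fun E n => ?_).trans (s4.trans k)
    obtain ⟨a2, a3⟩ := hD E n
    rw [hη, θ3 E n, ← mul_assoc]
    exact mul_le_mul_of_nonneg_right (mul_le_mul_of_nonneg_left (le_mul_of_one_le_left
      (Rat.cast_nonneg.2 (ξ0 E)) (Nat.one_le_cast.2 (hI _ a3))) t1.le)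
      (Int.cast_nonneg_iff.2 (Z0 u hu E _ a2))
  refine (Rat.cast_le (K := ℝ)).1 ?_
  simpa only [Rat.cast_sum, Rat.cast_mul, Rat.cast_intCast, Rat.cast_natCast]
    using le_of_mul_le_mul_left s5 t1

/-- **HEL**, the abstract form -/
theorem hel (hq : 1 ≤ q) (un : ∀ E r r', At E r → At E r' → r = r')
    (μ1 : ∀ E r, At E r → 1 ≤ μ E) (fin : ∀ r, {E | At E r}.Finite) {Pos : Ω → Prop}
    (m1 : ∀ r, Pos r → 1 ≤ m r) (m2 : ∀ r, (¬ ∃ E, At E r) → m r = 0) (hS : S.Nonempty)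
    (Z0 : ∀ u ∈ S, ∀ E r, At E r → q * (μ E - 1) ≤ Z u E)
    (Zf : ∀ u ∈ S, {E | (∃ r, At E r) ∧ Z u E ≠ 0}.Finite) (uu : U → Fin ρ → ℤ) (b : ι → ℤ)
    (a : U → Ω → ℤ) (lin : ∀ u ∈ S, ∀ E r, At E r → μ E = 1 → Z u E = n E ⬝ᵥ uu u + b E + a u r)
    (H : Ct At μ n m S Z A) : ∃ u ∈ S, ∃ J : Finset Ω, J.card ≤ A * (ρ + 2) ∧
      ∀ E r, At E r → Pos r → r ∉ J → μ E = 1 ∧ Z u E = 0 := by
  classical
  obtain e | e := isEmpty_or_nonempty Ω
  · exact ⟨_, hS.choose_spec, ∅, Nat.zero_le _, fun _ r => e.elim r⟩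
  obtain ⟨π, hπ⟩ : ∃ π : ι → Ω, ∀ E r, At E r → π E = r :=
    ⟨fun E => Classical.epsilon (At E), fun E r a => un _ _ _ (Classical.epsilon_spec ⟨r, a⟩) a⟩
  have Z1 : ∀ u ∈ S, ∀ E r, At E r → 0 ≤ Z u E := fun u hu E r k =>
    (mul_nonneg (Int.natCast_nonneg q) (sub_nonneg.2 (μ1 E r k))).trans (Z0 u hu E r k)
  have fS : {E | At E (π E) ∧ Pos (π E) ∧ ¬ (μ E = 1 ∧ ∀ u ∈ S, Z u E = 0)}.Finite := by
    refine (S.finite_toSet.biUnion Zf).subset fun E ⟨k, _, e⟩ => ?_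
    by_contra z
    simp only [mem_iUnion, not_exists, Finset.mem_coe, mem_ofPred_eq, not_and, not_not] at z
    obtain ⟨u, hu⟩ := hS
    have a1 := Z0 u hu E _ k
    have a2 := μ1 E _ k
    rw [z u hu ⟨_, k⟩] at a1
    exact e ⟨by nlinarith, fun u hu => z u hu ⟨_, k⟩⟩
  obtain ⟨I, hI⟩ : ∃ I : Finset Ω, I = fS.toFinset.image π := ⟨_, rfl⟩
  have hI1 : ∀ r ∈ I, (∃ E, At E r) ∧ Pos r := fun r hr => by
    obtain ⟨E, a, rfl⟩ := Finset.mem_image.1 (hI ▸ hr)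
    rw [fS.mem_toFinset] at a
    exact ⟨⟨E, a.1⟩, a.2.1⟩
  have fD : {E | At E (π E) ∧ π E ∈ I}.Finite :=
    (I.finite_toSet.biUnion fun r _ => fin r).subset fun E ⟨b, d⟩ => mem_biUnion d b
  obtain ⟨D, hD⟩ : ∃ D : Finset ι, ∀ E, E ∈ D ↔ At E (π E) ∧ π E ∈ I :=
    ⟨fD.toFinset, fun _ => fD.mem_toFinset⟩
  have mn : ∀ d : D, ((μ d).toNat : ℤ) = μ d := fun d =>
    Int.toNat_of_nonneg (zero_le_one.trans (μ1 _ _ ((hD d).1 d.2).1))
  obtain ⟨u, J, h1, h2⟩ := Wd.hel (I := I) (D := D) (T := S) hq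
    (fun d => ⟨π d, ((hD d).1 d.2).2⟩)
    (fun r => by
      obtain ⟨E, e⟩ := (hI1 r r.2).1
      have z := hπ E r e
      exact ⟨⟨E, (hD E).2 ⟨z ▸ e, z ▸ r.2⟩⟩, Subtype.ext z⟩)
    (fun d => (μ d).toNat) (fun d => by
      have := μ1 _ _ ((hD d).1 d.2).1
      omega) (fun d => n d) (fun d => b d) (fun u d => Z u d - q * (μ d - 1))
    (fun u d => sub_nonneg.2 (Z0 u u.2 d _ ((hD d).1 d.2).1)) (fun u => uu u) (fun u r => a u r)
    (fun u d z => by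
      have z' : μ d = 1 := by rw [← mn d, z]; rfl
      rw [lin u u.2 d _ ((hD d).1 d.2).1 z', z']
      ring) A
    fun ξ ξ0 h => by
      obtain ⟨u, hu, k⟩ := cnt μ1 m2 Z1 Zf H π hπ I (fun r a => m1 r (hI1 r a).2) D
        (fun E a => (hD E).1 a) (fun E => if a : E ∈ D then ξ ⟨E, a⟩ else 0)
        (fun E => by
          by_cases a : E ∈ D
          · simpa only [dif_pos a] using ξ0 _
          · simp only [dif_neg a, le_rfl])
        fun r a => by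
          rw [← h ⟨r, a⟩, Finset.sum_filter, Finset.sum_filter, ← Finset.sum_coe_sort D]
          refine Finset.sum_congr rfl fun d _ => ?_
          simp only [Subtype.mk.injEq, dif_pos d.2]
          split_ifs with z
          · rw [← mn d, Int.cast_natCast, Int.toNat_natCast]
          · rfl
      refine ⟨⟨u, hu⟩, le_of_eq_of_le ?_ k⟩
      rw [← Finset.sum_coe_sort D]
      refine Finset.sum_congr rfl fun d _ => ?_
      have := congrArg (Int.cast : ℤ → ℚ) (mn d)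
      rw [Int.cast_natCast] at this
      simp only [dif_pos d.2, this]
      push_cast
      ring
  refine ⟨u, u.2, J.image (↑), Finset.card_image_le.trans (by exact_mod_cast h1),
    fun E r e p k => ?_⟩
  obtain rfl := hπ E r e
  by_cases z : π E ∈ I
  · obtain ⟨k1, k2⟩ := h2 ⟨E, (hD E).2 ⟨e, z⟩⟩ fun j => k (Finset.mem_image.2 ⟨_, j, rfl⟩)
    have z' : μ E = 1 := by rw [← mn ⟨E, (hD E).2 ⟨e, z⟩⟩, k1]; rfl
    exact ⟨z', by simpa [z'] using k2⟩
  · have : μ E = 1 ∧ ∀ u ∈ S, Z u E = 0 := by_contra fun j =>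
      z (hI ▸ Finset.mem_image_of_mem π (fS.mem_toFinset.2 ⟨e, p, j⟩))
    exact ⟨this.1, this.2 u u.2⟩

end Vale.Agent.P283R.Cq.C67
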