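import Vale.Agent.P283R.Pq.Inv80
import Vale.Agent.P283R.Cx.Kah

/-!
# P283R, block CQ: the Euler derivations over a field and the invariant prime divisors
-/

open Set CategoryTheory AlgebraicGeometry
open Vale.Agent.P285N.Brep (Fr)

noncomputable section

namespace Vale.Agent.P283R.Cq.I95

open Vale.Agent.P287D Vale.Agent.P283M Vale.Agent.P283R.To Vale.Agent.P297Z Cx
open Pq (tot)

section field

variable {L K : Type} [Field L] [Field K] [Algebra ℂ K] [Algebra L K]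
  {c ρ : ℕ} {y : Fin ρ → K} {P : Pl K} {θ : Fin ρ → Derivation ℂ K K}

variable (L) in
/-- Euler derivations -/
def Eu (y : Fin ρ → K) (θ : Fin ρ → Derivation ℂ K K) : Prop :=
  ∀ i (φ : L) u, θ i (hm y φ u) = (u i : ℂ) • hm y φ u

/-- the Euler derivations exist -/
theorem eul [Algebra ℂ L] [IsScalarTower ℂ L K] (x : Ext L c y) : ∃ θ, Eu L y θ := by
  obtain ⟨s, hs, -⟩ := id x.ff
  obtain ⟨E₀, h₀⟩ := Cb.fr_of x.ff hs
  obtain ⟨E, hE⟩ := zt_frm x ⟨E₀, h₀⟩
  have hy : ∀ j, y j ≠ 0 := x.ind.ne_zero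
  refine ⟨fun i => y i • E (Fin.natAdd c i), fun i φ u => ?_⟩
  have d : ∀ j, E (Fin.natAdd c i) (y j) = if i = j then 1 else 0 := fun j => by
    simpa [zt] using hE.dual (Fin.natAdd c i) (Fin.natAdd c j)
  have s0 : ∀ k, E (Fin.natAdd c i) (algebraMap L K (s k)) = 0 := fun k => by
    have := hE.dual (Fin.natAdd c i) (Fin.castAdd ρ k)
    rw [if_neg fun e => by
      have := congrArg Fin.val e
      simp only [Fin.val_natAdd, Fin.val_castAdd] at this
      omega] at this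
    simpa [zt] using this
  have z : E (Fin.natAdd c i) (algebraMap L K φ) = 0 := by
    have := Cb.expand ((Cb.dr_of (E (Fin.natAdd c i))).comp (algebraMap L K)) (fun c => by
      rw [← IsScalarTower.algebraMap_apply]; exact (E _).map_algebraMap c) h₀ φ
    exact this.trans (Finset.sum_eq_zero fun j _ => by simp [s0])
  rw [hm, Derivation.smul_apply, Derivation.leibniz, z, smul_zero, add_zero, der_mon _ hy,
    Finset.sum_eq_single i (fun j _ h => by rw [d, if_neg h.symm]; simp) (by simp), d, if_pos rfl,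
    Algebra.smul_def (u i : ℂ), map_intCast]
  have := hy i
  simp only [smul_eq_mul]
  field_simp

theorem sep (hθ : Eu L y θ) (I : Submodule ℂ K) (hI : ∀ i, ∀ a ∈ I, θ i a ∈ I)
    {G : (Fin ρ → ℤ) → K} (hG : ∀ u, ∃ φ : L, G u = hm y φ u) (m : Fin ρ → ℤ)
    (T : Finset (Fin ρ → ℤ)) : ∀ (c₀ : ℂ) (c : (Fin ρ → ℤ) → ℂ), m ∉ T → c₀ ≠ 0 →
      c₀ • G m + ∑ l ∈ T, c l • G l ∈ I → G m ∈ I := by
  classical
  have eu : ∀ i l, θ i (G l) = (l i : ℂ) • G l := fun i l => by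
    obtain ⟨φ, e⟩ := hG l
    rw [e, hθ]
  induction T using Finset.induction_on with
  | empty => exact fun c₀ c _ h k => (I.smul_mem_iff h).1 (by simpa using k)
  | insert a T ha ih =>
    intro c₀ c hm h k
    rw [Finset.mem_insert, not_or] at hm
    obtain ⟨i, hi⟩ := Function.ne_iff.1 hm.1
    refine ih (c₀ * (m i - a i)) (fun l => c l * (l i - a i)) hm.2
      (mul_ne_zero h (sub_ne_zero.2 (by exact_mod_cast hi))) ?_
    refine (congrArg (· ∈ I) ?_).mpr (I.sub_mem (hI i _ k) (I.smul_mem (a i : ℂ) k))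
    simp only [Finset.sum_insert ha, map_add, map_sum, Derivation.map_smul,
      eu, smul_add, Finset.smul_sum, smul_smul, mul_sub, sub_smul,
      Finset.sum_sub_distrib, mul_comm (a i : ℂ)]
    abel

/-- the components of an element of a stable space -/
theorem sep' (hθ : Eu L y θ) (I : Submodule ℂ K) (hI : ∀ i, ∀ a ∈ I, θ i a ∈ I)
    {G : (Fin ρ → ℤ) →₀ K} (hG : ∀ u, ∃ φ : L, G u = hm y φ u) (h : tot G ∈ I)
    (m : Fin ρ → ℤ) : G m ∈ I := by
  classical
  by_cases hm : m ∈ G.support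
  · refine sep hθ I hI hG m (G.support.erase m) 1 1 (by simp) one_ne_zero ?_
    simp only [Pi.one_apply, one_smul]
    rwa [Finset.add_sum_erase _ (fun l => G l) hm]
  · rw [Finsupp.notMem_support_iff.1 hm]
    exact zero_mem _

/-- a place whose ring is stable under the Euler derivations -/
theorem inv_of (hθ : Eu L y θ) (hy : ∀ j, y j ≠ 0) (r : ∀ i, ∀ a ∈ P.ring, θ i a ∈ P.ring)
    (n : ¬ Hz L y P) {G : (Fin ρ → ℤ) →₀ K} (hG : ∀ u, ∃ φ : L, G u = hm y φ u) {u : Fin ρ → ℤ}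
    (hu : G u ≠ 0) : P.ord (tot G) ≤ P.ord (G u) := by
  obtain ⟨φ, v, h0, hj⟩ : ∃ (φ : L) (v : _), φ ≠ 0 ∧ P.ord (hm y φ v) ≠ 0 := by
    by_contra c
    push Not at c
    exact n c
  have G0 : tot G ≠ 0 := fun e => hu ((Submodule.mem_bot ℂ).1 (sep' hθ ⊥
    (fun i a ha => by simp [(Submodule.mem_bot ℂ).1 ha]) hG ((Submodule.mem_bot ℂ).2 e) u))
  let I : Submodule ℂ K :=
    { carrier := {a | a / tot G ∈ P.ring}
      add_mem' := fun {a b} ha hb => by
        change (a + b) / tot G ∈ P.ring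
        rw [add_div]
        exact add_mem ha hb
      zero_mem' := by
        change (0 : K) / tot G ∈ P.ring
        rw [zero_div]
        exact zero_mem _
      smul_mem' := fun c a ha => by
        change (c • a) / tot G ∈ P.ring
        rw [smul_div_assoc]
        exact Mop.smul_mem P c ha }
  have k : G u / tot G ∈ P.ring := by
    refine sep' hθ I (fun i a ha => ?_) hG ?_ u
    · change θ i a / tot G ∈ P.ring
      have e : θ i a / tot G = θ i (a / tot G) + a / tot G * (θ i (tot G) / tot G) := by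
        rw [Derivation.leibniz_div]
        simp only [smul_eq_mul]
        field_simp
        ring
      rw [e]
      exact add_mem (r i _ ha) (mul_mem ha (C3.I87.lg (r i) (hm_ne hy h0 v) hj (hθ i φ v) G0))
    · change tot G / tot G ∈ P.ring
      rw [div_self G0]
      exact one_mem _
  have := Pl.ord_nonneg_of_mem _ k
  rw [Pl.ord_div _ hu G0] at this
  linarith

/-- the components of a Laurent polynomial -/
def cp (y : Fin ρ → K) (g : (Fin ρ → ℤ) →₀ L) : (Fin ρ → ℤ) →₀ K :=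
  Finsupp.onFinset g.support (fun u => hm y (g u) u) fun u h =>
    Finsupp.mem_support_iff.2 fun e => h (by rw [e, hm_zero])

omit [Algebra ℂ K] in
theorem cp_apply (g : (Fin ρ → ℤ) →₀ L) (u : Fin ρ → ℤ) : cp y g u = hm y (g u) u := rfl

omit [Algebra ℂ K] in
theorem tot_cp (g : (Fin ρ → ℤ) →₀ L) : tot (cp y g) = lv y g :=
  Finsupp.onFinset_sum _ fun _ => rfl

omit [Algebra ℂ K] in
/-- a family of homogeneous components comes from a Laurent polynomial -/
theorem cp_of (hy : ∀ j, y j ≠ 0) {G : (Fin ρ → ℤ) →₀ K} (hG : ∀ u, ∃ φ : L, G u = hm y φ u) :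
    ∃ g : (Fin ρ → ℤ) →₀ L, G = cp y g := by
  choose φ e using hG
  exact ⟨Finsupp.onFinset G.support φ fun u h => Finsupp.mem_support_iff.2
    (by rw [e]; exact hm_ne hy h u), Finsupp.ext e⟩

/-- the same for Laurent polynomials -/
theorem inv_lv (hθ : Eu L y θ) (hy : ∀ j, y j ≠ 0) (r : ∀ i, ∀ a ∈ P.ring, θ i a ∈ P.ring)
    (n : ¬ Hz L y P) {g : (Fin ρ → ℤ) →₀ L} {u : Fin ρ → ℤ} (hu : g u ≠ 0) :
    P.ord (lv y g) ≤ P.ord (hm y (g u) u) := by
  rw [← tot_cp]
  exact inv_of hθ hy r n (G := cp y g) (fun v => ⟨g v, rfl⟩) (hm_ne hy hu u)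

end field

open Vale.Agent.P283M.Stm Vale.Agent.P283M.Stm.Var Vale.Agent.P283M.Br Vale.Agent.P283R.Gl

variable {X : Var} {L : Type} [Field L] [Algebra L X.K] {ρ : ℕ} {y : Fin ρ → X.K}
  {U : X.X.Opens} {S : Set X.K}

/-- the local ring of a prime divisor in a graded chart is stable -/
theorem stab {θ : Fin ρ → Derivation ℂ X.K X.K} (hθ : Eu L y θ) (hU : IsAffineOpen U)
    (hS : ∀ b ∈ S, (∀ x ∈ U, RegAt b x) ∧ ∃ (φ : L) (m : _), b = hm y φ m)
    (eS : ∀ g, (∀ x ∈ U, RegAt g x) → g ∈ Submodule.span ℂ S) (E : X.PrimeDiv) (xU : E.1 ∈ U) :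
    ∀ i, ∀ a ∈ (pq E).ring, θ i a ∈ (pq E).ring := fun i a ha => by
  obtain ⟨b, h1, h2, h3⟩ := Am.frac (f := a) hU xU ((pq_is E a).1 ha)
  have k : ∀ g, g ∈ Am.reg U → θ i g ∈ (pq E).ring := fun g hg => by
    have := eS g (Am.mem_reg.1 hg)
    clear hg
    induction this using Submodule.span_induction with
    | mem c hc =>
      obtain ⟨c1, φ, v, c2⟩ := hS c hc
      rw [c2, hθ, ← c2]
      exact Mop.smul_mem _ _ ((pq_is E c).2 (c1 _ xU))
    | zero => rw [map_zero]; exact zero_mem _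
    | add c c' _ _ a b => rw [map_add]; exact add_mem a b
    | smul c c' _ a => rw [Derivation.map_smul]; exact Mop.smul_mem _ _ a
  have e : θ i a = (θ i (b * a) - a * θ i b) * b⁻¹ := by
    rw [Derivation.leibniz]
    have := h2.1
    simp only [smul_eq_mul]
    field_simp
    ring
  rw [e]
  exact mul_mem (sub_mem (k _ h3) (mul_mem ha (k _ h1))) ((pq_is E _).2 h2.2.2)

variable [Algebra ℂ L] [IsScalarTower ℂ L X.K] {c : ℕ}

/-- **INV**, components in the big field -/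
theorem inv (x : Ext L c y) (hU : IsAffineOpen U)
    (hS : ∀ b ∈ S, (∀ x ∈ U, RegAt b x) ∧ ∃ (φ : L) (m : _), b = hm y φ m)
    (eS : ∀ g, (∀ x ∈ U, RegAt g x) → g ∈ Submodule.span ℂ S) (E : X.PrimeDiv) (xU : E.1 ∈ U)
    (n : ¬ Hz L y (pq E)) {G : (Fin ρ → ℤ) →₀ X.K} (hG : ∀ u, ∃ φ : L, G u = hm y φ u)
    {u : Fin ρ → ℤ} (hu : G u ≠ 0) : (pq E).ord (tot G) ≤ (pq E).ord (G u) :=
  let ⟨_, hθ⟩ := eul x
  inv_of hθ x.ind.ne_zero (stab hθ hU hS eS E xU) n hG hu

/-- **INV**, Laurent polynomials -/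
theorem inv' (x : Ext L c y) (hU : IsAffineOpen U)
    (hS : ∀ b ∈ S, (∀ x ∈ U, RegAt b x) ∧ ∃ (φ : L) (m : _), b = hm y φ m)
    (eS : ∀ g, (∀ x ∈ U, RegAt g x) → g ∈ Submodule.span ℂ S) (E : X.PrimeDiv) (xU : E.1 ∈ U)
    (n : ¬ Hz L y (pq E)) {g : (Fin ρ → ℤ) →₀ L} {u : Fin ρ → ℤ} (hu : g u ≠ 0) :
    (pq E).ord (lv y g) ≤ (pq E).ord (hm y (g u) u) :=
  let ⟨_, hθ⟩ := eul x
  inv_lv hθ x.ind.ne_zero (stab hθ hU hS eS E xU) n hu

end Vale.Agent.P283R.Cq.I95
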