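import Vale.Agent.P283R.Cq.St
import Vale.Agent.P283R.Cq.Inv12
import Vale.Agent.P283R.Cq.Cz60
import Vale.Agent.P283R.Cx.Gav
import Vale.Agent.P283M.Am.Cen
import Vale.Agent.P283M.Br.Mod

/-!
# P283R, block CQ: the row MIS
-/

set_option linter.all false

open Set CategoryTheory AlgebraicGeometry

noncomputable section

namespace Vale.Agent.P283R.Cq

open Vale.Agent.P287D Vale.Agent.P283M Vale.Agent.P297Z Cx
open Vale.Agent.P283R.To (mon)

namespace M12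

variable {L K : Type} [Field L] [Algebra ℂ L] [Field K] [Algebra ℂ K] [Algebra L K] {c ρ : ℕ}

/-- finitely many functions give the local rings of almost all pages -/
theorem loc {b : Ba L c} {l : ℕ} (o : b.Ok l) : ∃ F : Finset L, ∀ R : Subalgebra ℂ L,
    (∀ a ∈ F, a ∈ R) → ∀ p ∈ b.T, p ∉ b.S → (∀ j, p.ord (b.σ j) = 0) → ∀ φ ∈ p.ring,
      ∃ u ∈ R, ∃ w ∈ R, w ≠ 0 ∧ p.ord w = 0 ∧ φ = u / w := by
  classical
  have s0 := o.cox.ne
  obtain ⟨t, ht⟩ : (LinearMap.ker (Fintype.linearCombination ℤ b.a)).FG := IsNoetherian.noetherian _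
  have ad : ∀ v w : Fin b.N → ℤ, mon b.σ (v + w) = mon b.σ v * mon b.σ w := fun v w => by
    simp only [mon, Pi.add_apply, zpow_add₀ (s0 _), Finset.prod_mul_distrib]
  have ng : ∀ v : Fin b.N → ℤ, mon b.σ (-v) = (mon b.σ v)⁻¹ := fun v => by
    simp only [mon, Pi.neg_apply, zpow_neg, Finset.prod_inv_distrib]
  refine ⟨t.image (mon b.σ) ∪ t.image fun w => mon b.σ (-w), fun R hR p hp n z φ hφ => ?_⟩
  let H : AddSubgroup (Fin b.N → ℤ) :=
    { carrier := {w | mon b.σ w ∈ R ∧ mon b.σ (-w) ∈ R}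
      add_mem' := fun u v => ⟨ad _ _ ▸ mul_mem u.1 v.1, by
        rw [neg_add, ad]; exact mul_mem u.2 v.2⟩
      zero_mem' := by simp [mon]
      neg_mem' := fun u => ⟨u.2, by rw [neg_neg]; exact u.1⟩ }
  have k : ∀ w, Fintype.linearCombination ℤ b.a w = 0 → mon b.σ w ∈ R := fun w hw =>
    (((Submodule.span_le (p := H.toIntSubmodule)).2 fun w hw => ⟨hR _ (Finset.mem_union_left _
      (Finset.mem_image_of_mem _ hw)), hR _ (Finset.mem_union_right _
        (Finset.mem_image_of_mem (fun w => mon b.σ (-w)) hw))⟩) (ht ▸ LinearMap.mem_ker.2 hw)).1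
  have q : ∀ (m : Fin b.N → ℕ), ∀ a ∈ Sp b.σ b.a (dg b.a m), a / ∏ j, b.σ j ^ m j ∈ R := by
    intro m a ha
    induction ha using Submodule.span_induction with
    | mem a ha =>
      obtain ⟨m', e, rfl⟩ := ha
      have := k ((fun j => (m' j : ℤ)) + -fun j => (m j : ℤ)) (by
        ext i
        have := congrFun e i
        simp only [dg] at this
        simp [Fintype.linearCombination_apply, add_mul, Finset.sum_add_distrib, this])
      rw [ad, ng] at this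
      simpa [mon, div_eq_mul_inv] using this
    | zero => simp
    | add _ _ _ _ u v => rw [add_div]; exact add_mem u v
    | smul r _ _ u => rw [smul_div_assoc]; exact R.smul_mem u r
  rcases eq_or_ne φ 0 with rfl | φ0
  · exact ⟨0, zero_mem _, 1, one_mem _, one_ne_zero, Pl.ord_one _, by simp⟩
  obtain ⟨h, e, h0, he⟩ := Z60.full (fun p _ => o.l0 p) o.lam (fun p => max 0 (-p.ord φ))
    ((o.cox.fin φ 0).subset fun p a => ⟨a.1, fun z => a.2 (by simp_all)⟩)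
  have h1 : h ∈ Sp b.σ b.a e := (o.cox.sec e h h0).2 fun p a => he p a ▸ le_max_left _ _
  have h2 : φ * h ∈ Sp b.σ b.a e := (o.cox.sec e _ (mul_ne_zero φ0 h0)).2 fun p a => by
    have := le_max_right 0 (-p.ord φ)
    rw [Pl.ord_mul _ φ0 h0, add_assoc, ← he p a]
    omega
  obtain ⟨m, rfl⟩ : ∃ m, dg b.a m = e := by
    by_contra! c
    rw [Sp, show {c | dg b.a c = e} = ∅ from eq_empty_of_forall_notMem c, image_empty,
      Submodule.span_empty] at h1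
    exact h0 h1
  have m0 : ∏ j, b.σ j ^ m j ≠ 0 := Finset.prod_ne_zero_iff.2 fun j _ => pow_ne_zero _ (s0 j)
  refine ⟨_, q m _ h2, _, q m _ h1, div_ne_zero h0 m0, ?_, by field_simp⟩
  have a := he p hp
  have := Pl.ord_nonneg_of_mem p.toPlace hφ
  rw [o.sup p hp n, dotProduct_zero, add_zero, max_eq_left (by omega)] at a
  rw [Pl.ord_div _ h0 m0, ← a, p.ord_prod _ fun j _ => pow_ne_zero _ (s0 j)]
  simp [Pl.ord_pow, z]

variable {s : Fin c → L} {y : Fin ρ → K} {p : Pl L} {v : Pl K}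

theorem gmem (g : Gv s y p 0 v) (y0 : ∀ j, y j ≠ 0) {G : (Fin ρ → ℤ) →₀ L}
    (h : ∀ e ∈ G.support, p.ord (G e) = 0) : lv y G ∈ v.ring := sum_mem fun e he => by
  have a := Finsupp.mem_support_iff.1 he
  exact (Pl.ord_nonneg_iff _ (hm_ne y0 a e)).1 (by simp [g.ord _ e a, h e he])

end M12

open Vale.Agent.P289 (Pt)
open Vale.Agent.P283M.Stm Vale.Agent.P283M.Stm.Var Vale.Agent.P283M.Br Vale.Agent.P283R.Gl

/-- **MIS** -/
theorem mis12 : MIS := fun X L _ _ _ _ c ρ W y x hL hx hy h b l o => by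
  classical
  obtain ⟨n, hK⟩ := Md.exists_ff X
  have ex := (I12.ext (W := W) ⟨hy, h⟩ hx hL hK).2
  have y0 := hy.ne_zero
  obtain ⟨U, UW, hU, xU, dec⟩ := I12.cht (W := W) ⟨hy, h⟩ hx
  have g0 : genericPoint X.X ∈ U := (genericPoint_specializes x).mem_open U.isOpen xU
  obtain ⟨A, A1, A2⟩ := Am.Str.fg (Am.str X) hU xU
  obtain ⟨F, hF⟩ := M12.loc o
  have fo : ∀ φ : L, {p | p ∈ b.T ∧ p.ord φ ≠ 0}.Finite := fun φ => by
    simpa using o.cox.fin φ 0
  have f1 : ∀ g ∈ Am.reg U, ∃ B : Set (Pl L), B.Finite ∧ ∀ p ∈ b.T, p ∉ B → ∀ v, Gv b.s y p 0 v →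
      g ∈ v.ring ∧ v.ord g ≤ 0 := fun g hg => by
    obtain ⟨G, rfl, -⟩ := dec g (Am.mem_reg.1 hg)
    refine ⟨_, G.support.finite_toSet.biUnion fun e _ => fo (G e), fun p hp n v gv => ?_⟩
    have z : ∀ e ∈ G.support, p.ord (G e) = 0 := fun e he =>
      by_contra fun k => n (mem_biUnion he ⟨hp, k⟩)
    refine ⟨M12.gmem gv y0 z, ?_⟩
    rcases eq_or_ne G 0 with rfl | G0
    · simp [lv_zero]
    · obtain ⟨e, he⟩ := Finsupp.support_nonempty_iff.2 G0
      simpa [z e he] using gv.min G e he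
  have f2 : ∀ g : X.K, ∃ B : Set (Pl L), B.Finite ∧ ∀ p ∈ b.T, p ∉ B → ∀ v, Gv b.s y p 0 v →
      ∀ x' ∈ U, Dom v.ring x' → RegAt g x' := fun g => by
    obtain ⟨a, h1, h2, h3⟩ := Am.frac hU g0 (P270L.S.mem_loc_gen g)
    obtain ⟨B, B1, B2⟩ := f1 a h1
    refine ⟨B, B1, fun p hp n v gv x' hx' d => ?_⟩
    have := reg_mul ((d a (Am.mem_reg.1 h1 x' hx')).2 h2.1 ((Pl.ord_nonneg_iff _
      (inv_ne_zero h2.1)).1 (by rw [Pl.ord_inv, neg_nonneg]; exact (B2 p hp n v gv).2)))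
        (Am.mem_reg.1 h3 x' hx')
    rwa [inv_mul_cancel_left₀ h2.1] at this
  choose! B B1 B2 using f1
  choose C C1 C2 using f2
  refine ((((A.finite_toSet.biUnion fun a ha => B1 a (A1 a ha)).union
    (F.finite_toSet.biUnion fun a _ => C1 (algebraMap L X.K a))).union b.S.finite_toSet).union
      (finite_iUnion fun j => fo (b.σ j))).subset fun p ⟨hp, k⟩ => by_contra fun z => k ?_
  simp only [mem_union, not_or, mem_iUnion, not_exists, mem_ofPred, not_and, not_not] at z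
  obtain ⟨⟨⟨z1, z2⟩, z3⟩, z4⟩ := z
  obtain ⟨v, gv⟩ := gav L X.K c ρ b.s y ex o.fr p 0
  have : Nonempty ↑((𝟙 X.X : X.X ⟶ X.X) ⁻¹ᵁ U) := ⟨⟨x, xU⟩⟩
  obtain ⟨x', hx', dm⟩ := Am.exists_dom (f := 𝟙 X.X) hU v.ring fun a =>
    (Algebra.adjoin_le (S := { v.ring.toSubring with algebraMap_mem' := v.con }) fun a ha =>
      (B2 a (A1 a ha) p hp (z1 a ha) v gv).1) (A2 _ (Am.pl_reg (𝟙 X.X) U a))
  have d : Dom v.ring x' := fun g hg => ⟨dm.mem hg, fun a b => (dm.un hg a b).2.2⟩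
  have lo : ∀ φ : L, φ ≠ 0 → v.ord (algebraMap L X.K φ) = p.ord φ := fun φ a => by
    simpa [hm, mon] using gv.ord φ 0 a
  have r : ∀ φ ∈ p.ring, RegAt (algebraMap L X.K φ) x' := fun φ hφ => by
    obtain ⟨u, hu, w, hw, w0, w1, rfl⟩ := hF (Subalgebra.comap (IsScalarTower.toAlgHom ℂ L X.K)
      { lr x' with algebraMap_mem' := fun c => reg_const c x' })
      (fun a ha => C2 _ p hp (z2 a ha) v gv x' hx' d) p hp z3 (fun j => z4 j hp) φ hφ
    have w2 := (map_ne_zero (algebraMap L X.K)).2 w0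
    rw [map_div₀, div_eq_mul_inv]
    exact reg_mul hu ((d _ hw).2 w2 ((Pl.ord_nonneg_iff _ (inv_ne_zero w2)).1 (by
      rw [Pl.ord_inv, lo w w0, w1, neg_zero])))
  obtain ⟨E, e1, e2⟩ : ∃ E : X.PrimeDiv, E.1 ⤳ x' ∧ 0 < (pq E).ord (algebraMap L X.K p.t) := by
    by_contra! k
    have := Pl.ord_nonneg_of_mem _ (d _ (har X (algebraMap L X.K p.t)⁻¹ x' fun E hE => by
      rw [pq_ord, (pq E).ord_inv, neg_nonneg]; exact k E hE)).1
    rw [Pl.ord_inv, lo _ p.t_ne, Pl.ord_t] at this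
    omega
  have r' : ∀ φ ∈ p.ring, algebraMap L X.K φ ∈ (pq E).ring := fun φ hφ =>
    (pq_is E _).2 (reg_gen e1 (r φ hφ))
  refine ⟨pq E, ⟨E, UW (e1.mem_open U.isOpen hx'), rfl⟩, fun φ => ⟨r' φ, fun a => by_contra fun n => ?_⟩⟩
  have φ0 : φ ≠ 0 := fun z => n (z ▸ zero_mem _)
  have o1 : p.ord φ < 0 := not_le.1 fun z => n ((Pl.ord_nonneg_iff _ φ0).1 z)
  have t0 := mul_ne_zero φ0 p.t_ne
  have a1 := Pl.ord_nonneg_of_mem _ (r' _ ((Pl.ord_nonneg_iff _ (inv_ne_zero t0)).1 (by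
    rw [Pl.ord_inv, Pl.ord_mul _ φ0 p.t_ne, Pl.ord_t]; omega)))
  have a2 := Pl.ord_nonneg_of_mem _ a
  rw [map_inv₀, Pl.ord_inv, map_mul, Pl.ord_mul _ ((map_ne_zero _).2 φ0)
    ((map_ne_zero _).2 p.t_ne)] at a1
  omega

end Vale.Agent.P283R.Cq
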