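import Vale.Agent.P283R.Cq.St
import Vale.Agent.P283R.Cq.Cz60

/-!
# P283R, block CQ: the ordinary pages
-/

open Set

noncomputable section

namespace Vale.Agent.P283R.Cq

open Vale.Agent.P287D Vale.Agent.P283M Cx Cy

theorem orr16 : ORR := by
  intro cz' L K _ _ _ _ _ _ c ρ b y T l d q ε g κ x
  obtain ⟨ψ, e⟩ := x.fm.lau g x.g0 fun P a b => (x.reg P a b).1
  obtain ⟨c1, c2, -⟩ := cz' L K c ρ b.s y x.fm.ext x.ok.fr
  have f1 : (⋃ j, {p | p ∈ b.T ∧ p.ord (b.σ j) + (0 : Fin b.k → ℤ) ⬝ᵥ b.D p ≠ 0}).Finite :=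
    finite_iUnion fun j => x.ok.cox.fin _ _
  let B : Set (Pl K) := ({P | P ∈ T ∧ cz b y P ≠ 0} ∪ {P | P ∈ T ∧ κ P ≠ 0}) ∪
    ((⋃ i, {P | P ∈ T ∧ P.ord (y i) ≠ 0}) ∪
      ⋃ u ∈ ψ.support, {P | P ∈ T ∧ P.ord (hm y (ψ u) u) ≠ 0})
  have f2 : B.Finite := (x.fm.finc.union x.fin).union ((finite_iUnion fun i => x.fm.fin _).union
    (ψ.support.finite_toSet.biUnion fun u _ => x.fm.fin _))
  have f3 : (⋃ P ∈ B, {p : Pl L | At P p}).Finite := f2.biUnion fun P _ =>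
    Set.Subsingleton.finite fun p a p' b => Lies.uniq a b
  have f4 := (x.fm.mis.union b.S.finite_toSet).union (f1.union f3)
  have nb : ∀ P p, p ∉ f4.toFinset → At P p → P ∉ B := fun P p n a b =>
    n (f4.mem_toFinset.2 (.inr (.inr (mem_biUnion b a))))
  refine ⟨ψ, f4.toFinset, e.symm,
    fun p t n => by_contra fun z => n (f4.mem_toFinset.2 (.inl (.inl ⟨t, z⟩))),
    ⟨fun p a => f4.mem_toFinset.2 (.inl (.inr a)), fun P t p n a => ?_⟩,
    fun P t p n a i _ => by_contra fun z => nb P p n a (.inr (.inl (mem_iUnion.2 ⟨i, t, z⟩))),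
    fun P t p n a u u0 => by_contra fun z => nb P p n a
      (.inr (.inr (mem_biUnion (Finsupp.mem_support_iff.2 fun w => u0 ?_) ⟨t, z⟩))),
    fun j p t n => by_contra fun z => n (f4.mem_toFinset.2 (.inr (.inl
      (mem_iUnion.2 ⟨j, t, by rwa [zero_dotProduct, add_zero]⟩))))⟩
  · have z1 : cz b y P = 0 := by_contra fun z => nb P p n a (.inl (.inl ⟨t, z⟩))
    have z3 : 0 < mu P p := a.e_pos
    have pT : p ∈ b.T := by
      rcases x.fm.pg P t with v | ⟨p', t', a'⟩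
      · exact absurd (Z60.of_trv v p.t) z3.ne'
      · exact Lies.uniq a' a ▸ t'
    have d0 := x.ok.sup p pT fun s => n (f4.mem_toFinset.2 (.inl (.inr s)))
    have k := x.ok.can.2 p pT
    have z2 := c2 P p a
    have z4 : P.ord (algebraMap L K b.h) = mu P p * p.ord b.h := a.ord _
    rw [d0, dotProduct_zero, Int.cast_zero, add_zero] at k
    rw [k, ← c1 P] at z2
    have z5 : mu P p * (1 + p.ord b.h) ≤ ⌊lt b.s y P⌋ := by exact_mod_cast z2
    refine ⟨?_, z1, by_contra fun z => nb P p n a (.inl (.inr ⟨t, z⟩))⟩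
    simp only [cz] at z1
    rw [mul_add, mul_one] at z5
    omega
  · simp only [hm, w, map_zero, zero_mul]

end Vale.Agent.P283R.Cq
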