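import Vale.Agent.P283R.Cq.Pp36
import Vale.Agent.P283R.Pq.All

/-!
# P283R, the prime divisors of the projective space
-/

open Set CategoryTheory AlgebraicGeometry MvPolynomial

noncomputable section

namespace Vale.Agent.P283R.Cq.P36

open Vale.Agent.P287D Vale.Agent.P283M Vale.Agent.P297Z Pq

section field

variable {K : Type} [Field K] [Algebra ℂ K] {c : ℕ} {s : Fin c → K} {P : Pl K} {j : Fin (c + 1)}

/-- the coordinates of the chart -/
def tc (s : Fin c → K) (j l : Fin (c + 1)) : K :=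
  (Fin.cons 1 s : Fin (c + 1) → K) l / (Fin.cons 1 s : Fin (c + 1) → K) j

/-- `P` is a prime divisor of the chart -/
def Ch (s : Fin c → K) (j : Fin (c + 1)) (P : Pl K) : Prop :=
  (∀ G, aeval (R := ℂ) (tc s j) G ∈ P.ring) ∧ ∀ a ∈ P.ring, ∃ G H : MvPolynomial (Fin (c + 1)) ℂ,
    aeval (tc s j) G ≠ 0 ∧ P.ord (aeval (tc s j) G) = 0 ∧ aeval (tc s j) G * a = aeval (tc s j) H

theorem x_ne (hs : AlgebraicIndependent ℂ s) (j : Fin (c + 1)) :
    (Fin.cons 1 s : Fin (c + 1) → K) j ≠ 0 := Fin.cases one_ne_zero hs.ne_zero j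

theorem deh (G : MvPolynomial (Fin (c + 1)) ℂ) : aeval (Fin.cons 1 s : Fin (c + 1) → K) G =
    aeval s (aeval (Fin.cons 1 X : Fin (c + 1) → MvPolynomial (Fin c) ℂ) G) := by
  rw [comp_aeval_apply]
  congr 2
  exact funext (Fin.cases (by simp) (by simp))

omit [Algebra ℂ K] in
theorem tc0 : tc s 0 = Fin.cons 1 s := funext fun _ => div_one _

theorem ev (hs : AlgebraicIndependent ℂ s) {n : ℕ} {G : MvPolynomial (Fin (c + 1)) ℂ}
    (h : G.IsHomogeneous n) : aeval (Fin.cons 1 s : Fin (c + 1) → K) G =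
      (Fin.cons 1 s : Fin (c + 1) → K) j ^ n * aeval (tc s j) G := by
  rw [← O24.sc h]
  exact congrArg (fun z => aeval z G) (funext fun l => (div_mul_cancel₀ _ (x_ne hs j)).symm)

theorem inj (hs : AlgebraicIndependent ℂ s) {n : ℕ} {G : MvPolynomial (Fin (c + 1)) ℂ}
    (h : G.IsHomogeneous n) (z : aeval (tc s j) G = 0) : G = 0 := by
  have a := ev (j := j) hs h
  rw [z, mul_zero, deh] at a
  have b := hs (a.trans (map_zero _).symm)
  refine O24.ph_inj (Eq.trans ?_ (map_zero _).symm)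
  have e := O24.sc h Polynomial.X fun l =>
    Polynomial.CAlgHom (R := ℂ) ((Fin.cons 1 X : Fin (c + 1) → MvPolynomial (Fin c) ℂ) l)
  rw [← comp_aeval_apply, b, map_zero, mul_zero] at e
  refine Eq.trans (congrArg (fun z => aeval z G) (funext (Fin.cases ?_ fun i => ?_))) e <;> simp

theorem hom (hs : AlgebraicIndependent ℂ s) (G : MvPolynomial (Fin (c + 1)) ℂ) :
    ∃ (n : ℕ) (H : MvPolynomial (Fin (c + 1)) ℂ), H.IsHomogeneous n ∧
      aeval (tc s j) H = aeval (tc s j) G := by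
  have o : tc s j j = 1 := div_self (x_ne hs j)
  induction G using MvPolynomial.induction_on with
  | C a => exact ⟨0, _, isHomogeneous_C _ a, rfl⟩
  | add p q hp hq =>
    obtain ⟨n, H, a, b⟩ := hp
    obtain ⟨m, H', a', b'⟩ := hq
    exact ⟨n + m, H * X j ^ m + X j ^ n * H', (a.mul (isHomogeneous_X_pow j m)).add
      ((isHomogeneous_X_pow j n).mul a'), by simp [o, b, b']⟩
  | mul_X p i hp =>
    obtain ⟨n, H, a, b⟩ := hp
    exact ⟨n + 1, H * X i, a.mul (isHomogeneous_X ℂ i), by simp [b]⟩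

theorem nd (hj : j ≠ 0) (n : ℕ) : ¬ (X 0 : MvPolynomial (Fin (c + 1)) ℂ) ∣ X j ^ n := fun h =>
  hj (X_dvd_X.1 (X_prime.dvd_of_dvd_pow h)).symm

/-- a prime divisor of the affine space -/
theorem at_some (hs : AlgebraicIndependent ℂ s) (h : Ch s 0 P) :
    ∃ p, At s P (some p) ∧ mu s P (some p) = 1 := by
  classical
  obtain ⟨p1, p2, p3, -⟩ := pol c
  have ne : ∀ {g}, g ≠ 0 → aeval s g ≠ 0 := fun h z => h (hs (z.trans (map_zero _).symm))
  have nn : ∀ g : MvPolynomial (Fin c) ℂ, 0 ≤ P.ord (aeval s g) := fun g => by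
    have := h.1 (rename Fin.succ g)
    rw [tc0, aeval_rename] at this
    exact Pl.ord_nonneg_of_mem _ this
  have fr : ∀ a ∈ P.ring, ∃ G H : MvPolynomial (Fin c) ℂ, G ≠ 0 ∧ P.ord (aeval s G) = 0 ∧
      aeval s G * a = aeval s H := fun a ha => by
    obtain ⟨G, H, x, y, z⟩ := h.2 a ha
    rw [tc0, deh] at x y z
    rw [deh H] at z
    exact ⟨_, _, fun e => x (by rw [e, map_zero]), y, z⟩
  have le : ∀ (p : Pg c) g, g ≠ 0 → p.l ∣ g → P.ord (lam s p) ≤ P.ord (aeval s g) := by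
    rintro p _ g0 ⟨w, rfl⟩
    rw [map_mul, Pl.ord_mul _ (ne (left_ne_zero_of_mul g0)) (ne (right_ne_zero_of_mul g0))]
    exact le_add_of_nonneg_right (nn w)
  obtain ⟨G, H, G0, g1, g2⟩ := fr _ (Cb.t_mem P)
  have o : P.ord (aeval s H) = 1 := by rw [← g2, Pl.ord_mul _ (ne G0) P.t_ne, g1, P.ord_t, zero_add]
  have H0 : H ≠ 0 := fun e => by simp [e] at o
  obtain ⟨p, d, q⟩ : ∃ p : Pg c, p.l ∣ H ∧ P.ord (lam s p) ≠ 0 := by
    obtain ⟨a, n, a0, rfl⟩ := p3 H H0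
    by_contra k
    push Not at k
    rw [map_smul, Pl.ord_smul _ a0, Finsupp.prod, map_prod, P.ord_prod _ fun p _ =>
      ne (pow_ne_zero _ (p1 p).1.ne_zero), Finset.sum_eq_zero fun p hp => by
        rw [map_pow, Pl.ord_pow, show P.ord (aeval s p.l) = 0 from k p (smul_eq_C_mul _ a ▸
          ((dvd_pow_self _ (Finsupp.mem_support_iff.1 hp)).trans
            (Finset.dvd_prod_of_mem (fun p => Pg.l p ^ n p) hp)).mul_left _), mul_zero]] at o
    exact zero_ne_one o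
  have m : P.ord (lam s p) = 1 := by
    have := le p H H0 d
    have : 0 ≤ P.ord (lam s p) := nn _
    omega
  refine ⟨p, ⟨one_pos.trans_eq m.symm, fun p' => ?_⟩, m⟩
  rw [mu, m, one_mul, od]
  by_cases e : p = p'
  · rw [← e, m, Finsupp.single_eq_same]
  rw [Finsupp.single_eq_of_ne e]
  by_contra k
  have l0 : ∀ p : Pg c, lam s p ≠ 0 := fun p => ne (p1 p).1.ne_zero
  obtain ⟨V, W, V0, v1, v2⟩ := fr (lam s p' / lam s p)
    ((Pl.ord_nonneg_iff _ (div_ne_zero (l0 _) (l0 _))).1 (by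
      have : 0 ≤ P.ord (lam s p') := nn _
      rw [Pl.ord_div _ (l0 _) (l0 _)]
      omega))
  rw [← mul_div_assoc, div_eq_iff (l0 p), lam, lam, ← map_mul, ← map_mul] at v2
  obtain u | u := (p1 p).1.dvd_or_dvd (hs v2 ▸ dvd_mul_left p.l W)
  · have := le p V V0 u
    omega
  · exact e (p2 _ _ u)

theorem rat0 (hs : AlgebraicIndependent ℂ s)
    (g : ∀ a, a ∈ IntermediateField.adjoin ℂ (range s)) : D.Rat (fr s ![]) := by
  have : fr s ![] = s := funext (Fin.append_left s ![])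
  exact this.symm ▸ ⟨hs, g⟩

/-- the hyperplane at infinity -/
theorem at_none (hs : AlgebraicIndependent ℂ s) (r : D.Rat (fr s ![])) {i : Fin c}
    (h : Ch s i.succ P) (n : P.ord (s i) < 0) : At s P none ∧ mu s P none = 1 := by
  have o : tc s i.succ i.succ = 1 := div_self (x_ne hs _)
  have w : tc s i.succ 0 = (s i)⁻¹ := one_div _
  have nn := fun G => Pl.ord_nonneg_of_mem _ (h.1 G)
  have le : ∀ G, aeval (tc s i.succ) G ≠ 0 → X 0 ∣ G →
      -P.ord (s i) ≤ P.ord (aeval (R := ℂ) (tc s i.succ) G) := by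
    rintro _ g0 ⟨V, rfl⟩
    rw [map_mul] at g0 ⊢
    rw [Pl.ord_mul _ (left_ne_zero_of_mul g0) (right_ne_zero_of_mul g0), aeval_X, w, Pl.ord_inv]
    exact le_add_of_nonneg_right (nn V)
  have dv : ∀ (m : ℕ) (U : MvPolynomial (Fin (c + 1)) ℂ), U.IsHomogeneous m →
      0 < P.ord (aeval (tc s i.succ) U) → X 0 ∣ U := fun m U hU k => by
    have u0 : aeval (tc s i.succ) U ≠ 0 := fun e => by simp [e] at k
    obtain ⟨N, hN⟩ := Int.eq_ofNat_of_zero_le (neg_nonneg.2 n.le)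
    obtain ⟨G, H, G0, g1, g2⟩ := h.2 (aeval (tc s i.succ) U ^ N * s i)
      ((Pl.ord_nonneg_iff _ (mul_ne_zero (pow_ne_zero _ u0) (hs.ne_zero i))).1 (by
        rw [Pl.ord_mul _ (pow_ne_zero _ u0) (hs.ne_zero i), Pl.ord_pow]
        nlinarith))
    obtain ⟨v, V, hV, e⟩ := hom (j := i.succ) hs G
    obtain ⟨t, W, hW, e'⟩ := hom (j := i.succ) hs H
    rw [← e] at G0 g1 g2
    have h1 := (hV.mul (hU.pow N)).mul (isHomogeneous_X_pow i.succ (1 + t))
    have h2 := ((isHomogeneous_X ℂ 0).mul hW).mul (isHomogeneous_X_pow i.succ (v + m * N))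
    rw [add_comm (1 + t)] at h2
    have z := inj (j := i.succ) hs (h1.sub h2) (by
      simp only [map_sub, map_mul, map_pow, aeval_X, o, w, one_pow, mul_one, e', ← g2]
      field_simp [hs.ne_zero i]
      ring)
    have z' : X 0 ∣ V * U ^ N * X i.succ ^ (1 + t) := by
      rw [sub_eq_zero.1 z]
      exact (dvd_mul_right (X 0) W).mul_right _
    obtain a | a := X_prime.dvd_or_dvd z'
    · obtain a | a := X_prime.dvd_or_dvd a
      · have := le V G0 a
        omega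
      · exact X_prime.dvd_of_dvd_pow a
    · exact (nd i.succ_ne_zero _ a).elim
  have m : P.ord (s i) = -1 := by
    obtain ⟨G, H, G0, g1, g2⟩ := h.2 _ (Cb.t_mem P)
    obtain ⟨t, W, hW, e'⟩ := hom (j := i.succ) hs H
    have q : P.ord (aeval (tc s i.succ) W) = 1 := by
      rw [e', ← g2, Pl.ord_mul _ G0 P.t_ne, g1, P.ord_t, zero_add]
    have := le W (fun e => by simp [e] at q) (dv t W hW (by omega))
    omega
  have k : ∀ (n : ℕ) (g : MvPolynomial (Fin (c + 1)) ℂ), g.IsHomogeneous n → ¬ X 0 ∣ g →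
      P.ord (aeval (Fin.cons 1 s : Fin (c + 1) → K) g) = n * P.ord (s i) := fun n g a b => by
    have := nn g
    have := mt (dv n g a) b
    rw [ev (j := i.succ) hs a, Pl.ord_mul _ (pow_ne_zero _ (x_ne hs _))
      fun e => b (inj hs a e ▸ dvd_zero _), Pl.ord_pow, Fin.cons_succ]
    omega
  obtain ⟨-, -, -, c4, c5, -⟩ := czr c 0 K s ![] r
  obtain a | ⟨_ | p, a⟩ := ovhr24 pol c K s P (X 0) hs X_prime fun n g h a a' b b' =>
    (k n g a b).trans (k n h a' b').symm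
  · exact absurd (c5 P (.inl a) i) n.not_ge
  · exact ⟨a, by have := c4 P a i; omega⟩
  · exact absurd (c5 P (.inr ⟨p, a⟩) i) n.not_ge

end field

open Vale.Agent.P283M.Stm Vale.Agent.P283M.Stm.Var Vale.Agent.P283M.Br Vale.Agent.P283R.Gl

/-- **the prime divisors of the projective space** -/
theorem primes (c : ℕ) : ∃ (Y : Var) (s : Fin c → Y.K), D.Rat (fr s ![]) ∧
    (∀ F : Y.PrimeDiv, ∃ r, At s (pq F) r ∧ mu s (pq F) r = 1) ∧
    (∀ p, ∃ F : Y.PrimeDiv, At s (pq F) (some p) ∧ mu s (pq F) (some p) = 1) ∧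
    (0 < c → ∃ F : Y.PrimeDiv, At s (pq F) none ∧ mu s (pq F) none = 1) := by
  classical
  obtain ⟨Y, s, U, hs, cov, af, gn, rg, un⟩ := exists_pp c
  replace rg : ∀ j g, g ∈ Am.reg (U j) ↔ ∃ G, aeval (R := ℂ) (tc s j) G = g := fun j g => by
    rw [rg, Algebra.adjoin_range_eq_range_aeval]
    rfl
  have r : D.Rat (fr s ![]) := rat0 hs fun a => by
    obtain ⟨b, h1, h2, h3⟩ := Am.frac (af 0) (gn 0) (P270L.S.mem_loc_gen a)
    have k : ∀ g ∈ Am.reg (U 0), g ∈ IntermediateField.adjoin ℂ (range s) := fun g h => by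
      obtain ⟨G, rfl⟩ := (rg 0 g).1 h
      rw [tc0, deh]
      exact IntermediateField.algebra_adjoin_le_adjoin _ _
        (Algebra.adjoin_range_eq_range_aeval ℂ s ▸ ⟨_, rfl⟩)
    rw [← mul_div_cancel_left₀ a h2.1]
    exact div_mem (k _ h3) (k _ h1)
  have ch : ∀ (F : Y.PrimeDiv) j, F.1 ∈ U j → Ch s j (pq F) := fun F j h =>
    ⟨fun G => (pq_is F _).2 (Am.mem_reg.1 ((rg j _).2 ⟨G, rfl⟩) _ h), fun a ha => by
      obtain ⟨b, h1, h2, h3⟩ := Am.frac (f := a) (af j) h ((pq_is F a).1 ha)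
      obtain ⟨G, rfl⟩ := (rg j _).1 h1
      obtain ⟨H, e⟩ := (rg j _).1 h3
      exact ⟨G, H, h2.1, (pq_is F).dom.ord h2, e.symm⟩⟩
  have cls : ∀ F : Y.PrimeDiv, ∃ r, At s (pq F) r ∧ mu s (pq F) r = 1 := fun F => by
    by_cases z : F.1 ∈ U 0
    · exact let ⟨p, h⟩ := at_some hs (ch F 0 z); ⟨_, h⟩
    obtain ⟨j, hj⟩ := cov F.1
    obtain ⟨i, rfl⟩ := Fin.exists_succ_eq.2 (fun e : j = 0 => z (e ▸ hj))
    refine ⟨_, at_none hs r (ch F _ hj) (not_le.1 fun k => z (un _ _ hj ⟨hs.ne_zero i,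
      (pq_is F _).1 ((Pl.ord_nonneg_iff _ (hs.ne_zero i)).1 k), (pq_is F _).1 ?_⟩))⟩
    have := (ch F _ hj).1 (X 0)
    rwa [aeval_X, tc, Fin.cons_zero, one_div] at this
  have hr : ∀ (g : Y.K) j, (∀ F : Y.PrimeDiv, 0 ≤ (pq F).ord g) →
      ∃ G, aeval (R := ℂ) (tc s j) G = g := fun g j h =>
    (rg j g).1 (Am.mem_reg.2 fun x _ => har Y g x fun F _ => (h F).trans (pq_ord F g).ge)
  refine ⟨Y, s, r, cls, fun p => by_contra fun k => ?_, fun c0 => by_contra fun k => ?_⟩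
  · obtain ⟨G, e⟩ := hr (lam s p)⁻¹ 0 fun F => by
      obtain ⟨r, a, b⟩ := cls F
      rw [Pl.ord_inv, neg_nonneg]
      exact M29.at_le (.inr ⟨r, a⟩) fun a' =>
        k ⟨F, a', (fac c 0 _ s ![] ‹_›).2.2.2.1 _ _ _ a a' ▸ b⟩
    have l0 : lam s p ≠ 0 := fun z => ((pol c).1 p).1.ne_zero (hs (z.trans (map_zero _).symm))
    rw [tc0, deh, ← one_div, eq_div_iff l0, lam, ← map_mul, ← map_one (aeval (R := ℂ) s)] at e
    exact ((pol c).1 p).1.not_isUnit (IsUnit.of_mul_eq_one_right _ (hs e))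
  · let i : Fin c := ⟨0, c0⟩
    obtain ⟨G, e⟩ := hr (s i) i.succ fun F => by
      obtain ⟨_ | p, a⟩ := cls F
      · exact (k ⟨F, a⟩).elim
      · exact (czr c 0 _ s ![] r).2.2.2.2.1 _ (.inr ⟨p, a.1⟩) i
    obtain ⟨t, W, hW, e'⟩ := hom (j := i.succ) hs G
    have z := inj (j := i.succ) hs (((isHomogeneous_X ℂ 0).mul hW).sub
      (isHomogeneous_X_pow i.succ (1 + t))) (by
        simp only [map_sub, map_mul, map_pow, aeval_X, e', e]
        simp [tc, hs.ne_zero i])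
    exact nd i.succ_ne_zero _ (sub_eq_zero.1 z ▸ dvd_mul_right (X 0) W)

end Vale.Agent.P283R.Cq.P36
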