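import Vale.Agent.P283R.Cq.St
import Vale.Agent.P283R.Cq.Inv12
import Vale.Agent.P283R.Cq.Cz60
import Vale.Agent.P283R.Pq.Mis29

/-!
# P283R, block CQ: the rows on the graded charts
-/

open Set

noncomputable section

namespace Vale.Agent.P283R.Cq

open Vale.Agent.P287D Vale.Agent.P283M Cx
open Vale.Agent.P283M.Stm Vale.Agent.P283M.Stm.Var Vale.Agent.P283M.Br Vale.Agent.P283R.Gl

/-- **RAT** -/
theorem rat54 : RAT := by
  intro X L _ _ _ _ c ρ W y x hL hx hy h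
  obtain ⟨n, hK⟩ := Md.exists_ff X
  have e := (I12.ext (W := W) ⟨hy, h⟩ hx hL hK).2
  refine ⟨e, fun a => ((fin X a).image pq).subset ?_, fun s hs => ?_⟩
  · rintro _ ⟨⟨E, -, rfl⟩, k⟩
    exact ⟨E, by rwa [mem_ofPred, pq_ord], rfl⟩
  · obtain ⟨g, -, hg⟩ := Z60.cn_eq e hs
    refine (((Pq.M29.fin_cn e.ff').union (fin X g)).image pq).subset ?_
    rintro _ ⟨⟨E, -, rfl⟩, k⟩
    refine ⟨E, by_contra fun z => k ?_, rfl⟩
    rw [mem_union, not_or, mem_ofPred, mem_ofPred, not_not, not_not, pq_ord] at z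
    have := hg (pq E)
    rw [z.1, z.2] at this
    push_cast at this
    linarith

/-- **INV** -/
theorem inv54 : INV := by
  rintro X L _ _ _ _ c ρ W y x hL hx hy h _ ⟨E, hE, rfl⟩ n ψ u hu
  obtain ⟨m, hK⟩ := Md.exists_ff X
  exact I12.inv (W := W) ⟨hy, h⟩ (I12.ext (W := W) ⟨hy, h⟩ hx hL hK).2 E hE n ψ u
    (Finsupp.mem_support_iff.1 hu)

/-- **LAU** -/
theorem lau54 : LAU := by
  intro X L _ _ _ _ c ρ W y x hL hx hy h φ φ0 k
  obtain ⟨G, e⟩ := I12.lau (W := W) ⟨hy, h⟩ hx φ φ0 fun E hE t => k _ ⟨E, hE, rfl⟩ t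
  exact ⟨G, e.symm⟩

end Vale.Agent.P283R.Cq
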