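import Vale.Agent.P283R.Cq.St

/-!
# P283R, block CQ: regular functions at the place, the theorem on the tier
-/

open Set

noncomputable section

namespace Vale.Agent.P283R.Cq

open Vale.Agent.P287D Vale.Agent.P283M Cx Cy Vale.Agent.P297Z

theorem R58.term {K ι : Type} [Field K] [Algebra ℂ K] (Q : Pl K) (f : ι → K) (t : Finset ι)
    (h : ∑ i ∈ t, f i ≠ 0) : ∃ i ∈ t, Q.ord (f i) ≤ Q.ord (∑ i ∈ t, f i) ∧ f i ≠ 0 := by
  classical
  by_contra c
  push Not at c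
  have k : ∑ i ∈ t, f i / ((∑ i ∈ t, f i) * Q.t) ∈ Q.ring := sum_mem fun i hi => by
    by_cases z : f i = 0
    · rw [z, zero_div]; exact zero_mem _
    · have t0 := Pb.t_ne Q
      have := lt_of_not_ge fun e => z (c i hi e)
      rw [← Pl.ord_nonneg_iff _ (div_ne_zero z (mul_ne_zero h t0)),
        Pl.ord_div _ z (mul_ne_zero h t0), Pl.ord_mul _ h t0, Pb.ord_t]
      omega
  have t0 := Pb.t_ne Q
  rw [← Finset.sum_div, div_mul_cancel_left₀ h] at k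
  have := Pl.ord_nonneg_of_mem _ k
  rw [Pl.ord_inv, Pb.ord_t] at this
  omega

/-- **REG** -/
theorem reg58 : REG := by
  intro L K _ _ _ _ _ _ c ρ b y T Q ξ φ fm rp φ0 h
  obtain ⟨G, rfl⟩ := fm.lau φ φ0 fun E w _ => h E w
  obtain ⟨u, hu, le, -⟩ := R58.term Q (fun u => hm y (G u) u) G.support φ0
  have e := rp.eq (G u) u (Finsupp.mem_support_iff.1 hu)
  have o : ∀ P, ξ P ≠ 0 → P.ord (lv y G) ≤ P.ord (hm y (G u) u) := fun P z =>
    fm.inv P (rp.sup P z).1 (rp.sup P z).2 G u hu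
  have nn : ∀ P, 0 ≤ ξ P * (P.ord (hm y (G u) u) : ℝ) := fun P => by
    by_cases z : ξ P = 0
    · rw [z, zero_mul]
    · exact mul_nonneg (rp.nn P) (Int.cast_nonneg ((h P (rp.sup P z).1).trans (o P z)))
  have fi : (Function.support fun P => ξ P * (P.ord (hm y (G u) u) : ℝ)).Finite :=
    (fm.fin (hm y (G u) u)).subset fun P b => ⟨(rp.sup P (left_ne_zero_of_mul b)).1,
      Int.cast_ne_zero.1 (right_ne_zero_of_mul b)⟩
  refine ⟨le_trans (by exact_mod_cast (finsum_nonneg nn).trans_eq e) le, fun P x0 p0 => ?_⟩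
  have k : 0 < ξ P * (P.ord (hm y (G u) u) : ℝ) :=
    mul_pos x0 (Int.cast_pos.2 (p0.trans_le (o P x0.ne')))
  exact lt_of_lt_of_le (by exact_mod_cast (k.trans_le (single_le_finsum P fi nn)).trans_eq e) le

/-- **WTR** -/
theorem wtr58 : WTR := by
  intro cd bk ov pq l n q ε q0 e0
  obtain ⟨m, m2, H⟩ := pq l (n + 1) q ε q0 e0
  refine ⟨q * m, Nat.mul_pos q0 (by omega), ?_⟩
  intro L K _ _ _ _ _ _ c ρ u Λ Γ Γ' b y ok hn a fm hi lc nf
  obtain ⟨g, κ, lk, pk⟩ := cd n K u Λ Γ Γ' a L l q c ρ ε b y q0 e0 ok hn fm hi lc nf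
  exact bk n K u Λ Γ Γ' a q m _ g κ q0 m2 lk fun Q o =>
    H L K c ρ b y _ g κ Q pk fun b b0 hb => ov n K u Λ Γ Γ' a Q b o b0 hb

end Vale.Agent.P283R.Cq
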