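import Vale.Agent.P283R.Wc.St
import Vale.Agent.P283R.Sl.Cq

/-!
# P283R, block CQ: torus actions over a base with few Cox generators, the statements
-/

open Set CategoryTheory AlgebraicGeometry

noncomputable section

namespace Vale.Agent.P283R.Cq

open Vale.Agent.P287D Vale.Agent.P283M Cx Cy
open Vale.Agent.P283R.To (mon)
open Wd (Wv Ps Gm)
open Wc (Dr Sec Av Lk AVT BKS OVQ RPR MNU)

/-- the base: pages, divisors, Cox generators, a frame, canonical sections -/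
structure Ba (L : Type) [Field L] [Algebra ℂ L] (c : ℕ) where
  k : ℕ
  N : ℕ
  T : Set (Pl L)
  D : Pl L → Fin k → ℤ
  σ : Fin N → L
  a : Fin N → Fin k → ℤ
  s : Fin c → L
  h : L
  e : Fin k → ℤ
  lam : Pl L → L
  dg : Pl L → Fin k → ℤ
  S : Finset (Pl L)

section defs

variable {L K : Type} [Field L] [Algebra ℂ L] [Field K] [Algebra ℂ K] [Algebra L K]
  {c ρ ρ' r k : ℕ}

open Classical in
/-- the base has at most `l` generators -/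
structure Ba.Ok (b : Ba L c) (l : ℕ) : Prop where
  ff : FF L c
  fr : Frm b.s
  cox : Cox b.T b.D b.σ b.a
  can : Eqv b.T b.D (kap b.s) b.h b.e
  l0 : ∀ p, b.lam p ≠ 0
  lam : ∀ p ∈ b.T, ∀ p' ∈ b.T, p'.ord (b.lam p) + b.dg p ⬝ᵥ b.D p' = if p' = p then 1 else 0
  sup : ∀ p ∈ b.T, p ∉ b.S → b.D p = 0
  bN : b.N ≤ l
  bS : b.S.card ≤ l

/-- `P` lies over the page `p` -/
abbrev At (P : Pl K) (p : Pl L) : Prop := Lies (algebraMap L K) P p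

/-- the multiplicity -/
def mu (P : Pl K) (p : Pl L) : ℤ := P.ord (algebraMap L K p.t)

/-- the order of the form `ds dy / (h y)` -/
def cz (b : Ba L c) (y : Fin ρ → K) (P : Pl K) : ℤ :=
  ⌊lt b.s y P⌋ - 1 - P.ord (algebraMap L K b.h)

/-- the family of the prime divisors; `Hz L y P`: trivial on the homogeneous functions -/
structure Fm (b : Ba L c) (y : Fin ρ → K) (T : Set (Pl K)) : Prop where
  ext : Ext L c y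
  fin : ∀ a : K, {P | P ∈ T ∧ P.ord a ≠ 0}.Finite
  finc : {P | P ∈ T ∧ cz b y P ≠ 0}.Finite
  inv : ∀ P ∈ T, ¬ Hz L y P → Gm (K := L) y P
  lau : ∀ φ : K, φ ≠ 0 → (∀ P ∈ T, Hz L y P → 0 ≤ P.ord φ) →
    ∃ ψ : (Fin ρ → ℤ) →₀ L, lv y ψ = φ
  eqn : ∀ a : Pl K → ℤ, {P | a P ≠ 0}.Finite →
    ∃ φ : K, φ ≠ 0 ∧ ∀ P ∈ T, Hz L y P → P.ord φ = a P
  kt : ∀ P ∈ T, Hz L y P → cz b y P = 0
  mis : {p | p ∈ b.T ∧ ¬ ∃ P ∈ T, At P p}.Finite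
  pg : ∀ P ∈ T, Trv (algebraMap L K) P ∨ ∃ p ∈ b.T, At P p

/-- the invariant primes which are not over a page outside of `J` -/
def Kt (y : Fin ρ → K) (T : Set (Pl K)) (J : Finset (Pl L)) : Set (Pl K) :=
  {P | P ∈ T ∧ ¬ Hz L y P ∧ ∀ p ∉ J, ¬ At P p}

variable (L) in
/-- `Q` is a combination of invariant primes on the homogeneous functions -/
structure Rep (y : Fin ρ → K) (T : Set (Pl K)) (Q : Pl K) (ξ : Pl K → ℝ) : Prop where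
  nn : 0 ≤ ξ
  sup : ∀ P, ξ P ≠ 0 → P ∈ T ∧ ¬ Hz L y P
  eq : ∀ (φ : L) u, φ ≠ 0 → ∑ᶠ P, ξ P * P.ord (hm y φ u) = Q.ord (hm y φ u)

/-- `ε`-lc and nef -/
def Hw (q : ℕ) (ε : ℝ) (b : Ba L c) (y : Fin ρ → K) (T : Set (Pl K)) (g : K) (κ : Pl K → ℤ) :
    Prop :=
  ∀ Q ξ, Rep L y T Q ξ → ε * q ≤ q * (cz b y Q + 1) - Q.ord g - ∑ᶠ P, ξ P * κ P

/-- the package -/
structure Pk (l d q : ℕ) (ε : ℝ) (b : Ba L c) (y : Fin ρ → K) (T : Set (Pl K)) (g : K)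
    (κ : Pl K → ℤ) : Prop where
  ok : b.Ok l
  dim : c + ρ = d
  fm : Fm b y T
  g0 : g ≠ 0
  reg : ∀ P ∈ T, Hz L y P → 0 ≤ P.ord g ∧ κ P = 0
  fin : {P | P ∈ T ∧ κ P ≠ 0}.Finite
  eff : ∀ P ∈ T, q * cz b y P - P.ord g ≤ κ P
  hw : Hw q ε b y T g κ
  av : Av d q ε (cz b y) T g κ

/-- the functions `x` are units along the primes over the pages outside of `J` -/
def Un {ι : Type} (T : Set (Pl K)) (J : Finset (Pl L)) (x : ι → K) : Prop :=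
  ∀ P ∈ T, ∀ p ∉ J, At P p → ∀ i, x i ≠ 0 → P.ord (x i) = 0

/-- `J` contains the support of `D`, the other pages are reduced and carry no boundary -/
structure Od (b : Ba L c) (y : Fin ρ → K) (T : Set (Pl K)) (J : Finset (Pl L)) (κ : Pl K → ℤ) :
    Prop where
  co : b.S ⊆ J
  od : ∀ P ∈ T, ∀ p ∉ J, At P p → mu P p = 1 ∧ cz b y P = 0 ∧ κ P = 0

/-- the pages outside of `I` are ordinary -/
structure Or (b : Ba L c) (y : Fin ρ → K) (T : Set (Pl K)) (ψ : (Fin ρ → ℤ) →₀ L) (κ : Pl K → ℤ)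
    (I : Finset (Pl L)) : Prop where
  ex : ∀ p ∈ b.T, p ∉ I → ∃ P ∈ T, At P p
  od : Od b y T I κ
  y0 : Un T I y
  g0 : Un T I fun u => hm y (ψ u) u
  s0 : ∀ j, ∀ p ∈ b.T, p ∉ I → p.ord (b.σ j) = 0

/-- two frames of the same action -/
def Eqf (b : Ba L c) (y : Fin ρ → K) (y' : Fin ρ' → K) : Prop :=
  ρ' = ρ ∧ Ext L c y' ∧ (∀ P, cz b y' P = cz b y P) ∧
    ∃ (e : (Fin ρ → ℤ) ≃+ (Fin ρ' → ℤ)) (w : (Fin ρ → ℤ) → L),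
      ∀ m, w m ≠ 0 ∧ mon y m = hm y' (w m) (e m)

/-- many pages see every direction -/
def Wi (W : ℕ) (u : Fin ρ → K) (T : Set (Pl K)) (I J : Finset (Pl L)) : Prop :=
  ∀ ν : Fin ρ → ℤ, ν ≠ 0 → W ≤ {p | p ∈ I ∧ p ∉ J ∧ ∃ P ∈ T, ∃ P' ∈ T, At P p ∧ At P' p ∧
    (fun i => P.ord (u i)) ⬝ᵥ ν ≠ (fun i => P'.ord (u i)) ⬝ᵥ ν}.ncard

/-- the wide state -/
structure Sc (W l q : ℕ) (ε : ℝ) (b : Ba L c) (y : Fin r → K) (u : Fin ρ → K) (T : Set (Pl K))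
    (ψ : (Fin (r + ρ) → ℤ) →₀ L) (κ : Pl K → ℤ) (Q : Pl K) (ξ : Pl K → ℝ) (I J : Finset (Pl L)) :
    Prop where
  pk : Pk l (c + r + ρ) q ε b (Fin.append y u) T (lv (Fin.append y u) ψ) κ
  g0 : ψ 0 ≠ 0
  rep : Rep L (Fin.append y u) T Q ξ
  pos : ∀ P ∈ T, ∀ p ∈ I, p ∉ J → At P p → 0 < ξ P
  od : Od b (Fin.append y u) T J κ
  y1 : Un T J y
  u0 : Un T I u
  wi : Wi W u T I J

/-- `f` is the equation of the empty pages outside of `J` -/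
def Ef (b : Ba L c) (T : Set (Pl K)) (J : Finset (Pl L)) (f : L) : Prop :=
  ∃ E : Finset (Pl L), (∀ p, p ∈ E ↔ p ∈ b.T ∧ p ∉ J ∧ ¬ ∃ P ∈ T, At P p) ∧ f = ∏ p ∈ E, b.lam p

/-- the visible monomials -/
def Mo (b : Ba L c) (y : Fin r → K) (J : Finset (Pl L)) (f : L) (φ : K) : Prop :=
  ∃ (n : Pl L →₀ ℤ) (v : Fin r → ℤ) (a : ℕ) (w : Fin b.N → ℕ),
    (∀ p ∈ n.support, p ∈ J ∧ p ∈ b.T) ∧
    φ = hm y ((n.prod fun p i => b.lam p ^ i) * (∏ j, b.σ j ^ w j) / f ^ a) v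

variable (L) in
/-- the small field -/
abbrev Sm (y : Fin r → K) : Type := IntermediateField.adjoin L (range y)

variable (L) in
/-- its generators -/
def sm (y : Fin r → K) (i : Fin r) : Sm L y := ⟨y i, IntermediateField.subset_adjoin _ _ ⟨i, rfl⟩⟩

variable [IsScalarTower ℂ L K]

/-- visible monomials generate the sections in the small field -/
structure Gn {E : ℕ} (b : Ba L c) (y : Fin r → K) (T : Set (Pl K)) (J : Finset (Pl L)) (f : L)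
    (e : Fin k → Pl K) (s' : Fin E → Sm L y) (a' : Fin E → Fin k → ℤ) : Prop where
  ne : ∀ j, s' j ≠ 0
  mo : ∀ n : Fin E → ℕ, Mo b y J f (∏ j, (s' j : K) ^ n j)
  sec : ∀ (δ : Fin k → ℤ) (z : Sm L y), z ≠ 0 →
    (z ∈ Sp s' a' δ ↔ ∀ P ∈ T, 0 ≤ P.ord (z : K) + δ ⬝ᵥ Dr e P)

/-- the pages of the wide state -/
structure Pd (b : Ba L c) (y : Fin r → K) (u : Fin ρ → K) (T : Set (Pl K)) (I J : Finset (Pl L))
    (e : Fin k → Pl K) (π : Wd.Pg (Pl L) (Sm L y) k ρ) : Prop where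
  hI : ∀ p, p ∈ π.I ↔ p ∈ I ∧ p ∉ J ∧ ∃ P ∈ T, At P p
  hV : ∀ p v, v ∈ π.V p ↔ ∃ P ∈ T, At P p ∧ v = fun i => P.ord (u i)
  hk : ∀ p ∈ π.I, ∀ m, (∀ v ∈ π.V p, 0 ≤ v ⬝ᵥ m + π.κ p m) ∧ ∃ v ∈ π.V p, v ⬝ᵥ m + π.κ p m = 0
  hl : ∀ p, π.l p = algebraMap L (Sm L y) (b.lam p)
  hb : ∀ p i, π.β p i = -(e i).ord (algebraMap L K (b.lam p))
  ha : ∀ j i, π.α j i = -(e i).ord (u j)

end defs

/-- a property of a base, a frame and a set of places -/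
def ForA (p : ∀ (L K : Type) [Field L] [Algebra ℂ L] [Field K] [Algebra ℂ K] [Algebra L K]
    (c ρ : ℕ), Ba L c → (Fin ρ → K) → Set (Pl K) → Prop) : Prop :=
  ∀ (L K : Type) [Field L] [Algebra ℂ L] [Field K] [Algebra ℂ K] [Algebra L K]
    [IsScalarTower ℂ L K] (c ρ : ℕ) (b : Ba L c) (y : Fin ρ → K) (T : Set (Pl K)), p L K c ρ b y T

/-- a property of a base, a split frame and a set of places -/
def ForB (p : ∀ (L K : Type) [Field L] [Algebra ℂ L] [Field K] [Algebra ℂ K] [Algebra L K]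
    [IsScalarTower ℂ L K] (c r ρ : ℕ), Ba L c → (Fin r → K) → (Fin ρ → K) → Set (Pl K) → Prop) :
    Prop :=
  ∀ (L K : Type) [Field L] [Algebra ℂ L] [Field K] [Algebra ℂ K] [Algebra L K]
    [IsScalarTower ℂ L K] (c r ρ : ℕ) (b : Ba L c) (y : Fin r → K) (u : Fin ρ → K)
    (T : Set (Pl K)), p L K c r ρ b y u T

/-! ### the field -/

/-- **CZ**: the invariant form -/
def CZ : Prop := ForX fun L K _ _ _ _ _ c ρ s y => (∀ P, (⌊lt s y P⌋ : ℝ) = lt s y P) ∧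
  (∀ (P : Pl K) (p : Pl L), At P p → mu P p * (1 + kap s p) ≤ lt s y P) ∧
  (∀ P, Trv (algebraMap L K) P → 0 ≤ lt s y P) ∧ (∀ P, Trv (algebraMap L K) P ∨ ∃ p : Pl L, At P p) ∧
  (∃ j : K, j ≠ 0 ∧ ∀ P, cn K (c + ρ) P = lt s y P - 1 + P.ord j) ∧
  ∀ v : Fin ρ → ℤ, v ≠ 0 → ∃ (R : Pl K) (e : ℕ), 0 < e ∧ Trv (algebraMap L K) R ∧
    (∀ j, v j = e * R.ord (y j)) ∧ lt s y R = 0

/-- **GP**: a place over a point of the Cox space of the base -/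
def GP : Prop := ForA fun L K _ _ _ _ _ c _ b _ _ => ∀ (l : ℕ) (Q : Pl K) (x : Fin b.k → ℝ)
  (Em : Set (Pl L)), b.Ok l → (∀ j, 0 ≤ (Q.ord (algebraMap L K (b.σ j)) : ℝ) + pa (b.a j) x) →
    Em.Finite → (∀ p ∈ Em, p ∈ b.T ∧ (Q.ord (algebraMap L K (b.lam p)) : ℝ) + pa (b.dg p) x = 0) →
    ∃ (m : Pl L → ℕ) (e : ℕ), 0 < e ∧ (∀ p ∈ Em, m p = 0) ∧ (∀ p, p ∉ b.T → m p = 0) ∧
      (∀ p ∈ b.T, 0 < (Q.ord (algebraMap L K (b.lam p)) : ℝ) + pa (b.dg p) x → e ≤ m p) ∧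
      (((∀ φ : L, φ ≠ 0 → ∑ᶠ p, (m p : ℤ) * p.ord φ = 0) ∧
          0 ≤ ((c + l) * e : ℤ) + ∑ p ∈ b.S, m p * (b.e ⬝ᵥ b.D p)) ∨
        ∃ (R : Pl L) (a : ℕ), 0 < a ∧ (∀ φ : L, φ ≠ 0 → ∑ᶠ p, (m p : ℤ) * p.ord φ = a * R.ord φ) ∧
          a * (1 + kap b.s R - R.ord b.h) ≤
            (((c + l) * e : ℤ) + ∑ p ∈ b.S, m p * (b.e ⬝ᵥ b.D p) : ℤ))

/-- **CNT**: the counting form of the inequality -/
def CNT : Prop := ForA fun L K _ _ _ _ _ _ ρ b y T => ∀ l d q (ε : ℝ) (ψ : (Fin ρ → ℤ) →₀ L) κ Q ζ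
  (ξ : Pl K → ℝ) (v : Fin ρ → ℤ) (A : ℝ), 0 < ε → Pk l d q ε b y T (lv y ψ) κ → Rep L y T Q ζ →
    0 ≤ ξ → (∀ P, ξ P ≠ 0 → P ∈ T ∧ ¬ Hz L y P) → (∀ j, ∑ᶠ P, ξ P * P.ord (y j) = v j) →
    (((∀ φ : L, φ ≠ 0 → ∑ᶠ P, ξ P * P.ord (algebraMap L K φ) = 0) ∧ 0 ≤ A) ∨
      ∃ (R : Pl L) (a : ℕ), 0 < a ∧
        (∀ φ : L, φ ≠ 0 → ∑ᶠ P, ξ P * P.ord (algebraMap L K φ) = a * R.ord φ) ∧
        a * (1 + kap b.s R - R.ord b.h) ≤ A) →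
    ∃ u, ψ u ≠ 0 ∧ ∑ᶠ P, ξ P * P.ord (hm y (ψ u) u) + ∑ᶠ P, ξ P * κ P ≤ q * A

/-! ### the reduction to the wide state -/

/-- **CD0**: the package of a pair -/
def CD0 : Prop := Wc.ForD fun n K _ _ u Λ Γ => ∀ (L : Type) [Field L] [Algebra ℂ L] [Algebra L K]
  [IsScalarTower ℂ L K] (l q c ρ : ℕ) (ε : ℝ) (b : Ba L c) (y : Fin ρ → K), 0 < q → 0 < ε →
    b.Ok l → c + ρ = n + 1 → Fm b y (Tt n u Λ) →
    (∀ R ∈ Tt n u Λ, dsc (n + 1) Γ R ≤ 0 ∧ ∃ m : ℤ, q * dsc (n + 1) Γ R = m) →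
    (∀ R, Ov u R → ε ≤ 1 + dsc (n + 1) Γ R) → NefO n K u (-Γ) →
    ∃ g κ, Lk n q Γ (cz b y) (Tt n u Λ) g κ ∧ Pk l (n + 1) q ε b y (Tt n u Λ) g κ

/-- **ORD** -/
def ORD : Prop := ForA fun _ _ _ _ _ _ _ _ _ b y T => ∀ l d q ε g κ, Pk l d q ε b y T g κ →
  ∃ ψ I, g = lv y ψ ∧ Or b y T ψ κ I

/-- **GT**: Goldman and Tucker -/
def GT : Prop := ForA fun L K _ _ _ _ _ _ _ b y T => ∀ l ψ κ I (Q : Pl K), b.Ok l → Fm b y T →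
  Or b y T ψ κ I → (∀ a : K, a ≠ 0 → (∀ P ∈ T, 0 ≤ P.ord a) → 0 ≤ Q.ord a) →
    ∃ (X : Set (Pl K)) (χ : K) (ξ : Pl K → ℝ), X.Finite ∧ X ⊆ Kt y T I ∧ χ ≠ 0 ∧
      (∀ P ∈ T, 0 ≤ P.ord χ) ∧ (∀ P ∈ X, 0 < P.ord χ) ∧ Q.ord χ = 0 ∧ Rep L y (T \ X) Q ξ ∧
      ∀ P ∈ Kt y (T \ X) I, 0 < ξ P

/-- **DRP**: invariant primes are dropped -/
def DRP : Prop := ForA fun L K _ _ _ _ _ _ _ b y T => ∀ l d q ε g κ (X : Set (Pl K)),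
  Pk l d q ε b y T g κ → X.Finite → (∀ P ∈ X, ¬ Hz L y P) → Pk l d q ε b y (T \ X) g κ

/-- **PAGE**: few special pages -/
def PAGE : Prop := ∀ l d q : ℕ, 0 < q → ∃ C : ℕ, ForA fun L _ _ _ _ _ _ _ _ b y T =>
  ∀ (ε : ℝ) ψ κ I Q ξ, 0 < ε → Pk l d q ε b y T (lv y ψ) κ → Or b y T ψ κ I → Rep L y T Q ξ →
    (∀ P ∈ Kt y T I, 0 < ξ P) →
    ∃ u J, ψ u ≠ 0 ∧ J.card ≤ C ∧ Od b y T J fun P => κ P + P.ord (hm y (ψ u) u)

/-- **NRM**: division by a term -/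
def NRM : Prop := ForA fun L _ _ _ _ _ _ _ ρ b y T => ∀ l d q ε (ψ : (Fin ρ → ℤ) →₀ L) κ u,
  Pk l d q ε b y T (lv y ψ) κ → ψ u ≠ 0 → ∃ ψ' : (Fin ρ → ℤ) →₀ L, ψ' 0 ≠ 0 ∧
    Pk l d q ε b y T (lv y ψ') (fun P => κ P + P.ord (hm y (ψ u) u)) ∧ ∀ m z Q,
      Sec q m z T (lv y ψ') (fun P => κ P + P.ord (hm y (ψ u) u)) Q → Sec q m z T (lv y ψ) κ Q

/-- **BAS**: another basis of the lattice, twisted by invariant functions -/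
def BAS : Prop := ForA fun L _ _ _ _ _ _ c ρ b y _ => ∀ (r ρ' : ℕ) (h : r + ρ' = ρ)
  (A B : Matrix (Fin ρ) (Fin ρ) ℤ) (φ : Fin ρ → L) (y' : Fin r → _) (u : Fin ρ' → _), Ext L c y →
    Frm b.s → B * A = 1 → (∀ i, φ i ≠ 0) →
    (∀ i, Fin.append y' u i = hm y (φ (Fin.cast h i)) (A (Fin.cast h i))) →
    Eqf b y (Fin.append y' u)

/-- **SPL**: the gap and the adapted frame -/
def SPL : Prop := ∀ (W : ℕ → ℕ) (d C₀ : ℕ), ∃ C : ℕ, ForA fun L K _ _ _ _ _ c ρ b y T =>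
  ∀ l κ (I J₀ : Finset (Pl L)), c + ρ = d → b.Ok l → Fm b y T → J₀.card ≤ C₀ → Od b y T J₀ κ →
    b.S ⊆ I → Un T I y → ∃ (J : Finset (Pl L)) (r ρ' : ℕ) (y' : Fin r → K) (u : Fin ρ' → K),
      J₀ ⊆ J ∧ J.card ≤ C ∧ Eqf b y (Fin.append y' u) ∧ Un T J y' ∧ Un T I u ∧
        Wi (W J.card) u T I J

/-- **EQF**: change of the frame -/
def EQF : Prop := ForA fun L K _ _ _ _ _ _ ρ b y T => ∀ (ρ' : ℕ) (y' : Fin ρ' → K), Eqf b y y' →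
  (∀ l d q ε g κ, Pk l d q ε b y T g κ → Pk l d q ε b y' T g κ) ∧
    (∀ Q ξ, Rep L y T Q ξ → Rep L y' T Q ξ) ∧ (∀ J κ, Od b y T J κ → Od b y' T J κ) ∧
    ∀ ψ : (Fin ρ → ℤ) →₀ L, ψ 0 ≠ 0 → ∃ ψ' : (Fin ρ' → ℤ) →₀ L, ψ' 0 ≠ 0 ∧ lv y' ψ' = lv y ψ

/-! ### the wide state -/

/-- **CAR**: Caratheodory -/
def CAR : Prop := ForA fun L K _ _ _ _ _ _ ρ b y T => ∀ J : Finset (Pl L), Fm b y T →
  (Kt y T J).Finite ∧ (∃ f, Ef b T J f) ∧ ∀ Q ξ, Rep L y T Q ξ →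
    ∃ (ξ' : Pl K → ℝ) (t : Finset (Pl K)), Rep L y T Q ξ' ∧ t.card ≤ ρ + J.card ∧
      ↑t ⊆ Kt y T J ∧ (∀ P ∈ Kt y T J, ξ' P ≠ 0 → P ∈ t) ∧ ∀ P ∉ Kt y T J, ξ' P = ξ P

/-- **REG**: regular functions at `Q` -/
def REG : Prop := ForA fun L K _ _ _ _ _ _ _ b y T => ∀ Q ξ (φ : K), Fm b y T → Rep L y T Q ξ →
  φ ≠ 0 → (∀ P ∈ T, 0 ≤ P.ord φ) → 0 ≤ Q.ord φ ∧ ∀ P, 0 < ξ P → 0 < P.ord φ → 0 < Q.ord φ

/-- **TWR**: the tower and the components over the small field -/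
def TWR : Prop := ForB fun L _ _ _ _ _ _ _ c r ρ b y u _ => Ext L c (Fin.append y u) → Frm b.s →
  Ext L c (sm L y) ∧ Ext (Sm L y) (c + r) u ∧
    (∀ P, kap (zt (zt b.s (sm L y)) u) P = kap (zt b.s (Fin.append y u)) P) ∧
    ∀ ψ : (Fin (r + ρ) → ℤ) →₀ L, ∃ γ : (Fin ρ → ℤ) →₀ Sm L y, lv u γ = lv (Fin.append y u) ψ ∧
      (∀ m, hm u (γ m) m ∈ Submodule.span ℂ (range fun w => hm (Fin.append y u) (ψ w) w)) ∧
      (∀ m, ∃ χ : (Fin r → ℤ) →₀ L, γ m = lv (sm L y) χ ∧ ∀ v, χ v = ψ (Fin.append v m)) ∧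
      (ψ 0 ≠ 0 → γ 0 ≠ 0)

/-- **IND**: the primes over one page agree on the small field -/
def IND : Prop := ForB fun L K _ _ _ _ _ _ _ _ _ b y u T => ∀ J κ, Fm b (Fin.append y u) T →
  Od b (Fin.append y u) T J κ → Un T J y → ∀ p ∉ J, ∀ P ∈ T, ∀ P' ∈ T, At P p → At P' p →
    ∀ z : Sm L y, z ≠ 0 → P.ord (z : K) = P'.ord (z : K)

/-- **GEN**: the generators -/
def GEN : Prop := ForB fun _ K _ _ _ _ _ _ _ r _ b y u T => ∀ l J f (k : ℕ) (e : Fin k → Pl K),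
  b.Ok l → Fm b (Fin.append y u) T → b.S ⊆ J → Un T J y → Ef b T J f → Function.Injective e →
    range e = Kt (Fin.append y u) T J → ∃ (E : ℕ) (s' : Fin E → _) (a' : Fin E → Fin k → ℤ),
      E ≤ k + 2 * (J.card + r + 1) + l ∧ Gn b y T J f e s' a'

/-- **PDX**: the pages exist -/
def PDX : Prop := ForB fun _ K _ _ _ _ _ _ _ _ _ b y u T => ∀ W I J (k : ℕ) (e : Fin k → Pl K),
  Fm b (Fin.append y u) T → Wi W u T I J → ∃ π, Pd b y u T I J e π ∧ π.Wid W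

/-- **WV1** -/
def WV1 : Prop := ForB fun _ K _ _ _ _ _ _ _ _ _ b y u T => ∀ W l q ε ψ κ Q ξ I J f (k N E : ℕ)
  (e : Fin k → Pl K) π (σ : Fin N → K) α (s' : Fin E → _) a', Sc W l q ε b y u T ψ κ Q ξ I J →
    Function.Injective e → range e = Kt (Fin.append y u) T J → Pd b y u T I J e π →
    Cox T (Dr e) σ α → Gn b y T J f e s' a' → Wv π u σ α s' a'

/-- **WV2** -/
def WV2 : Prop := ForB fun _ K _ _ _ _ _ _ _ _ _ b y u T => ∀ W l q ε ψ κ Q ξ I J (k N : ℕ)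
  (e : Fin k → Pl K) π (σ : Fin N → K) α, 1 ≤ W → Sc W l q ε b y u T ψ κ Q ξ I J →
    Function.Injective e → range e = Kt (Fin.append y u) T J → Pd b y u T I J e π → π.Wid W →
    Cox T (Dr e) σ α → Ps π u σ α Q

/-- **MON**: few kept primes -/
def MON : Prop := ∀ (B q : ℕ) (ε : ℝ), 0 < q → 0 < ε → ∃ W m : ℕ, 2 ≤ m ∧
  ForB fun _ K _ _ _ _ _ _ c r ρ b y u T => ∀ l ψ κ Q ξ I J f, l ≤ B → c + r + ρ ≤ B → J.card ≤ B →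
    Sc W l q ε b y u T ψ κ Q ξ I J → Ef b T J f → (Kt (Fin.append y u) T J).ncard ≤ B →
    ∃ φ : K, Mo b y J f φ ∧ (∀ P ∈ Kt (Fin.append y u) T J, m * κ P ≤ P.ord φ) ∧
      Q.ord (lv (Fin.append y u) ψ ^ m * φ) < q * m * (cz b (Fin.append y u) Q + 1)

/-- **WID**: the wide state -/
def WID : Prop := ∀ (B q : ℕ) (ε : ℝ), 0 < q → 0 < ε → ∃ W m : ℕ, 2 ≤ m ∧
  ForB fun _ _ _ _ _ _ _ _ c r ρ b y u T => ∀ l ψ κ Q ξ I J, l ≤ B → c + r + ρ ≤ B → J.card ≤ B →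
    Sc W l q ε b y u T ψ κ Q ξ I J →
    Sec q m (cz b (Fin.append y u)) T (lv (Fin.append y u) ψ) κ Q

/-- **PQ**: the theorem at one place -/
def PQ : Prop := ∀ (l d q : ℕ) (ε : ℝ), 0 < q → 0 < ε → ∃ m : ℕ, 2 ≤ m ∧
  ForA fun _ K _ _ _ _ _ _ _ b y T => ∀ g κ (Q : Pl K), Pk l d q ε b y T g κ →
    (∀ a : K, a ≠ 0 → (∀ P ∈ T, 0 ≤ P.ord a) → 0 ≤ Q.ord a) → Sec q m (cz b y) T g κ Q

/-- **WT**: the theorem on the tier -/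
def WT : Prop := ∀ (l n q : ℕ) (ε : ℝ), 0 < q → 0 < ε → ∃ M : ℕ, 1 ≤ M ∧
  ∀ (L K : Type) [Field L] [Algebra ℂ L] [Field K] [Algebra ℂ K] [Algebra L K]
    [IsScalarTower ℂ L K] (c ρ : ℕ) (u : Finset K) (Λ Γ Γ' : BD K) (b : Ba L c) (y : Fin ρ → K),
    b.Ok l → c + ρ = n + 1 → Dat n u Λ Γ Γ' → Fm b y (Tt n u Λ) →
    (∀ R ∈ Tt n u Λ, dsc (n + 1) Γ R ≤ 0 ∧ ∃ m : ℤ, q * dsc (n + 1) Γ R = m) →
    (∀ R, Ov u R → ε ≤ 1 + dsc (n + 1) Γ R) → NefO n K u (-Γ) → Cpl n M u Λ Γ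

/-! ### the schemes -/

section sch

open Vale.Agent.P289 (Pt)
open Vale.Agent.P283M.Stm Vale.Agent.P283M.Stm.Var Vale.Agent.P283M.Br Vale.Agent.P283R.Gl

/-- a property of a variety with graded charts; the last argument is the set of the primes -/
def ForS (p : ∀ (L K : Type) [Field L] [Algebra ℂ L] [Field K] [Algebra ℂ K] [Algebra L K]
    (_ ρ : ℕ), (Fin ρ → K) → Set (Pl K) → Prop) : Prop :=
  ∀ (X : Var) (L : Type) [Field L] [Algebra ℂ L] [Algebra L X.K] [IsScalarTower ℂ L X.K] (c ρ : ℕ)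
    (W : X.X.Opens) (y : Fin ρ → X.K) (x : Pt X.X), FF L c → x ∈ W → AlgebraicIndependent L y →
    (∀ x ∈ W, ∃ U ≤ W, IsAffineOpen U ∧ x ∈ U ∧ ∀ g, (∀ x' ∈ U, RegAt g x') → g ∈ Submodule.span ℂ
      {b ∈ {b | ∀ x' ∈ U, RegAt b x'} | ∃ (φ : L) (m : Fin ρ → ℤ), b = hm y φ m}) →
    p L X.K c ρ y {P | ∃ E : X.PrimeDiv, E.1 ∈ W ∧ pq E = P}

/-- **RAT** -/
def RAT : Prop := ForS fun L K _ _ _ _ _ c _ y T => Ext L c y ∧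
  (∀ a : K, {P | P ∈ T ∧ P.ord a ≠ 0}.Finite) ∧
  ∀ s : Fin c → L, Frm s → {P | P ∈ T ∧ lt s y P ≠ 1}.Finite

/-- **INV** -/
def INV : Prop := ForS fun L _ _ _ _ _ _ _ _ y T => ∀ P ∈ T, ¬ Hz L y P → Gm (K := L) y P

/-- **LAU** -/
def LAU : Prop := ForS fun L K _ _ _ _ _ _ ρ y T => ∀ φ : K, φ ≠ 0 →
  (∀ P ∈ T, Hz L y P → 0 ≤ P.ord φ) → ∃ ψ : (Fin ρ → ℤ) →₀ L, lv y ψ = φ

/-- **EQK** -/
def EQK : Prop := ForS fun L K _ _ _ _ _ c _ y T =>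
  (∀ a : Pl K → ℤ, {P | a P ≠ 0}.Finite → ∃ φ : K, φ ≠ 0 ∧ ∀ P ∈ T, Hz L y P → P.ord φ = a P) ∧
    ∀ s : Fin c → L, Frm s → ∀ P ∈ T, Hz L y P → lt s y P = 1

/-- **MIS** -/
def MIS : Prop := ForS fun L _ _ _ _ _ _ c _ _ T => ∀ (b : Ba L c) (l : ℕ), b.Ok l →
    {p | p ∈ b.T ∧ ¬ ∃ P ∈ T, At P p}.Finite

end sch

open Sl Sl.Var in
/-- **BASE**: the Cox data of the base -/
def BASE : Prop := ∀ (Y : Sl.Var) (l k : ℕ) (D : Fin k → Y.PrimeDiv),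
  GradedGen l (fun m => sections (all Y.X) (comb (fun i => .single (D i) 1) m)) →
  (∀ G : Y.Div, InSpan (all Y.X) (fun i => .single (D i) 1) fun F => G F) →
    ∃ (c : ℕ) (b : Ba Y.K c), b.Ok l ∧ b.T = range (Gl.pq (X := Y.o))

open Sl Sl.Var in
/-- **TXT**: from the text to the family -/
def TXT : Prop := ∀ (l : ℕ) (X : Sl.Var) (W : X.X.Opens) (x : Pt X.X), x.In W → CoxQuotient l W →
  ∃ (L : Type) (_ : Field L) (_ : Algebra ℂ L) (_ : Algebra L X.K) (_ : IsScalarTower ℂ L X.K)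
    (c ρ : ℕ) (b : Ba L c) (y : Fin ρ → X.K),
    b.Ok l ∧ Fm b y {P | ∃ E : X.o.PrimeDiv, E.1 ∈ W ∧ Gl.pq E = P}

open Sl Sl.Var in
/-- **ON** -/
def ON : Prop := ∀ M : ℕ → ℕ, On fun d _ Z f ω B z => FanoType f ω ∧ NefOver f (-logCan ω B) ∧
  ∃ V : Z.X.Opens, IsAffineOpen V ∧ z.In V ∧ CoxQuotient (M d) (pre f V)

/-! ### the glue -/

/-- **GPR** -/
def GPR : Prop := CZ → GP

/-- **CNR** -/
def CNR : Prop := CZ → CNT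

/-- **CDR** -/
def CDR : Prop := CZ → AVT → CD0

/-- **ORR** -/
def ORR : Prop := CZ → ORD

/-- **PGR** -/
def PGR : Prop := CZ → GP → CNT → PAGE

/-- **SPR** -/
def SPR : Prop := BAS → SPL

/-- **GNR** -/
def GNR : Prop := TWR → GEN

/-- **W1R** -/
def W1R : Prop := TWR → IND → WV1

/-- **W2R** -/
def W2R : Prop := REG → WV2

/-- **MOR** -/
def MOR : Prop := CZ → CAR → TWR → GEN → PDX → WV1 → WV2 → MNU → MON

/-- **HLR** -/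
def HLR : Prop := DRP → CAR → MON → WID

/-- **PQR** -/
def PQR : Prop := ORD → GT → DRP → RPR → PAGE → NRM → SPL → EQF → WID → PQ

/-- **WTR** -/
def WTR : Prop := CD0 → BKS → OVQ → PQ → WT

/-- **TXR** -/
def TXR : Prop := CZ → RAT → INV → LAU → EQK → MIS → BASE → TXT

/-- **ONR** -/
def ONR : Prop := TXT → WT → ON

end Vale.Agent.P283R.Cq
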