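import Vale.Agent.P283R.Cq.St
import Vale.Agent.P283R.Cq.Su42

/-!
# P283R, block CQ: the class over any neighbourhood
-/

open Set CategoryTheory AlgebraicGeometry

noncomputable section

namespace Vale.Agent.P283R.Cq

section

open Vale.Agent.P289 (Pt)
open Vale.Agent.P283M Stm Stm.Var Br Gl

theorem S42.sum' {X Y Z : Var} {f : X.X ⟶ Z.X} {z : Pt Z.X} {W : Z.X.Opens} {r : ℕ}
    (φ : Y.K →ₐ[ℂ] X.K) (y : Fin r → X.K) (hf : Contraction f) (zW : z ∈ W)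
    (a : ∀ p : MvPolynomial (Fin r) Y.K, p.eval₂ φ y = 0 → p = 0)
    (b : ∀ x ∈ f ⁻¹ᵁ W, ∃ U ≤ f ⁻¹ᵁ W, IsAffineOpen U ∧ x ∈ U ∧ ∀ g, (∀ x' ∈ U, RegAt g x') →
      g ∈ Submodule.span ℂ {b | (∀ x' ∈ U, RegAt b x') ∧
        ∃ (c : Y.K) (m : Fin r → ℤ), b = φ c * ∏ i, y i ^ m i}) :
    ∃ V ≤ W, IsAffineOpen V ∧ z ∈ V ∧ ∀ x ∈ f ⁻¹ᵁ V, ∃ U ≤ f ⁻¹ᵁ V, IsAffineOpen U ∧ x ∈ U ∧
      ∀ g, (∀ x' ∈ U, RegAt g x') → g ∈ Submodule.span ℂ {b | (∀ x' ∈ U, RegAt b x') ∧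
        ∃ (c : Y.K) (m : Fin r → ℤ), b = φ c * ∏ i, y i ^ m i} := by
  let _ : Algebra Y.K X.K := φ.toRingHom.toAlgebra
  have : IsScalarTower ℂ Y.K X.K := .of_algebraMap_eq fun c => (φ.commutes c).symm
  have co : I12.CoL Y.K (f ⁻¹ᵁ W) y := ⟨algebraicIndependent_iff.2 a, b⟩
  obtain ⟨x, hx⟩ := hf.2.2.1.surj z
  obtain ⟨c, hc⟩ := Md.exists_ff Y
  obtain ⟨n, hn⟩ := Md.exists_ff X
  obtain ⟨V, v0, v1, v2, v3⟩ := S42.sum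
    (I12.ext co (x := x) (show f x ∈ W from hx ▸ zW) hc hn).2 hf zW co
  exact ⟨V, v0, v1, v2, v3.2⟩

end

open Vale.Agent.P283M Sl Sl.Var

/-- **an invariant affine neighbourhood** -/
theorem sumi42 {X Z : Sl.Var} {f : X.X ⟶ Z.X} {z : Pt Z.X} {W : Z.X.Opens} {l : ℕ}
    (hf : Contraction f) (zW : z.In W) (h : CoxQuotient l (pre f W)) :
    ∃ V ≤ W, IsAffineOpen V ∧ z.In V ∧ CoxQuotient l (pre f V) := by
  obtain ⟨Y, φ, r, k, y, D, a, b, v, w⟩ := h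
  obtain ⟨V, v0, v1, v2, v3⟩ := S42.sum' (X := X.o) (Y := Y.o) (Z := Z.o) φ y hf zW a b
  exact ⟨V, v0, v1, v2, Y, φ, r, k, y, D, a, v3, fun E e => v E (v0 e), w⟩

/-- the class over any neighbourhood -/
theorem on_cqw_of (h : ON) (M : ℕ → ℕ) : On fun d _ Z f ω B z => FanoType f ω ∧
    NefOver f (-logCan ω B) ∧ ∃ W : Z.X.Opens, z.In W ∧ CoxQuotient (M d) (pre f W) :=
  fun d hd ε hε R hR => (h M d hd ε hε R hR).imp fun _ H => ⟨H.1, fun X Z f ω B z a b c e s v u =>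
    let ⟨_, i, j⟩ := u.2.2
    let ⟨V, _, p⟩ := sumi42 s i j
    H.2 X Z f ω B z a b c e s v ⟨u.1, u.2.1, V, p⟩⟩

end Vale.Agent.P283R.Cq
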