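import Vale.Agent.P283R.Cq.St
import Vale.Agent.P283R.Cq.Bas30

/-!
# P283R, block CQ: the rows TWR and BAS
-/

open Set Matrix

noncomputable section

namespace Vale.Agent.P283R.Cq

open Vale.Agent.P287D Cx
open Vale.Agent.P283R.To (mon mon_ne mon_vec)

/-- **TWR** -/
theorem twr30 : TWR := by
  classical
  intro L K _ _ _ _ _ _ c r ρ b y u _ x _
  refine ⟨(T30.tower x).1, (T30.tower x).2, fun P => congrFun (T30.kap_zt b.s y u) P, fun ψ => ?_⟩
  obtain ⟨γ, a, e, d⟩ := T30.cmp0 x.ind ψ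
  refine ⟨γ, a, fun m => ?_, fun m => ?_, d 0⟩
  · rw [e]
    exact Submodule.sum_mem _ fun w _ => Submodule.subset_span ⟨w, rfl⟩
  have inj : Function.Injective fun v : Fin r → ℤ => Fin.append v m := fun v v' h => funext fun i =>
    by simpa using congrFun h (Fin.castAdd ρ i)
  refine ⟨ψ.comapDomain _ inj.injOn, ?_, fun v => rfl⟩
  refine (algebraMap (T30.Sb L y) K).injective (mul_right_cancel₀
    (mon_ne (T30.tower x).2.ind.ne_zero m) ((e m).trans ?_))
  rw [lv, Finsupp.sum, map_sum, Finset.sum_mul]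
  refine (Finset.sum_bij (fun v _ => Fin.append v m) (fun v h => ?_) (fun _ _ _ _ h => inj h)
    (fun w h => ?_) fun v _ => T30.hm_hm' y u (ψ (Fin.append v m)) v m).symm
  · rw [Finsupp.mem_support_iff, Finsupp.comapDomain_apply] at h
    refine Finset.mem_filter.2 ⟨Finsupp.mem_support_iff.2 h, ?_⟩
    simp only [Fin.append_right]
  · obtain ⟨h1, rfl⟩ := Finset.mem_filter.1 h
    have k : Fin.append (fun i => w (Fin.castAdd ρ i)) (fun j => w (Fin.natAdd r j)) = w :=
      funext fun i => by refine Fin.addCases (fun i => ?_) (fun i => ?_) i <;> simp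
    refine ⟨fun i => w (Fin.castAdd ρ i), Finsupp.mem_support_iff.2 ?_, k⟩
    rw [Finsupp.comapDomain_apply, k]
    exact Finsupp.mem_support_iff.1 h1

/-- **BAS** -/
theorem bas30 : BAS := by
  intro L K _ _ _ _ _ _ c ρ b y _ r ρ' h A B φ y' u x f hB p0 e
  subst h
  obtain ⟨a1, a2, -, -, a5⟩ := T30.bas x hB
  obtain ⟨b1, -, b3, b4⟩ := T30.tws a1 p0
  have e' : Fin.append y' u = fun i => algebraMap L K (φ i) * mon y (A i) := funext e
  rw [e']
  refine ⟨rfl, b1, fun P => ?_,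
    ⟨⟨fun m => m ᵥ* B, fun m => m ᵥ* A, fun m => ?_, fun m => ?_⟩, fun m m' => ?_⟩,
    fun m => 1 / mon φ (m ᵥ* B), fun m => ⟨one_div_ne_zero (mon_ne p0 _), ?_⟩⟩
  · have := (b4 b.s f P).trans (a5 b.s f P)
    rw [cz, cz, lt, lt, add_sub_assoc, add_sub_assoc, this]
  · simp only [Matrix.vecMul_vecMul, hB, Matrix.vecMul_one]
  · simp only [Matrix.vecMul_vecMul, mul_eq_one_comm.1 hB, Matrix.vecMul_one]
  · exact Matrix.add_vecMul B m m'
  · refine Eq.trans ?_ (b3 1 _)
    rw [hm, map_one, one_mul]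
    exact (a2 m).symm

end Vale.Agent.P283R.Cq
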