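import Vale.Agent.P283R.Cq.St

/-!
# P283R, block CQ: from the text to the family
-/

open Set CategoryTheory AlgebraicGeometry

noncomputable section

namespace Vale.Agent.P283R.Cq

open Vale.Agent.P287D Vale.Agent.P283M Vale.Agent.P297Z Cx Cy
open Vale.Agent.P283R.To (mon)

theorem lies96 {L K : Type} [Field L] [Algebra ℂ L] [Field K] [Algebra ℂ K] (φ : L →+* K)
    (P : Pl K) (p : Pl L) (μ : ℤ) (h : ∀ c, P.ord (φ c) = μ * p.ord c) :
    Trv φ P ∨ Lies φ P p := by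
  have t0 := Pb.t_ne p
  rcases lt_trichotomy μ 0 with z | z | z
  · have a := h (p.t + 1)
    rw [map_add, map_one, P.ord_add_eq_of_lt ((map_ne_zero φ).2 t0) one_ne_zero
      (by rw [h, Pb.ord_t]; simpa using z), h, Pb.ord_t, add_comm,
      p.ord_add_eq_of_lt one_ne_zero t0 (by rw [Pb.ord_t]; simp)] at a
    exact absurd (by simpa using a) z.ne
  · refine .inl fun f => ?_
    by_cases f0 : f = 0
    · simp [f0]
    · exact (P.ord_nonneg_iff ((map_ne_zero φ).2 f0)).1 (by simp [h, z])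
  · refine .inr fun f => ?_
    by_cases f0 : f = 0
    · simp [f0]
    · rw [← p.ord_nonneg_iff f0, ← P.ord_nonneg_iff ((map_ne_zero φ).2 f0), h,
        mul_nonneg_iff_of_pos_left z]

open Sl Sl.Var Vale.Agent.P283R.Gl in
/-- **TXR** -/
theorem txr96 : TXR := by
  intro _ rat inv lau eqk mis base l X W x hx ⟨Y, φ, r, k, y, D, ind, ch, pg, gen, cl⟩
  obtain ⟨c, b, ok, bT⟩ := base Y l k D gen cl
  let _ : Algebra Y.K X.o.K := φ.toRingHom.toAlgebra
  have : IsScalarTower ℂ Y.K X.o.K := .of_algebraMap_eq fun c => (φ.commutes c).symm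
  have ai : AlgebraicIndependent Y.K (A := X.o.K) y := algebraicIndependent_iff.2 ind
  have ch' : ∀ x ∈ W, ∃ U ≤ W, IsAffineOpen U ∧ x ∈ U ∧ ∀ g, (∀ x' ∈ U, Stm.Var.RegAt (V := X.o) g x') →
      g ∈ Submodule.span ℂ {b ∈ {b | ∀ x' ∈ U, Stm.Var.RegAt (V := X.o) b x'} |
        ∃ (ψ : Y.K) (m : Fin r → ℤ), b = hm y ψ m} := ch
  obtain ⟨r1, r2, r3⟩ := @rat X.o Y.K _ _ _ this c r W y x ok.ff hx ai ch'
  obtain ⟨k1, k2⟩ := @eqk X.o Y.K _ _ _ this c r W y x ok.ff hx ai ch'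
  refine ⟨Y.K, _, _, _, this, c, r, b, y, ok, r1, r2, ?_, @inv X.o Y.K _ _ _ this c r W y x ok.ff hx ai ch',
    @lau X.o Y.K _ _ _ this c r W y x ok.ff hx ai ch', k1, fun P a z => ?_,
    @mis X.o Y.K _ _ _ this c r W y x ok.ff hx ai ch' b l ok, ?_⟩
  · refine ((r3 b.s ok.fr).union (r2 (algebraMap _ _ b.h))).subset fun P a => by_contra fun n => ?_
    have n1 : lt b.s y P = 1 := by_contra fun z => n (.inl ⟨a.1, z⟩)
    have n2 : P.ord (algebraMap Y.K X.o.K b.h) = 0 := by_contra fun z => n (.inr ⟨a.1, z⟩)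
    exact a.2 (show ⌊lt b.s y P⌋ - 1 - P.ord (algebraMap Y.K X.o.K b.h) = 0 by rw [n1, n2]; simp)
  · have := z b.h 0 ok.can.1
    simp only [hm, mon, Pi.zero_apply, zpow_zero, Finset.prod_const_one, mul_one] at this
    simp [cz, k2 b.s ok.fr P a z, this]
  · rintro _ ⟨E, hE, rfl⟩
    have e : ∀ g : X.K, ord g E = (pq (X := X.o) E).ord g := pq_ord (X := X.o) E
    obtain z | ⟨F, μ, z⟩ := pg E hE
    · refine .inl fun f => ?_
      by_cases f0 : f = 0
      · simp [f0]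
      · exact (Pl.ord_nonneg_iff _ ((map_ne_zero _).2 f0)).1 ((e _).symm.trans (z f)).ge
    · exact (lies96 _ _ (pq (X := Y.o) F) μ fun c => (e _).symm.trans ((z c).trans
        (congrArg _ (pq_ord (X := Y.o) F c)))).imp_right fun a => ⟨_, bT ▸ mem_range_self F, a⟩

end Vale.Agent.P283R.Cq
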