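import Vale.Agent.P283R.Cq.St
import Vale.Agent.P283R.Wc.W1r31

/-!
# P283R, block CQ: the sections are free over the sections in the small field
-/

open Set

noncomputable section

namespace Vale.Agent.P283R.Cq

open Vale.Agent.P287D Vale.Agent.P283M Cx Cy Vale.Agent.P297Z
open Vale.Agent.P283R.To (mon mon_ne ord_mon)
open Wd (Wv)
open Wc (Dr)
open Wc.W31 (dr_self dr_not)

open Classical in
theorem w1r31 : W1R := by
  intro twr ind L K _ _ _ _ _ _ c r ρ b y u T W l q ε G₀ κ Q ξ I J f k N E e π σ α s' a' sc he re pd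
    cx gn
  have fm := sc.pk.fm
  have ok := sc.pk.ok
  obtain ⟨-, -, -, cmp⟩ := twr L K c r ρ b y u T fm.ext ok.fr
  have u0 : ∀ i, u i ≠ 0 := fun i => by simpa using fm.ext.ind.ne_zero (Fin.natAdd r i)
  have n1 : ∀ P, Hz L (Fin.append y u) P → P ∉ range e := fun P h a => (re ▸ a : P ∈ Kt _ _ _).2.1 h
  have n2 : ∀ P, ∀ p ∉ J, At P p → P ∉ range e := fun P p hp h a =>
    (re ▸ a : P ∈ Kt _ _ _).2.2 p hp h
  have tri : ∀ P ∈ T, (∃ i, e i = P) ∨ Hz L (Fin.append y u) P ∨ ∃ p ∉ J, At P p :=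
    fun P hP => by
      by_contra! h
      exact (re ▸ (⟨hP, h.2.1, h.2.2⟩ : P ∈ Kt _ _ _) : P ∈ range e).elim h.1
  have bT : ∀ P ∈ T, ∀ p : Pl L, At P p → p ∈ b.T := fun P hP p h =>
    (fm.pg P hP).elim (fun a => (Lies.not_trv h a).elim) fun ⟨p', a, h'⟩ => Lies.uniq h h' ▸ a
  have iT : ∀ p ∈ π.I, p ∈ b.T := fun p hp => by
    obtain ⟨-, -, P, a, h⟩ := (pd.hI p).1 hp
    exact bT P a p h
  have ol : ∀ P ∈ T, ∀ p' ∉ J, At P p' → ∀ p ∈ b.T,
      P.ord (algebraMap L K (b.lam p)) = if p = p' then 1 else 0 := fun P hP p' hJ h p hp => by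
    have a := ok.lam p hp p' (bT P hP p' h)
    have m : P.ord (algebraMap L K p'.t) = 1 := (sc.od.od P hP p' hJ h).1
    rw [ok.sup p' (bT P hP p' h) fun a => hJ (sc.od.co a), dotProduct_zero, add_zero] at a
    rw [Lies.ord h, m, one_mul, a]
    simp only [eq_comm]
  have z1 : ∀ P, Hz L (Fin.append y u) P → ∀ p, P.ord (algebraMap L K (b.lam p)) = 0 :=
    fun P h p => by simpa [hm, mon] using h (b.lam p) 0 (ok.l0 p)
  have z2 : ∀ P, Hz L (Fin.append y u) P → ∀ i, P.ord (u i) = 0 := fun P h i => by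
    have := h 1 (Pi.single (Fin.natAdd r i) 1) one_ne_zero
    rwa [hm, map_one, one_mul, mon, Finset.prod_eq_single (Fin.natAdd r i)
      (fun j _ n => by simp [n]) (by simp), Pi.single_eq_same, zpow_one, Fin.append_right] at this
  have l0 : ∀ p, algebraMap L K (b.lam p) ≠ 0 := fun p => (map_ne_zero _).2 (ok.l0 p)
  have hl : ∀ p, (π.l p : K) = algebraMap L K (b.lam p) := fun p => by rw [pd.hl]; rfl
  have l1 : ∀ p, π.l p ≠ 0 := fun p a => l0 p (by rw [← hl, a]; rfl)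
  refine ⟨gn.ne, fun p hp => ⟨l1 p, (gn.sec _ _ (l1 p)).2 fun P hP => ?_⟩,
    fun δ φ hφ => ?_, fun δ m z => ?_⟩
  · rw [hl]
    obtain ⟨i, rfl⟩ | h | ⟨p', hp', h⟩ := tri P hP
    · rw [dr_self he, pd.hb, add_neg_cancel]
    · rw [dr_not (n1 P h), z1 P h p, add_zero]
    · rw [dr_not (n2 P p' hp' h), ol P hP p' hp' h p (iT p hp), add_zero]
      split_ifs
      exacts [zero_le_one, le_rfl]
  · by_cases φ0 : φ = 0
    · exact ⟨0, by simp [lv, φ0], fun m => by simp [hm]⟩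
    have a := (cx.sec δ φ φ0).1 hφ
    obtain ⟨G, rfl⟩ := fm.lau φ φ0 fun P hP h => by
      simpa [dr_not (n1 P h)] using a P hP
    obtain ⟨γ, b1, b2, -⟩ := cmp G
    refine ⟨γ, b1, fun m => Submodule.span_le.2 (range_subset_iff.2 fun w => ?_) (b2 m)⟩
    by_cases g0 : G w = 0
    · simp [g0, hm]
    refine (cx.sec δ _ (mul_ne_zero ((map_ne_zero _).2 g0) (mon_ne fm.ext.ind.ne_zero w))).2
      fun P hP => ?_
    by_cases h : Hz L (Fin.append y u) P
    · exact (by rw [dr_not (n1 P h), h _ w g0, add_zero] :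
        0 ≤ P.ord (hm (Fin.append y u) (G w) w) + δ ⬝ᵥ Dr e P)
    · exact (a P hP).trans (add_le_add_left (fm.inv P hP h G w (Finsupp.mem_support_iff.2 g0)) _)
  by_cases z0 : z = 0
  · simp [z0, hm]
  have z3 : (z : K) ≠ 0 := fun a => z0 (Subtype.ext a)
  have c0 : π.cc m ≠ 0 := Finset.prod_ne_zero_iff.2 fun p _ => zpow_ne_zero _ (l1 p)
  have oA : ∀ P : Pl K, P.ord (hm u z m) = P.ord (z : K) + (fun i => P.ord (u i)) ⬝ᵥ m := fun P => by
    rw [dotProduct_comm]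
    exact (Pl.ord_mul _ z3 (mon_ne u0 m)).trans (congrArg _ (ord_mon P u0 m))
  have oB : ∀ P : Pl K, P.ord ((z / π.cc m : Sm L y) : K) =
      P.ord (z : K) - ∑ p ∈ π.I, π.κ p m * P.ord (algebraMap L K (b.lam p)) := fun P => by
    have : ((π.cc m : Sm L y) : K) = ∏ p ∈ π.I, algebraMap L K (b.lam p) ^ π.κ p m := by
      refine (map_prod (algebraMap (Sm L y) K) _ _).trans (Finset.prod_congr rfl fun p _ => ?_)
      rw [map_zpow₀, ← hl]
      rfl
    rw [IntermediateField.coe_div, this, Pl.ord_div _ z3 (Finset.prod_ne_zero_iff.2 fun p _ =>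
      zpow_ne_zero _ (l0 p)), P.ord_prod _ fun p _ => zpow_ne_zero _ (l0 p)]
    simp only [Pl.ord_zpow]
  have key : ∀ P ∈ T, (P.ord (hm u z m) + δ ⬝ᵥ Dr e P =
      P.ord ((z / π.cc m : Sm L y) : K) + (δ - π.al m) ⬝ᵥ Dr e P) ∨
      ∃ p ∈ π.I, At P p := fun P hP => by
    rw [oA, oB]
    obtain ⟨i, rfl⟩ | h | ⟨p', hp', h⟩ := tri P hP
    · refine .inl ?_
      rw [dr_self he, dr_self he, dotProduct_comm]
      simp only [Wd.Pg.al, Pi.sub_apply, Pi.add_apply, Finset.sum_apply, Pi.smul_apply,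
        smul_eq_mul, pd.ha, pd.hb, mul_neg, Finset.sum_neg_distrib, dotProduct]
      ring
    · refine .inl ?_
      rw [dr_not (n1 P h), dr_not (n1 P h),
        Finset.sum_eq_zero fun p _ => by rw [z1 P h p, mul_zero]]
      simp [z2 P h, dotProduct]
    · by_cases hI : p' ∈ π.I
      · exact .inr ⟨p', hI, h⟩
      have b : ∀ i, P.ord (u i) = 0 := fun i => sc.u0 P hP p'
        (fun a => hI ((pd.hI p').2 ⟨a, hp', P, hP, h⟩)) h i (u0 i)
      refine .inl ?_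
      rw [dr_not (n2 P p' hp' h), dr_not (n2 P p' hp' h), Finset.sum_eq_zero fun p hp => by
        rw [ol P hP p' hp' h p (iT p hp), if_neg fun a : p = p' => hI (a ▸ hp), mul_zero]]
      simp [b, dotProduct]
  have pg : ∀ P ∈ T, ∀ p ∈ π.I, At P p → P ∉ range e ∧
      P.ord ((z / π.cc m : Sm L y) : K) = P.ord (z : K) - π.κ p m := fun P hP p hp h => by
    have hJ := ((pd.hI p).1 hp).2.1
    refine ⟨n2 P p hJ h, ?_⟩
    rw [oB, Finset.sum_eq_single_of_mem p hp fun p' hp' ne => by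
      rw [ol P hP p hJ h p' (iT p' hp'), if_neg ne, mul_zero],
      ol P hP p hJ h p (iT p hp), if_pos rfl, mul_one]
  rw [cx.sec δ (hm u z m) (mul_ne_zero z3 (mon_ne u0 m)), gn.sec _ _ (div_ne_zero z0 c0)]
  refine ⟨fun H P hP => ?_, fun H P hP => ?_⟩
  · obtain a | ⟨p, hp, h⟩ := key P hP
    · exact a ▸ H P hP
    obtain ⟨v, hv, b'⟩ := (pd.hk p hp m).2
    obtain ⟨P', hP', h', rfl⟩ := (pd.hV p v).1 hv
    have := H P' hP'
    rw [oA, dr_not (pg P' hP' p hp h').1, ← ind L K c r ρ b y u T J κ fm sc.od sc.y1 p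
      ((pd.hI p).1 hp).2.1 P hP P' hP' h h' z z0] at this
    rw [(pg P hP p hp h).2, dr_not (pg P hP p hp h).1]
    omega
  · obtain a | ⟨p, hp, h⟩ := key P hP
    · exact a ▸ H P hP
    have b' := (pd.hk p hp m).1 _ ((pd.hV p _).2 ⟨P, hP, h, rfl⟩)
    have := H P hP
    rw [(pg P hP p hp h).2, dr_not (pg P hP p hp h).1] at this
    rw [oA, dr_not (pg P hP p hp h).1]
    omega

end Vale.Agent.P283R.Cq
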